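import Vale.Agent.P163.Defs

open Filter Topology

namespace Vale.Agent.P163

variable {V : Type} [AddCommGroup V] [Module ℝ V]

theorem form_cs (b : V →ₗ[ℝ] V →ₗ[ℝ] ℝ) (hs : ∀ v w, b v w = b w v) (hp : ∀ v, 0 ≤ b v v)
    (v w : V) : b v w ^ 2 ≤ b v v * b w w := by
  have h := discrim_le_zero (a := b v v) (b := 2 * b v w) (c := b w w) fun t => by
    have := hp (t • v + w)
    simp only [map_add, map_smul, LinearMap.add_apply, LinearMap.smul_apply, smul_eq_mul,
      hs w v] at this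
    linarith
  unfold discrim at h
  linarith

/-- a bounded nonnegative log convex sequence is nonincreasing -/
theorem logconvex_anti (s : ℕ → ℝ) (h0 : ∀ m, 0 ≤ s m) (hc : ∀ m, s (m + 1) ^ 2 ≤ s m * s (m + 2))
    (C : ℝ) (hb : ∀ m, s m ≤ C) : Antitone s := by
  have h1 : ∀ m, 2 * s (m + 1) ≤ s m + s (m + 2) := fun m =>
    le_of_sq_le_sq (by nlinarith [hc m, sq_nonneg (s m - s (m + 2))]) (add_nonneg (h0 _) (h0 _))
  refine antitone_nat_of_succ_le fun m => le_of_not_gt fun hlt => ?_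
  have h2 : ∀ k : ℕ, s (m + 1) - s m ≤ s (m + k + 1) - s (m + k) ∧
      k * (s (m + 1) - s m) ≤ s (m + k) := by
    intro k
    induction k with
    | zero => simpa using h0 m
    | succ k ih =>
      have := h1 (m + k)
      rw [← add_assoc]
      push_cast
      constructor <;> linarith [ih.1, ih.2]
  obtain ⟨k, hk⟩ := exists_nat_gt (C / (s (m + 1) - s m))
  rw [div_lt_iff₀ (sub_pos.2 hlt)] at hk
  linarith [(h2 k).2, hb (m + k)]

/-- `s m = b (S^m v) (S^m v)` is log convex -/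
theorem shift_contr (b : V →ₗ[ℝ] V →ₗ[ℝ] ℝ) (hs : ∀ v w, b v w = b w v) (hp : ∀ v, 0 ≤ b v v)
    (S : V →ₗ[ℝ] V) (hS : ∀ v w, b (S v) w = b v (S w))
    (hb : ∀ v, ∃ C, ∀ m, b ((S ^ m) v) ((S ^ m) v) ≤ C) (v : V) : b (S v) (S v) ≤ b v v := by
  obtain ⟨C, hC⟩ := hb v
  have h := logconvex_anti (fun m => b ((S ^ m) v) ((S ^ m) v)) (fun m => hp _) (fun m => by
    have := form_cs b hs hp ((S ^ m) v) ((S ^ (m + 2)) v)
    rw [pow_succ' S (m + 1), Module.End.mul_apply, ← hS] at this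
    rw [pow_succ' S (m + 1), Module.End.mul_apply]
    rwa [pow_succ' S m, Module.End.mul_apply] at this ⊢) C hC (Nat.zero_le 1)
  simpa using h

theorem hilb_sa_pow {b : V →ₗ[ℝ] V →ₗ[ℝ] ℝ} {R : V →ₗ[ℝ] V} (hR : ∀ v w, b (R v) w = b v (R w))
    (k : ℕ) (v w : V) : b ((R ^ k) v) w = b v ((R ^ k) w) := by
  induction k generalizing w with
  | zero => rfl
  | succ k ih => rw [pow_succ', Module.End.mul_apply, hR, ih, ← pow_succ', pow_succ]; rfl

theorem hilb_pos_pow {b : V →ₗ[ℝ] V →ₗ[ℝ] ℝ} (hp : ∀ v, 0 ≤ b v v) {R : V →ₗ[ℝ] V}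
    (hR : ∀ v w, b (R v) w = b v (R w)) (h1 : ∀ v, 0 ≤ b v (R v)) (k : ℕ) :
    ∀ v, 0 ≤ b v ((R ^ k) v) := by
  induction k using Nat.twoStepInduction with
  | zero => exact hp
  | one => simpa using h1
  | more k ih _ =>
    intro v
    have := ih (R v)
    rw [hR] at this
    rw [pow_succ, pow_succ']
    exact this

/-- With `T = S * S` the forms `β k (v, w) = b v (((1 - T)^k * T) w)` are symmetric and positive
(` (1-T)^k` is a square or a square times `1 - T`, which is positive by `shift_contr`), decrease in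
`k`, and `∑ i ≤ k, β i (v, v) = b v v - b v ((1-T)^(k+1) v) ≤ b v v`. -/
theorem shift_tail (b : V →ₗ[ℝ] V →ₗ[ℝ] ℝ) (hs : ∀ v w, b v w = b w v) (hp : ∀ v, 0 ≤ b v v)
    (S : V →ₗ[ℝ] V) (hS : ∀ v w, b (S v) w = b v (S w))
    (hb : ∀ v, ∃ C, ∀ m, b ((S ^ m) v) ((S ^ m) v) ≤ C) (k : ℕ) (v w : V) :
    |b v (((1 - S * S) ^ k * (S * S)) w)| ≤ Real.sqrt (b v v) * Real.sqrt (b w w) / (k + 1) := by
  have hR : ∀ v w, b ((1 - S * S) v) w = b v ((1 - S * S) w) := fun v w => by
    simp [hS]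
  have h1 : ∀ v, 0 ≤ b v ((1 - S * S) v) := fun v => by
    have := shift_contr b hs hp S hS hb v
    rw [hS] at this
    simpa using this
  have hP := hilb_pos_pow hp hR h1
  have hc : ∀ k, Commute ((1 - S * S) ^ k) S := fun k =>
    ((Commute.one_left S).sub_left ((Commute.refl S).mul_left (Commute.refl S))).pow_left k
  have e : ∀ (k : ℕ) v w, b v (((1 - S * S) ^ k * (S * S)) w) =
      b (S v) (((1 - S * S) ^ k) (S w)) := fun k v w => by
    rw [hS, ← mul_assoc, (hc k).eq]; rfl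
  have e' : ∀ (k : ℕ) v, b v (((1 - S * S) ^ (k + 1)) v) =
      b v (((1 - S * S) ^ k) v) - b (S v) (((1 - S * S) ^ k) (S v)) := fun k v => by
    rw [← e, pow_succ, mul_sub, mul_one, LinearMap.sub_apply, map_sub]
  have key : ∀ (k : ℕ) v, (k + 1) * b (S v) (((1 - S * S) ^ k) (S v)) +
      b v (((1 - S * S) ^ (k + 1)) v) ≤ b v v := by
    intro k v
    induction k with
    | zero => rw [e']; simp
    | succ k ih =>
      have a1 := e' (k + 1) v
      have a2 := e' k (S v)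
      have a3 := mul_nonneg (by positivity : (0 : ℝ) ≤ k + 1) (hP k (S (S v)))
      rw [a1]
      push_cast
      nlinarith
  have key' : ∀ v, b (S v) (((1 - S * S) ^ k) (S v)) ≤ b v v / (k + 1) := fun v => by
    rw [le_div_iff₀ (by positivity)]
    linarith [key k v, hP (k + 1) v]
  have cs := form_cs (b.compl₂ ((1 - S * S) ^ k)) (fun v w => by
    rw [LinearMap.compl₂_apply, LinearMap.compl₂_apply, ← hilb_sa_pow hR, hs]) (hP k) (S v) (S w)
  simp only [LinearMap.compl₂_apply] at cs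
  rw [e]
  refine abs_le_of_sq_le_sq ?_ (by positivity)
  rw [div_pow, mul_pow, Real.sq_sqrt (hp v), Real.sq_sqrt (hp w), sq ((k : ℝ) + 1),
    ← div_mul_div_comm]
  exact cs.trans (mul_le_mul (key' v) (key' w) (hP k _) (div_nonneg (hp v) (by positivity)))

/-- Downward induction on `m`: `T^(m+1) = ∑ i < k, (1-T)^i T^(m+2) + (1-T)^k T T^m`; every
`b v ((1-T)^i T^m' w)` with `m' ≥ m + 2` tends to zero (induction on `i`), and the last term is at
most `K / (k+1)`. -/
theorem move_abs {ι : Type} (l : Filter ι) (b : V →ₗ[ℝ] V →ₗ[ℝ] ℝ) (hs : ∀ v w, b v w = b w v)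
    (hp : ∀ v, 0 ≤ b v v) (S : ι → V →ₗ[ℝ] V) (hS : ∀ n v w, b (S n v) w = b v (S n w))
    (hb : ∀ n v, ∃ C, ∀ m, b ((S n ^ m) v) ((S n ^ m) v) ≤ C) (v w : ι → V) (K : ℝ)
    (hK : ∀ᶠ n in l, b (v n) (v n) ≤ K ∧ b (w n) (w n) ≤ K) (m0 : ℕ)
    (h : ∀ m, m0 ≤ m → Tendsto (fun n => b (v n) (((S n * S n) ^ m) (w n))) l (𝓝 0)) :
    Tendsto (fun n => b (v n) ((S n * S n) (w n))) l (𝓝 0) := by
  have e : ∀ n (i m : ℕ), b (v n) (((1 - S n * S n) ^ (i + 1) * (S n * S n) ^ m) (w n)) =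
      b (v n) (((1 - S n * S n) ^ i * (S n * S n) ^ m) (w n)) -
        b (v n) (((1 - S n * S n) ^ i * (S n * S n) ^ (m + 1)) (w n)) := fun n i m => by
    rw [pow_succ, mul_assoc, sub_mul, one_mul, mul_sub, ← pow_succ', LinearMap.sub_apply, map_sub]
  have hT : ∀ n (j : ℕ), b (((S n * S n) ^ j) (w n)) (((S n * S n) ^ j) (w n)) ≤ b (w n) (w n) := by
    intro n j
    induction j with
    | zero => exact le_rfl
    | succ j ih =>
      rw [pow_succ']
      exact ((shift_contr b hs hp _ (hS n) (hb n) _).trans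
        (shift_contr b hs hp _ (hS n) (hb n) _)).trans ih
  have step : ∀ j : ℕ, (∀ m : ℕ, j + 2 ≤ m → Tendsto (fun n => b (v n) (((S n * S n) ^ m) (w n))) l
      (𝓝 0)) → Tendsto (fun n => b (v n) (((S n * S n) ^ (j + 1)) (w n))) l (𝓝 0) := by
    intro j hj
    have h1 : ∀ i m : ℕ, j + 2 ≤ m → Tendsto
        (fun n => b (v n) (((1 - S n * S n) ^ i * (S n * S n) ^ m) (w n))) l (𝓝 0) := by
      intro i
      induction i with
      | zero => simpa using hj
      | succ i ih =>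
        intro m hm
        simpa only [e, sub_zero] using (ih m hm).sub (ih (m + 1) (by omega))
    have h2 : ∀ k : ℕ, Tendsto (fun n => b (v n) (((S n * S n) ^ (j + 1)) (w n)) -
        b (v n) (((1 - S n * S n) ^ k * (S n * S n) ^ (j + 1)) (w n))) l (𝓝 0) := by
      intro k
      induction k with
      | zero => simpa using tendsto_const_nhds
      | succ k ih =>
        have := ih.add (h1 k (j + 1 + 1) le_rfl)
        rw [add_zero] at this
        exact this.congr fun n => by rw [e]; ring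
    rw [Metric.tendsto_nhds]
    intro ε hε
    obtain ⟨k, hk⟩ := exists_nat_gt (K / (ε / 2))
    rw [div_lt_iff₀ (half_pos hε)] at hk
    filter_upwards [Metric.tendsto_nhds.1 (h2 k) _ (half_pos hε), hK] with n a1 a2
    have a3 := shift_tail b hs hp _ (hS n) (hb n) k (v n) (((S n * S n) ^ j) (w n))
    rw [← Module.End.mul_apply, mul_assoc, ← pow_succ'] at a3
    have hK0 : 0 ≤ K := (hp _).trans a2.1
    have a4 : Real.sqrt (b (v n) (v n)) *
        Real.sqrt (b (((S n * S n) ^ j) (w n)) (((S n * S n) ^ j) (w n))) ≤ K :=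
      (mul_le_mul (Real.sqrt_le_sqrt a2.1) (Real.sqrt_le_sqrt ((hT n j).trans a2.2))
        (Real.sqrt_nonneg _) (Real.sqrt_nonneg _)).trans (Real.mul_self_sqrt hK0).le
    have a5 : K / (k + 1) ≤ ε / 2 := by
      rw [div_le_iff₀ (by positivity)]
      nlinarith
    have a6 := a3.trans ((div_le_div_of_nonneg_right a4 (by positivity)).trans a5)
    rw [Real.dist_eq, sub_zero, abs_lt] at a1 ⊢
    rw [abs_le] at a6
    constructor <;> linarith [a1.1, a1.2, a6.1, a6.2]
  have main : ∀ d m : ℕ, m0 ≤ m + 1 + d →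
      Tendsto (fun n => b (v n) (((S n * S n) ^ (m + 1)) (w n))) l (𝓝 0) := by
    intro d
    induction d with
    | zero => exact fun m hm => h _ hm
    | succ d ih =>
      refine fun m hm => step m fun m' hm' => ?_
      obtain ⟨j, rfl⟩ : ∃ j, m' = j + 1 := ⟨m' - 1, by omega⟩
      exact ih j (by omega)
  simpa only [zero_add, pow_one] using main m0 0 (by omega)

end Vale.Agent.P163
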