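import Vale.Agent.P163.Defs

open Filter Topology Metric

namespace Vale.Agent.P163

/-- the one dimensional profile -/
noncomputable def pou_tau (s : ℝ) : ℝ := Real.smoothTransition (s + 1) - Real.smoothTransition s

theorem pou_tau_sm : ContDiff ℝ (⊤ : ℕ∞) pou_tau :=
  (Real.smoothTransition.contDiff.comp (contDiff_id.add contDiff_const)).sub
    Real.smoothTransition.contDiff

theorem pou_tau_mem (s : ℝ) : 0 ≤ pou_tau s ∧ pou_tau s ≤ 1 := by
  have h1 := Real.smoothTransition.monotone (show s ≤ s + 1 by linarith)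
  have h2 := Real.smoothTransition.le_one (s + 1)
  have h3 := Real.smoothTransition.nonneg s
  unfold pou_tau
  constructor <;> linarith

theorem pou_tau_ne {s : ℝ} (h : pou_tau s ≠ 0) : |s| < 1 := by
  by_contra h1
  refine h ?_
  unfold pou_tau
  rcases le_abs.1 (not_lt.1 h1) with h2 | h2
  · rw [Real.smoothTransition.one_of_one_le h2,
      Real.smoothTransition.one_of_one_le (by linarith), sub_self]
  · rw [Real.smoothTransition.zero_of_nonpos (x := s) (by linarith),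
      Real.smoothTransition.zero_of_nonpos (by linarith), sub_self]

theorem pou_tau_floor {s : ℝ} {j : ℤ} (h : pou_tau (s - j) ≠ 0) :
    j ∈ ({⌊s⌋, ⌊s⌋ + 1} : Finset ℤ) := by
  have h1 := abs_lt.1 (pou_tau_ne h)
  have h2 : ((⌊s⌋ - 1 : ℤ) : ℝ) < j := by
    push_cast
    linarith [Int.floor_le s]
  have h3 : (j : ℝ) < ((⌊s⌋ + 2 : ℤ) : ℝ) := by
    push_cast
    linarith [Int.lt_floor_add_one s]
  rw [Int.cast_lt] at h2 h3
  simp only [Finset.mem_insert, Finset.mem_singleton]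
  omega

theorem pou_tau_sum (s : ℝ) : ∑ j ∈ ({⌊s⌋, ⌊s⌋ + 1} : Finset ℤ), pou_tau (s - j) = 1 := by
  rw [Finset.sum_pair (by omega)]
  have e : s - ((⌊s⌋ + 1 : ℤ) : ℝ) + 1 = s - ⌊s⌋ := by
    push_cast
    ring
  unfold pou_tau
  rw [e, Real.smoothTransition.one_of_one_le (by linarith [Int.floor_le s]),
    Real.smoothTransition.zero_of_nonpos (x := s - ((⌊s⌋ + 1 : ℤ) : ℝ))
      (by push_cast; linarith [Int.lt_floor_add_one s])]
  ring

theorem pou_cpt {f : Pl → ℝ} {w : Pl} {r : ℝ} (h : tsupport f ⊆ closedBall w r) :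
    HasCompactSupport f := (isCompact_closedBall w r).of_isClosed_subset (isClosed_tsupport f) h

theorem pou_abs {r x a : ℝ} (hr : 0 < r) (h : |x / r - a| < 1) : dist x (r * a) ≤ r := by
  have e : x - r * a = r * (x / r - a) := by field_simp
  rw [Real.dist_eq, e, abs_mul, abs_of_pos hr]
  exact mul_le_of_le_one_right hr.le h.le

/-- `ρ p z = τ (z.1 / r - p.1) * τ (z.2 / r - p.2)` with
`τ s = smoothTransition (s + 1) - smoothTransition s` (telescoping sums). -/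
theorem pou (r : ℝ) (hr : 0 < r) : ∃ ρ : Site → Pl → ℝ, (∀ p, Sm (ρ p)) ∧
    (∀ p, tsupport (ρ p) ⊆ closedBall ((r * p.1, r * p.2) : Pl) r) ∧
    (∀ p z, 0 ≤ ρ p z ∧ ρ p z ≤ 1) ∧
    ∀ (z : Pl) (I : Finset Site), (∀ p, ρ p z ≠ 0 → p ∈ I) → ∑ p ∈ I, ρ p z = 1 := by
  have hs : ∀ p : Site, tsupport (fun z : Pl => pou_tau (z.1 / r - p.1) * pou_tau (z.2 / r - p.2))
      ⊆ closedBall ((r * p.1, r * p.2) : Pl) r := by
    intro p
    refine closure_minimal (fun z hz => ?_) isClosed_closedBall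
    rw [mem_closedBall, Prod.dist_eq]
    exact max_le (pou_abs hr (pou_tau_ne (left_ne_zero_of_mul hz)))
      (pou_abs hr (pou_tau_ne (right_ne_zero_of_mul hz)))
  refine ⟨fun p z => pou_tau (z.1 / r - p.1) * pou_tau (z.2 / r - p.2),
    fun p => ⟨?_, pou_cpt (hs p)⟩, hs, fun p z => ?_, fun z I hI => ?_⟩
  · exact (pou_tau_sm.comp ((contDiff_fst.div_const r).sub contDiff_const)).mul
      (pou_tau_sm.comp ((contDiff_snd.div_const r).sub contDiff_const))
  · exact ⟨mul_nonneg (pou_tau_mem _).1 (pou_tau_mem _).1,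
      mul_le_one₀ (pou_tau_mem _).2 (pou_tau_mem _).1 (pou_tau_mem _).2⟩
  · classical
    have h1 := Finset.sum_subset (f := fun p : Site =>
      pou_tau (z.1 / r - p.1) * pou_tau (z.2 / r - p.2)) (Finset.subset_union_left (s₁ := I)
        (s₂ := ({⌊z.1 / r⌋, ⌊z.1 / r⌋ + 1} : Finset ℤ) ×ˢ ({⌊z.2 / r⌋, ⌊z.2 / r⌋ + 1} : Finset ℤ)))
      fun p _ hp => by_contra fun h => hp (hI p h)
    have h2 := Finset.sum_subset (f := fun p : Site =>
      pou_tau (z.1 / r - p.1) * pou_tau (z.2 / r - p.2)) (Finset.subset_union_right (s₁ := I)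
        (s₂ := ({⌊z.1 / r⌋, ⌊z.1 / r⌋ + 1} : Finset ℤ) ×ˢ ({⌊z.2 / r⌋, ⌊z.2 / r⌋ + 1} : Finset ℤ)))
      fun p _ hp => by_contra fun h => hp (Finset.mem_product.2
        ⟨pou_tau_floor (left_ne_zero_of_mul h), pou_tau_floor (right_ne_zero_of_mul h)⟩)
    refine h1.trans (h2.symm.trans ?_)
    rw [Finset.sum_product' (f := fun i j : ℤ => pou_tau (z.1 / r - i) * pou_tau (z.2 / r - j)),
      ← Finset.sum_mul_sum, pou_tau_sum, pou_tau_sum, one_mul]

/-- cutoffs at every scale with a scale invariant gradient bound -/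
theorem cutoff : ∃ C : ℝ, 0 ≤ C ∧ ∀ (w : Pl) (r : ℝ), 0 < r → ∃ χ : Pl → ℝ, Sm χ ∧
    (∀ z ∈ closedBall w (2 * r), χ z = 1) ∧ tsupport χ ⊆ closedBall w (3 * r) ∧
    (∀ z, |χ z| ≤ 1) ∧ ∀ z, ‖fderiv ℝ χ z‖ ≤ C / r := by
  let b : ContDiffBump (0 : Pl) := ⟨2, 3, by norm_num, by norm_num⟩
  have hb : ContDiff ℝ (⊤ : ℕ∞) b := b.contDiff
  obtain ⟨C, hC⟩ := (hb.continuous_fderiv (by simp)).bounded_above_of_compact_support
    (b.hasCompactSupport.fderiv ℝ)
  refine ⟨C, (norm_nonneg _).trans (hC 0), fun w r hr => ?_⟩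
  have hn : ∀ z : Pl, ‖r⁻¹ • (z - w)‖ = dist z w / r := fun z => by
    rw [norm_smul, Real.norm_of_nonneg (inv_pos.2 hr).le, dist_eq_norm, div_eq_inv_mul]
  have hs : tsupport (fun z => b (r⁻¹ • (z - w))) ⊆ closedBall w (3 * r) := by
    refine closure_minimal (fun z hz => ?_) isClosed_closedBall
    have h1 : r⁻¹ • (z - w) ∈ Function.support b := hz
    rw [b.support_eq, mem_ball_zero_iff, hn, div_lt_iff₀ hr] at h1
    exact h1.le
  refine ⟨fun z => b (r⁻¹ • (z - w)),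
    ⟨hb.comp ((contDiff_id.sub contDiff_const).const_smul _), pou_cpt hs⟩, fun z hz => ?_, hs,
    fun z => ?_, fun z => ?_⟩
  · refine b.one_of_mem_closedBall ?_
    rw [mem_closedBall_zero_iff, hn, div_le_iff₀ hr]
    exact hz
  · rw [abs_of_nonneg b.nonneg]
    exact b.le_one
  · have h1 : HasFDerivAt (fun z : Pl => r⁻¹ • (z - w)) (r⁻¹ • ContinuousLinearMap.id ℝ Pl) z :=
      ((hasFDerivAt_id z).sub_const w).const_smul r⁻¹
    have h2 := ((hb.differentiable (by simp) (r⁻¹ • (z - w))).hasFDerivAt.comp z h1).fderiv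
    have h3 : fderiv ℝ (fun z => b (r⁻¹ • (z - w))) z = r⁻¹ • fderiv ℝ b (r⁻¹ • (z - w)) := by
      refine h2.trans ?_
      rw [ContinuousLinearMap.comp_smul, ContinuousLinearMap.comp_id]
    rw [h3, norm_smul, Real.norm_of_nonneg (inv_pos.2 hr).le, div_eq_inv_mul]
    exact mul_le_mul_of_nonneg_left (hC _) (inv_pos.2 hr).le

/-- even bumps: `φ z = χ z.1 * χ z.2` with a `ContDiffBump` on the line -/
theorem even_bump (a b : ℝ) (ha : 0 < a) (hab : a < b) : ∃ φ : Pl → ℝ, Sm φ ∧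
    (∀ z ∈ closedBall (0 : Pl) a, φ z = 1) ∧ tsupport φ ⊆ closedBall (0 : Pl) b ∧
    ∀ z : Pl, φ (-z.1, z.2) = φ z := by
  let χ : ContDiffBump (0 : ℝ) := ⟨a, b, ha, hab⟩
  have hχ : ContDiff ℝ (⊤ : ℕ∞) χ := χ.contDiff
  have h0 : ∀ s, χ s ≠ 0 → ‖s‖ ≤ b := fun s hs => by
    have h1 : s ∈ Function.support χ := hs
    rw [χ.support_eq, mem_ball_zero_iff] at h1
    exact h1.le
  have hs : tsupport (fun z : Pl => χ z.1 * χ z.2) ⊆ closedBall (0 : Pl) b := by
    refine closure_minimal (fun z hz => ?_) isClosed_closedBall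
    rw [mem_closedBall_zero_iff, Prod.norm_def]
    exact max_le (h0 _ (left_ne_zero_of_mul hz)) (h0 _ (right_ne_zero_of_mul hz))
  refine ⟨fun z => χ z.1 * χ z.2,
    ⟨(hχ.comp contDiff_fst).mul (hχ.comp contDiff_snd), pou_cpt hs⟩, fun z hz => ?_, hs,
    fun z => ?_⟩
  · rw [mem_closedBall_zero_iff] at hz
    have h1 := χ.one_of_mem_closedBall (mem_closedBall_zero_iff.2 ((norm_fst_le z).trans hz))
    have h2 := χ.one_of_mem_closedBall (mem_closedBall_zero_iff.2 ((norm_snd_le z).trans hz))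
    simp only [h1, h2, one_mul]
  · simp only [χ.neg]

end Vale.Agent.P163
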