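import Vale.Agent.P163.BasA

open Filter Topology Metric

namespace Vale.Agent.P163

theorem samp_int {l : ℕ} (hl : 0 < l) (p r : ℝ) (hr : 0 ≤ r) : ∃ S : Finset ℤ,
    (∀ n : ℤ, |((n : ℝ) + 1 / 2) / l - p| ≤ r → n ∈ S) ∧ (S.card : ℝ) ≤ 2 * r * l + 1 := by
  have l0 : (0 : ℝ) < l := by exact_mod_cast hl
  refine ⟨Finset.Icc ⌈(p - r) * l - 1 / 2⌉ ⌊(p + r) * l - 1 / 2⌋, fun n hn => ?_, ?_⟩
  · obtain ⟨h1, h2⟩ := abs_le.1 hn
    rw [le_sub_iff_add_le, le_div_iff₀ l0] at h1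
    rw [sub_le_iff_le_add, div_le_iff₀ l0] at h2
    rw [Finset.mem_Icc, Int.ceil_le, Int.le_floor]
    constructor <;> linarith
  · rw [Int.card_Icc, ← Int.cast_natCast, Int.ofNat_toNat, Int.cast_max]
    refine max_le ?_ (by rw [Int.cast_zero]; positivity)
    push_cast
    linarith [Int.le_ceil ((p - r) * l - 1 / 2), Int.floor_le ((p + r) * l - 1 / 2)]

theorem samp_box {l : ℕ} (hl : 0 < l) (p : Pl) (r : ℝ) (hr : 0 ≤ r) : ∃ S : Finset Site,
    (∀ x, pt l x ∈ closedBall p r → x ∈ S) ∧ (S.card : ℝ) ≤ (2 * r * l + 1) ^ 2 := by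
  obtain ⟨S, h1, h2⟩ := samp_int hl p.1 r hr
  obtain ⟨T, h3, h4⟩ := samp_int hl p.2 r hr
  refine ⟨S ×ˢ T, fun x hx => ?_, ?_⟩
  · rw [mem_closedBall, Prod.dist_eq, max_le_iff] at hx
    exact Finset.mem_product.2 ⟨h1 _ hx.1, h3 _ hx.2⟩
  · rw [Finset.card_product, Nat.cast_mul, sq]
    exact mul_le_mul h2 h4 (Nat.cast_nonneg _) (by positivity)

theorem samp_nsq {l : ℕ} (hl : 0 < l) (g : Site →₀ ℝ) (p : Pl) {r a : ℝ} (hr : 0 ≤ r)
    (h : ∀ x, g x ≠ 0 → pt l x ∈ closedBall p r) (ha : ∀ x, |g x| ≤ a) :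
    nsq g ≤ (2 * r * l + 1) ^ 2 * a ^ 2 := by
  obtain ⟨S, h1, h2⟩ := samp_box hl p r hr
  exact (nsq_le_card g S a (fun x hx => h1 x (h x hx)) ha).trans
    (mul_le_mul_of_nonneg_right h2 (sq_nonneg _))

theorem samp_apply {l : ℕ} (hl : 0 < l) {f : Pl → ℝ} {p : Pl} {r : ℝ} (hr : 0 ≤ r)
    (hf : ∀ z, f z ≠ 0 → z ∈ closedBall p r) (x : Site) : smp l f x = f (pt l x) := by
  obtain ⟨S, h1, -⟩ := samp_box hl p r hr
  have h2 : (Function.support fun x => f (pt l x)).Finite :=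
    S.finite_toSet.subset fun y hy => h1 y (hf _ hy)
  rw [smp, dif_pos h2]
  rfl

theorem samp_rad {F : Type} [Zero F] {φ : Pl → F} (hφ : HasCompactSupport φ) :
    ∃ r : ℝ, 0 < r ∧ ∀ z, φ z ≠ 0 → z ∈ closedBall (0 : Pl) r :=
  hφ.exists_pos_le_norm.imp fun _ h => ⟨h.1, fun z hz =>
    mem_closedBall_zero_iff.2 (not_le.1 fun h' => hz (h.2 z h')).le⟩

theorem smp_apply {l : ℕ} (hl : 0 < l) {φ : Pl → ℝ} (hφ : HasCompactSupport φ) (x : Site) :
    smp l φ x = φ (pt l x) := by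
  obtain ⟨r, hr, h⟩ := samp_rad hφ
  exact samp_apply hl hr.le h x

theorem smp_zero (φ : Pl → ℝ) : smp 0 φ = 0 := by
  rw [smp]
  split_ifs with h
  · ext x
    by_contra hx
    refine Set.infinite_univ (h.subset fun y _ => ?_)
    have e : pt 0 y = pt 0 x := by simp [pt]
    rw [Function.mem_support, e]
    exact hx
  · rfl

theorem smp_add (l : ℕ) {φ ψ : Pl → ℝ} (hφ : HasCompactSupport φ) (hψ : HasCompactSupport ψ) :
    smp l (fun p => φ p + ψ p) = smp l φ + smp l ψ := by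
  rcases l.eq_zero_or_pos with rfl | hl
  · simp [smp_zero]
  · ext x
    rw [Finsupp.add_apply, smp_apply hl hφ, smp_apply hl hψ]
    exact smp_apply hl (hφ.add hψ) x

theorem smp_sub (l : ℕ) {φ ψ : Pl → ℝ} (hφ : HasCompactSupport φ) (hψ : HasCompactSupport ψ) :
    smp l (fun p => φ p - ψ p) = smp l φ - smp l ψ := by
  rcases l.eq_zero_or_pos with rfl | hl
  · simp [smp_zero]
  · ext x
    rw [Finsupp.sub_apply, smp_apply hl hφ, smp_apply hl hψ]
    exact smp_apply hl (hφ.sub hψ) x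

theorem smp_smul (l : ℕ) (c : ℝ) {φ : Pl → ℝ} (hφ : HasCompactSupport φ) :
    smp l (fun p => c * φ p) = c • smp l φ := by
  rcases l.eq_zero_or_pos with rfl | hl
  · simp [smp_zero]
  · ext x
    rw [Finsupp.smul_apply, smp_apply hl hφ]
    exact smp_apply hl (hφ.mul_left (f := fun _ => c)) x

theorem smp_shift (l : ℕ) (m : ℕ) {φ : Pl → ℝ} (hφ : HasCompactSupport φ) :
    smp l (fun p => φ (p - (2 * (m : ℝ), 0))) = sh (2 * (m : ℤ) * l, 0) (smp l φ) := by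
  ext x
  rcases l.eq_zero_or_pos with rfl | hl
  · simp [smp_zero, sh_apply]
  · have l0 : (l : ℝ) ≠ 0 := by exact_mod_cast hl.ne'
    rw [sh_apply, smp_apply hl hφ]
    refine (smp_apply hl (hφ.comp_homeomorph (Homeomorph.subRight _)) x).trans (congrArg φ ?_)
    refine Prod.ext ?_ ?_
    · simp only [pt, Homeomorph.subRight_apply, Prod.fst_sub]
      push_cast
      field_simp
      ring
    · simp [pt]

theorem dist_pt {l : ℕ} (hl : 0 < l) (x y : Site) (R : ℤ) (h : y ∈ bl x R) :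
    dist (pt l y) (pt l x) ≤ R / l := by
  have l0 : (0 : ℝ) < l := by exact_mod_cast hl
  have k : ∀ a b : ℤ, |a - b| ≤ R → dist (((a : ℝ) + 1 / 2) / l) (((b : ℝ) + 1 / 2) / l) ≤ R / l :=
    fun a b hab => by
      rw [Real.dist_eq, ← sub_div, abs_div, abs_of_pos l0, add_sub_add_right_eq_sub]
      exact div_le_div_of_nonneg_right (by exact_mod_cast hab) l0.le
  exact max_le (k _ _ h.1) (k _ _ h.2)

/-- the unit vectors of the plane -/
noncomputable def samp_v (μ : Fin 2) : Pl := (((ee μ).1 : ℝ), ((ee μ).2 : ℝ))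

theorem samp_v_norm (μ : Fin 2) : ‖samp_v μ‖ ≤ 1 := by
  fin_cases μ <;> simp [samp_v, ee]

theorem samp_pt_add (l : ℕ) (μ : Fin 2) (x : Site) :
    pt l (x + ee μ) = pt l x + (l : ℝ)⁻¹ • samp_v μ := by
  refine Prod.ext ?_ ?_ <;> simp only [pt, samp_v, Prod.fst_add, Prod.snd_add, Prod.smul_fst,
    Prod.smul_snd, smul_eq_mul] <;> push_cast <;> ring

theorem samp_pt_sub (l : ℕ) (μ : Fin 2) (x : Site) :
    pt l (x - ee μ) = pt l x + (l : ℝ)⁻¹ • -samp_v μ := by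
  rw [smul_neg, ← sub_eq_add_neg, eq_sub_iff_add_eq, ← samp_pt_add, sub_add_cancel]

theorem samp_h_norm (l : ℕ) {v : Pl} (hv : ‖v‖ ≤ 1) : ‖(l : ℝ)⁻¹ • v‖ ≤ (l : ℝ)⁻¹ := by
  rw [norm_smul, Real.norm_of_nonneg (by positivity)]
  exact mul_le_of_le_one_right (by positivity) hv

theorem samp_lip {F : Type} [NormedAddCommGroup F] [NormedSpace ℝ F] {f : Pl → F} (hf : Sm f) :
    ∃ K : ℝ, 0 ≤ K ∧ ∀ a b, ‖f a - f b‖ ≤ K * ‖a - b‖ := by
  obtain ⟨K, hK⟩ := hf.1.lipschitzWith_of_hasCompactSupport hf.2 (by simp)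
  exact ⟨K, K.2, fun a b => hK.norm_sub_le a b⟩

theorem samp_fd {F : Type} [NormedAddCommGroup F] [NormedSpace ℝ F] {f : Pl → F} (hf : Sm f) :
    Sm (fderiv ℝ f) := ⟨hf.1.fderiv_right le_rfl, hf.2.fderiv ℝ⟩

theorem samp_second {φ : Pl → ℝ} (hφ : Sm φ) : ∃ K : ℝ, 0 ≤ K ∧
    (∀ z h k, |φ (z + h + k) - φ (z + h) - φ (z + k) + φ z| ≤ K * ‖h‖ * ‖k‖) ∧
      ∀ z h, |φ (z + h) - φ z - fderiv ℝ φ z h| ≤ K * ‖h‖ * ‖h‖ := by
  obtain ⟨K, K0, hK⟩ := samp_lip (samp_fd hφ)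
  have hd := hφ.1.differentiable (by simp)
  refine ⟨K, K0, fun z h k => ?_, fun z h => ?_⟩
  · have h1 : ∀ w, HasFDerivAt (fun w => φ (w + h) - φ w)
        (fderiv ℝ φ (w + h) - fderiv ℝ φ w) w := fun w =>
      ((hasFDerivAt_comp_add_right h).2 (hd (w + h)).hasFDerivAt).sub (hd w).hasFDerivAt
    have h2 := convex_univ.norm_image_sub_le_of_norm_hasFDerivWithin_le (C := K * ‖h‖)
      (fun w _ => (h1 w).hasFDerivWithinAt)
      (fun w _ => by simpa only [add_sub_cancel_left] using hK (w + h) w)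
      (Set.mem_univ z) (Set.mem_univ (z + k))
    rw [add_sub_cancel_left, add_right_comm z k h] at h2
    refine le_trans (le_of_eq (congrArg _ ?_)) h2
    ring
  · have h2 := (convex_closedBall z ‖h‖).norm_image_sub_le_of_norm_fderiv_le' (C := K * ‖h‖)
      (φ := fderiv ℝ φ z) (fun w _ => hd w)
      (fun w hw => (hK w z).trans (mul_le_mul_of_nonneg_left (mem_closedBall_iff_norm.1 hw) K0))
      (mem_closedBall_self (norm_nonneg _)) (y := z + h) (by simp)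
    rwa [add_sub_cancel_left] at h2

theorem samp_near {l : ℕ} (hl : 0 < l) {v z : Pl} (hv : ‖v‖ ≤ 1) {r : ℝ}
    (h : z + (l : ℝ)⁻¹ • v ∈ closedBall (0 : Pl) r) : z ∈ closedBall (0 : Pl) (r + 1) := by
  have h1 := (samp_h_norm l hv).trans (inv_le_one_of_one_le₀ (by exact_mod_cast hl))
  have h2 := norm_sub_le (z + (l : ℝ)⁻¹ • v) ((l : ℝ)⁻¹ • v)
  rw [add_sub_cancel_right] at h2
  rw [mem_closedBall_zero_iff] at h ⊢
  linarith

theorem samp_cnt {l : ℕ} (hl : 0 < l) {r : ℝ} (hr : 0 ≤ r) (a : ℝ) :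
    (2 * r * l + 1) ^ 2 * (a * (l : ℝ)⁻¹) ^ 2 ≤ ((2 * r + 1) * a) ^ 2 := by
  have l1 : (1 : ℝ) ≤ l := by exact_mod_cast hl
  have h := pow_le_pow_left₀ (by positivity) (show 2 * r * l + 1 ≤ (2 * r + 1) * l by linarith) 2
  refine (mul_le_mul_of_nonneg_right h (sq_nonneg _)).trans (le_of_eq ?_)
  field_simp

theorem samp_taylor {φ : Pl → ℝ} (hφ : Sm φ) {v : Pl} (hv : ‖v‖ ≤ 1) (g : ℕ → Site →₀ ℝ)
    (hg : ∀ l, 0 < l → ∀ x, |g l x| = |φ (pt l x + (l : ℝ)⁻¹ • v) - φ (pt l x) -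
      fderiv ℝ φ (pt l x) ((l : ℝ)⁻¹ • v)|) : Tendsto (fun l => nsq (g l)) atTop (𝓝 0) := by
  obtain ⟨K, K0, -, hK⟩ := samp_second hφ
  obtain ⟨r, r0, hr⟩ := samp_rad hφ.2
  obtain ⟨r', r0', hr'⟩ := samp_rad (hφ.2.fderiv ℝ)
  have h1 := ((tendsto_inv_atTop_nhds_zero_nat (𝕜 := ℝ)).const_mul K).const_mul
    (2 * (r + 1 + r') + 1)
  have h2 := h1.pow 2
  rw [mul_zero, mul_zero, zero_pow two_ne_zero] at h2
  refine squeeze_zero' (Eventually.of_forall fun l => nsq_nonneg _) ?_ h2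
  filter_upwards [eventually_gt_atTop 0] with l hl
  refine (samp_nsq hl (g l) 0 (r := r + 1 + r') (by positivity) (fun x hx => ?_)
    fun x => ?_).trans (samp_cnt hl (by positivity) _)
  · by_contra h
    have k1 : φ (pt l x + (l : ℝ)⁻¹ • v) = 0 := by_contra fun k =>
      h (closedBall_subset_closedBall (by linarith) (samp_near hl hv (hr _ k)))
    have k2 : φ (pt l x) = 0 := by_contra fun k =>
      h (closedBall_subset_closedBall (by linarith) (hr _ k))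
    have k3 : fderiv ℝ φ (pt l x) = 0 := by_contra fun k =>
      h (closedBall_subset_closedBall (by linarith) (hr' _ k))
    refine hx (abs_eq_zero.1 ?_)
    simp [hg l hl, k1, k2, k3]
  · have h3 := samp_h_norm l hv
    rw [hg l hl]
    exact (hK _ _).trans (mul_le_mul (mul_le_mul_of_nonneg_left h3 K0) h3 (norm_nonneg _)
      (by positivity))

/-- mean value theorem, once and twice -/
theorem smp_SF {φ : Pl → ℝ} (hφ : Sm φ) : SF fun l => smp l φ := by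
  obtain ⟨K₀, h0⟩ := hφ.2.exists_bound_of_continuous hφ.1.continuous
  have p0 : 0 ≤ K₀ := (norm_nonneg _).trans (h0 0)
  obtain ⟨K₁, p1, h1⟩ := samp_lip hφ
  obtain ⟨K₂, p2, h2, -⟩ := samp_second hφ
  obtain ⟨r, r0, hr⟩ := samp_rad hφ.2
  refine ⟨1 + r + K₀ + K₁ + K₂, by linarith, ?_⟩
  filter_upwards [eventually_gt_atTop 0] with l hl
  have l1 : (1 : ℝ) ≤ l := by exact_mod_cast hl
  simp only [smp_apply hl hφ.2, samp_pt_add]
  refine ⟨⟨0, fun x hx => ?_⟩, fun x => (h0 _).trans (by linarith), fun μ x => ?_,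
    fun μ ν x => ?_⟩
  · have h3 := hr _ hx
    rw [mem_closedBall_zero_iff, Prod.norm_def, max_le_iff] at h3
    have k : ∀ a : ℝ, ‖(a + 1 / 2) / l‖ ≤ r → |a - (0 : ℤ)| ≤ (1 + r + K₀ + K₁ + K₂) * l :=
      fun a ha => by
        rw [norm_div, Real.norm_natCast, div_le_iff₀ (by linarith), Real.norm_eq_abs, abs_le] at ha
        have : 0 ≤ (K₀ + K₁ + K₂) * l := by positivity
        rw [Int.cast_zero, sub_zero, abs_le]
        constructor <;> linarith [ha.1, ha.2]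
    exact ⟨k _ h3.1, k _ h3.2⟩
  · refine (h1 _ _).trans ?_
    rw [add_sub_cancel_left, div_eq_mul_inv]
    exact mul_le_mul (by linarith) (samp_h_norm l (samp_v_norm μ)) (norm_nonneg _) (by positivity)
  · refine (h2 _ _ _).trans ?_
    rw [div_eq_mul_inv, ← inv_pow, sq, ← mul_assoc]
    exact mul_le_mul (mul_le_mul (by linarith) (samp_h_norm l (samp_v_norm μ)) (norm_nonneg _)
      (by positivity)) (samp_h_norm l (samp_v_norm ν)) (norm_nonneg _) (by positivity)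

theorem smp_h1f {φ : Pl → ℝ} (hφ : Sm φ) : ∃ K : ℝ, ∀ᶠ l in atTop, h1f (smp l φ) ≤ K := by
  obtain ⟨K, p1, h1⟩ := samp_lip hφ
  obtain ⟨r, r0, hr⟩ := samp_rad hφ.2
  refine ⟨∑ _ : Fin 2, ((2 * (r + 1) + 1) * K) ^ 2, ?_⟩
  filter_upwards [eventually_gt_atTop 0] with l hl
  refine Finset.sum_le_sum fun μ _ => (samp_nsq hl _ 0 (r := r + 1) (by positivity)
    (fun x hx => ?_) fun x => ?_).trans (samp_cnt hl (by positivity) _)
  · rw [grad_apply, smp_apply hl hφ.2, smp_apply hl hφ.2, samp_pt_add] at hx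
    by_cases k : φ (pt l x) = 0
    · rw [k, sub_zero] at hx
      exact samp_near hl (samp_v_norm μ) (hr _ hx)
    · exact closedBall_subset_closedBall (by linarith) (hr _ k)
  · rw [grad_apply, smp_apply hl hφ.2, smp_apply hl hφ.2, samp_pt_add]
    refine (h1 _ _).trans ?_
    rw [add_sub_cancel_left]
    exact mul_le_mul_of_nonneg_left (samp_h_norm l (samp_v_norm μ)) p1

theorem Sm.toPd {φ : Pl → ℝ} (hφ : Sm φ) (μ : Fin 2) : Sm (pd μ φ) :=
  ⟨(samp_fd hφ).1.clm_apply contDiff_const, hφ.2.fderiv_apply ℝ _⟩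

/-- Taylor: the difference is pointwise `O (l⁻²)` on `O (l²)` sites -/
theorem grad_smp {φ : Pl → ℝ} (hφ : Sm φ) (μ : Fin 2) :
    Tendsto (fun l : ℕ => nsq (grad μ (smp l φ) - (l : ℝ)⁻¹ • smp l (pd μ φ))) atTop (𝓝 0) := by
  refine samp_taylor hφ (samp_v_norm μ) _ fun l hl x => ?_
  rw [Finsupp.sub_apply, Finsupp.smul_apply, grad_apply, smp_apply hl hφ.2, smp_apply hl hφ.2,
    smp_apply hl (hφ.toPd μ).2, samp_pt_add, map_smul]
  rfl

theorem bgrad_smp {φ : Pl → ℝ} (hφ : Sm φ) (μ : Fin 2) :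
    Tendsto (fun l : ℕ => nsq (bgrad μ (smp l φ) - (l : ℝ)⁻¹ • smp l (pd μ φ))) atTop (𝓝 0) := by
  refine samp_taylor hφ ((norm_neg _).trans_le (samp_v_norm μ)) _ fun l hl x => ?_
  rw [Finsupp.sub_apply, Finsupp.smul_apply, bgrad_apply, smp_apply hl hφ.2, smp_apply hl hφ.2,
    smp_apply hl (hφ.toPd μ).2, samp_pt_sub, map_smul, map_neg, ← abs_neg]
  simp only [pd, samp_v, smul_eq_mul]
  ring_nf

/-- at most ` (2 r l + 1)^2` sites -/
theorem nsq_smp_le (f : Pl → ℝ) (a r : ℝ) (hr : 0 < r) (p : Pl) (ha : ∀ z, |f z| ≤ a)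
    (hf : ∀ z, f z ≠ 0 → z ∈ closedBall p r) :
    ∀ᶠ l : ℕ in atTop, nsq ((l : ℝ)⁻¹ • smp l f) ≤ 9 * a ^ 2 * r ^ 2 := by
  filter_upwards [eventually_gt_atTop 0,
    (tendsto_natCast_atTop_atTop (R := ℝ)).eventually_ge_atTop r⁻¹] with l hl h
  have l0 : (0 : ℝ) < l := by exact_mod_cast hl
  rw [inv_le_iff_one_le_mul₀' hr] at h
  have h1 := samp_nsq hl (smp l f) p hr.le (a := a)
    (fun x hx => hf _ (by rwa [samp_apply hl hr.le hf] at hx))
    fun x => by rw [samp_apply hl hr.le hf]; exact ha _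
  have h2 := pow_le_pow_left₀ (by positivity) (show 2 * r * l + 1 ≤ 3 * r * l by linarith) 2
  rw [nsq_smul]
  refine (mul_le_mul_of_nonneg_left (h1.trans (mul_le_mul_of_nonneg_right h2 (sq_nonneg _)))
    (sq_nonneg _)).trans (le_of_eq ?_)
  field_simp
  ring

/-- disjoint compact sets are separated on the lattice -/
theorem sep_pt {A B : Set Pl} (hA : IsCompact A) (hB : IsClosed B) (h : Disjoint A B) :
    ∀ᶠ l : ℕ in atTop, ∀ x y : Site, y ∈ bl x 2 → pt l x ∈ A → pt l y ∉ B := by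
  obtain ⟨δ, δ0, hδ⟩ := h.exists_cthickenings hA hB
  filter_upwards [eventually_gt_atTop 0,
    (tendsto_natCast_atTop_atTop (R := ℝ)).eventually_ge_atTop (2 / δ)] with l hl h1 x y hy hx hB
  have l0 : (0 : ℝ) < l := by exact_mod_cast hl
  refine Set.disjoint_left.1 hδ (mem_cthickening_of_dist_le _ _ δ A hx
    ((dist_pt hl x y 2 hy).trans ?_)) (self_subset_cthickening B hB)
  rw [div_le_iff₀ δ0] at h1
  rw [div_le_iff₀ l0]
  push_cast
  linarith

end Vale.Agent.P163
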