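import Vale.Agent.P163.Clus
import Vale.Agent.P163.Pou
import Vale.Agent.P163.Samp

open MvPolynomial Filter Topology Metric

namespace Vale.Agent.P163

variable {β : ℝ} {E : Alg →ₗ[ℝ] ℝ}

theorem dec_near1 {M : ℕ} (hM : 0 < M) (q : ℤ) : ∀ᶠ l : ℕ in atTop, ∀ x : ℤ,
    |((x : ℝ) + 1 / 2) / l - 1 / (M : ℝ) * q| ≤ 1 / (M : ℝ) →
      |x - 2 * ((l / (2 * M) : ℕ) : ℤ) * q| ≤ 3 * (2 * ((l / (2 * M) : ℕ) : ℤ)) := by
  filter_upwards [eventually_ge_atTop ((q.natAbs + 2) * (2 * M))] with l hl x hx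
  have hM2 : 0 < 2 * M := by omega
  have h1 : q.natAbs + 2 ≤ l / (2 * M) := (Nat.le_div_iff_mul_le hM2).2 hl
  have h2 : l / (2 * M) * (2 * M) ≤ l := Nat.div_mul_le_self _ _
  have h3 : l < (l / (2 * M) + 1) * (2 * M) := by
    have := Nat.lt_div_mul_add (a := l) hM2
    nlinarith
  generalize l / (2 * M) = h at h1 h2 h3
  have hMr : (0 : ℝ) < M := by exact_mod_cast hM
  have h1' : |(q : ℝ)| + 2 ≤ h := by
    have : ((q.natAbs + 2 : ℕ) : ℝ) ≤ h := by exact_mod_cast h1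
    simpa using this
  have h2' : (h : ℝ) * (2 * M) ≤ l := by exact_mod_cast h2
  have h3' : (l : ℝ) < (h + 1) * (2 * M) := by exact_mod_cast h3
  have hq := abs_nonneg (q : ℝ)
  have hl0 : (0 : ℝ) < l := by nlinarith
  have h4 : 2 * (h : ℝ) ≤ l / M := by rw [le_div_iff₀ hMr]; linarith
  have h5 : (l : ℝ) / M ≤ 2 * h + 2 := by rw [div_le_iff₀ hMr]; linarith
  have h6 : |(x : ℝ) + 1 / 2 - l / M * q| ≤ l / M := by
    have e : (x : ℝ) + 1 / 2 - l / M * q = l * (((x : ℝ) + 1 / 2) / l - 1 / (M : ℝ) * q) := by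
      field_simp
    rw [e, abs_mul, abs_of_pos hl0, div_eq_mul_one_div (l : ℝ) M]
    exact mul_le_mul_of_nonneg_left hx hl0.le
  have h7 : |((l : ℝ) / M - 2 * h) * q| ≤ 2 * |(q : ℝ)| := by
    rw [abs_mul, abs_of_nonneg (by linarith)]
    exact mul_le_mul_of_nonneg_right (by linarith) hq
  have h8 : |(x : ℝ) - 2 * h * q| ≤ 3 * (2 * h) := by
    rw [abs_le] at h6 h7 ⊢
    constructor <;> nlinarith [h6.1, h6.2, h7.1, h7.2]
  exact_mod_cast h8

theorem dec_near {M : ℕ} (hM : 0 < M) (p : Site) : ∀ᶠ l : ℕ in atTop, ∀ x : Site,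
    pt l x ∈ closedBall ((1 / (M : ℝ) * p.1, 1 / (M : ℝ) * p.2) : Pl) (1 / (M : ℝ)) →
      x ∈ bl ((2 * ((l / (2 * M) : ℕ) : ℤ)) • p) (3 * (2 * ((l / (2 * M) : ℕ) : ℤ))) := by
  filter_upwards [dec_near1 hM p.1, dec_near1 hM p.2] with l h1 h2 x hx
  rw [mem_closedBall, Prod.dist_eq, max_le_iff, Real.dist_eq, Real.dist_eq] at hx
  exact ⟨h1 x.1 hx.1, h2 x.2 hx.2⟩

theorem dec_scale {M : ℕ} (hM : 0 < M) : ∀ᶠ l : ℕ in atTop,
    1 / (4 * (M : ℝ)) * l ≤ ((l / (2 * M) : ℕ) : ℝ) ∧ 1 ≤ l / (2 * M) := by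
  filter_upwards [eventually_ge_atTop (2 * M)] with l hl
  have hM2 : 0 < 2 * M := by omega
  have h1 : 1 ≤ l / (2 * M) := (Nat.le_div_iff_mul_le hM2).2 (by omega)
  have h3 : l < (l / (2 * M) + 1) * (2 * M) := by
    have := Nat.lt_div_mul_add (a := l) hM2
    nlinarith
  refine ⟨?_, h1⟩
  generalize l / (2 * M) = h at h1 h3
  have hMr : (0 : ℝ) < M := by exact_mod_cast hM
  have h1' : (1 : ℝ) ≤ h := by exact_mod_cast h1
  have h3' : (l : ℝ) < (h + 1) * (2 * M) := by exact_mod_cast h3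
  rw [one_div, inv_mul_le_iff₀ (by positivity)]
  nlinarith

theorem dec_idx {r : ℝ} (hr : 0 < r) {B : Set Pl} (hB : IsCompact B) : ∃ I : Finset Site,
    ∀ p, p ∈ I ↔ ∃ z ∈ B, z ∈ closedBall ((r * p.1, r * p.2) : Pl) r := by
  obtain ⟨R, hR⟩ := hB.isBounded.subset_closedBall (0 : Pl)
  obtain ⟨N, hN⟩ := exists_nat_ge (R / r + 1)
  have key : ∀ (t : ℝ) (q : ℤ), |t| ≤ R → |t - r * q| ≤ r → q ∈ Set.Icc (-(N : ℤ)) N := by
    intro t q h1 h2
    have h3 : R + r ≤ r * N := by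
      have := mul_le_mul_of_nonneg_left hN hr.le
      rw [mul_add, mul_div_cancel₀ _ hr.ne'] at this
      linarith
    rw [abs_le] at h1 h2
    have h4 : r * (-(N : ℝ)) ≤ r * q := by linarith [h1.1, h2.2]
    have h5 : r * (q : ℝ) ≤ r * N := by linarith [h1.2, h2.1]
    have h6 := le_of_mul_le_mul_left h4 hr
    have h7 := le_of_mul_le_mul_left h5 hr
    exact ⟨by exact_mod_cast h6, by exact_mod_cast h7⟩
  have hfin : {p : Site | ∃ z ∈ B, z ∈ closedBall ((r * p.1, r * p.2) : Pl) r}.Finite := by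
    refine ((Set.finite_Icc (-(N : ℤ)) N).prod (Set.finite_Icc (-(N : ℤ)) N)).subset ?_
    rintro p ⟨z, hz, hp⟩
    have h1 := hR hz
    rw [mem_closedBall, Prod.dist_eq, max_le_iff, Real.dist_eq, Real.dist_eq] at h1 hp
    exact ⟨key z.1 p.1 (by simpa using h1.1) hp.1, key z.2 p.2 (by simpa using h1.2) hp.2⟩
  exact ⟨hfin.toFinset, fun p => hfin.mem_toFinset⟩

theorem dec_far {r : ℝ} (hr : 0 < r) {z z' : Pl} {p p' : Site} (hd : 100 * r ≤ dist z z')
    (hz : z ∈ closedBall ((r * p.1, r * p.2) : Pl) r)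
    (hz' : z' ∈ closedBall ((r * p'.1, r * p'.2) : Pl) r) :
    80 ≤ |p.1 - p'.1| ∨ 80 ≤ |p.2 - p'.2| := by
  have key : ∀ (t t' : ℝ) (q q' : ℤ), 100 * r ≤ |t - t'| → |t - r * q| ≤ r → |t' - r * q'| ≤ r →
      80 ≤ |q - q'| := by
    intro t t' q q' h1 h2 h3
    by_contra hc
    have h4 : |((q - q' : ℤ) : ℝ)| ≤ 80 := by exact_mod_cast (not_le.1 hc).le
    push_cast at h4
    rw [abs_le] at h2 h3 h4
    have h5 := mul_le_mul_of_nonneg_left h4.1 hr.le
    have h6 := mul_le_mul_of_nonneg_left h4.2 hr.le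
    have h7 : |t - t'| ≤ 82 * r := by
      rw [abs_le]
      constructor <;> linarith [h2.1, h2.2, h3.1, h3.2]
    linarith
  rw [mem_closedBall, Prod.dist_eq, max_le_iff, Real.dist_eq, Real.dist_eq] at hz hz'
  rw [Prod.dist_eq, le_max_iff, Real.dist_eq, Real.dist_eq] at hd
  exact hd.imp (fun h => key _ _ _ _ h hz.1 hz'.1) fun h => key _ _ _ _ h hz.2 hz'.2

theorem dec_sep {B B' : Set Pl} (hB : IsCompact B) (hB' : IsCompact B') (hd : Disjoint B B') :
    ∀ᶠ M : ℕ in atTop, ∀ z ∈ B, ∀ z' ∈ B', 100 * (1 / (M : ℝ)) ≤ dist z z' := by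
  obtain ⟨ε, hε, H⟩ := Metric.exists_pos_forall_lt_edist hB hB'.isClosed hd
  have h1 : Tendsto (fun M : ℕ => 100 * (1 / (M : ℝ))) atTop (𝓝 (100 * 0)) :=
    tendsto_one_div_atTop_nhds_zero_nat.const_mul 100
  have h2 : (100 : ℝ) * 0 < ε := by simpa using hε
  filter_upwards [h1.eventually (gt_mem_nhds h2)] with M hM z hz z' hz'
  have h3 := H z hz z' hz'
  rw [edist_nndist, ENNReal.coe_lt_coe] at h3
  have h4 : (ε : ℝ) < dist z z' := h3
  linarith

theorem dec_floor {M : ℕ} (hM : 0 < M) (z : Pl) :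
    z ∈ closedBall ((1 / (M : ℝ) * (⌊M * z.1⌋ : ℤ), 1 / (M : ℝ) * (⌊M * z.2⌋ : ℤ)) : Pl)
      (1 / (M : ℝ)) := by
  have hMr : (0 : ℝ) < M := by exact_mod_cast hM
  have key : ∀ t : ℝ, |t - 1 / (M : ℝ) * (⌊M * t⌋ : ℤ)| ≤ 1 / (M : ℝ) := by
    intro t
    have e : t - 1 / (M : ℝ) * (⌊M * t⌋ : ℤ) = 1 / (M : ℝ) * (M * t - (⌊M * t⌋ : ℤ)) := by
      field_simp
    have h1 := Int.floor_le (M * t)
    have h2 := Int.lt_floor_add_one (M * t)
    rw [e, abs_mul, abs_of_pos (by positivity), abs_of_nonneg (by linarith)]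
    exact mul_le_of_le_one_right (by positivity) (by linarith)
  rw [mem_closedBall, Prod.dist_eq, max_le_iff, Real.dist_eq, Real.dist_eq]
  exact ⟨key _, key _⟩

open Classical in
/-- Decoupling of the curl.  Choose `M` with `100 / M` below all the mutual distances of the four
compact sets `tsupport φ`, `A k`, and put `hh l = l / (2 M)` (natural division), `H = 2 hh l`.
Split `φ = ∑ p, φ * ρ p` with `pou (1/M)` and `g k l = ∑ p, (g k l).filter (blk l · = p)` with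
`blk l x = (⌊M * (pt l x).1⌋, ⌊M * (pt l x).2⌋)`; only the finitely many `p` with `p / M` within
`1 / M` of the respective compact set occur, these are pairwise at sup distance at least 80, and
for large `l` the piece with index `p` lives within `3 H` of `H • p`.  Apply `State.cluster` to
every quadruple (`smp_SF`, `tendsto_finset_sum`). -/
theorem State.decouple (h : State β E) {i j : Fin 3} (hJ : JB E i j) (φ : Pl → ℝ) (hφ : Sm φ)
    (A : Fin 3 → Set Pl) (hA : ∀ k, IsCompact (A k)) (hd : ∀ k, Disjoint (tsupport φ) (A k))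
    (hd' : ∀ k k', k ≠ k' → Disjoint (A k) (A k')) (Y : Fin 3 → Site → Alg)
    (hY : ∀ k x, Y k x ∈ loc (bl x 1)) (g : Fin 3 → ℕ → Site →₀ ℝ) (K : ℝ)
    (hg : ∀ᶠ l : ℕ in atTop, ∀ k, (∀ x, g k l x ≠ 0 → pt l x ∈ A k) ∧
      ∀ S : Set Site, N8 E (lc (Y k) ((g k l).filter (· ∈ S))) K) :
    Tendsto (fun l => E (cv i j l φ * (lc (Y 0) (g 0 l) * lc (Y 1) (g 1 l) * lc (Y 2) (g 2 l))))
      atTop (𝓝 0) := by
  obtain ⟨B, hB0, hBs⟩ : ∃ B : Fin 4 → Set Pl, B 0 = tsupport φ ∧ ∀ k : Fin 3, B k.succ = A k :=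
    ⟨Fin.cons (tsupport φ) A, rfl, fun _ => rfl⟩
  have hBc : ∀ a, IsCompact (B a) := by
    intro a
    refine Fin.cases ?_ (fun k => ?_) a
    · rw [hB0]; exact hφ.2
    · rw [hBs]; exact hA k
  have hBd : ∀ a b, a ≠ b → Disjoint (B a) (B b) := by
    intro a b
    refine Fin.cases ?_ (fun k => ?_) a <;> refine Fin.cases ?_ (fun k' => ?_) b <;> intro hab
    · exact absurd rfl hab
    · rw [hB0, hBs]; exact hd k'
    · rw [hB0, hBs]; exact (hd k).symm
    · rw [hBs, hBs]; exact hd' k k' fun e => hab (by rw [e])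
  have hsep : ∀ᶠ M : ℕ in atTop, ∀ a b, a ≠ b →
      ∀ z ∈ B a, ∀ z' ∈ B b, 100 * (1 / (M : ℝ)) ≤ dist z z' := by
    refine eventually_all.2 fun a => eventually_all.2 fun b => ?_
    by_cases hab : a = b
    · exact Eventually.of_forall fun M h => absurd hab h
    · exact (dec_sep (hBc a) (hBc b) (hBd a b hab)).mono fun M hM _ => hM
  obtain ⟨M, hMs, hM⟩ := (hsep.and (eventually_gt_atTop 0)).exists
  have hr : (0 : ℝ) < 1 / (M : ℝ) := by positivity
  obtain ⟨ρ, hρs, hρt, -, hρ1⟩ := pou _ hr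
  choose I hI using fun a => dec_idx hr (hBc a)
  obtain ⟨S, hS⟩ : ∃ S : ℕ → Site → Set Site, ∀ l p x,
      x ∈ S l p ↔ ((⌊M * (pt l x).1⌋, ⌊M * (pt l x).2⌋) : Site) = p :=
    ⟨fun l p => {x | ((⌊M * (pt l x).1⌋, ⌊M * (pt l x).2⌋) : Site) = p}, fun _ _ _ => Iff.rfl⟩
  have hsm : ∀ p, Sm fun z => φ z * ρ p z := fun p =>
    ⟨hφ.1.mul (hρs p).1, hφ.2.mul_right⟩
  have main : ∀ p : Fin 4 → Site, (∀ a, p a ∈ I a) → Tendsto (fun l =>
      E (lc (rot i j) (smp l fun z => φ z * ρ (p 0) z) *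
        (lc (Y 0) ((g 0 l).filter (· ∈ S l (p 1))) * lc (Y 1) ((g 1 l).filter (· ∈ S l (p 2))) *
          lc (Y 2) ((g 2 l).filter (· ∈ S l (p 3)))))) atTop (𝓝 0) := by
    intro p hp
    refine h.cluster hJ (fun l => l / (2 * M)) (1 / (4 * (M : ℝ))) K (by positivity)
      (fun l => smp l fun z => φ z * ρ (p 0) z) (smp_SF (hsm _))
      (fun k l => lc (Y k) ((g k l).filter (· ∈ S l (p k.succ)))) p ?_ ?_
    · intro a b hab
      obtain ⟨z, hz, hz1⟩ := (hI a _).1 (hp a)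
      obtain ⟨z', hz', hz1'⟩ := (hI b _).1 (hp b)
      exact dec_far hr (hMs a b hab z hz z' hz') hz1 hz1'
    · filter_upwards [hg, dec_scale hM, eventually_all.2 fun a => dec_near hM (p a),
        eventually_gt_atTop 0] with l hgl hsc hn hl
      refine ⟨hsc.1, fun x hx => hn 0 x (hρt _ (subset_tsupport _ ?_)), fun k => ⟨?_, ?_⟩⟩
      · rw [smp_apply hl (hsm _).2] at hx
        exact right_ne_zero_of_mul hx
      · refine lc_mem_loc _ _ fun x hx => loc_mono ?_ (hY k x)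
        have h1 : x ∈ S l (p k.succ) := by
          by_contra hc
          exact hx (Finsupp.filter_apply_neg _ _ hc)
        have h2 := dec_floor hM (pt l x)
        have h3 := (hS _ _ _).1 h1
        have h4 := hn k.succ x (by rw [← h3]; exact h2)
        have h5 : (1 : ℤ) ≤ ((l / (2 * M) : ℕ) : ℤ) := by exact_mod_cast hsc.2
        rintro y ⟨hy1, hy2⟩
        obtain ⟨h6, h7⟩ := h4
        rw [_root_.abs_le] at hy1 hy2 h6 h7
        constructor <;> rw [_root_.abs_le] <;> constructor <;> linarith [hy1.1, hy1.2, hy2.1, hy2.2,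
          h6.1, h6.2, h7.1, h7.2]
      · exact (hgl k).2 _
  have hsum : Tendsto (fun l => ∑ p3 ∈ I 3, ∑ p2 ∈ I 2, ∑ p1 ∈ I 1, ∑ p0 ∈ I 0,
      E (lc (rot i j) (smp l fun z => φ z * ρ p0 z) *
        (lc (Y 0) ((g 0 l).filter (· ∈ S l p1)) * lc (Y 1) ((g 1 l).filter (· ∈ S l p2)) *
          lc (Y 2) ((g 2 l).filter (· ∈ S l p3))))) atTop
      (𝓝 (∑ p3 ∈ I 3, ∑ p2 ∈ I 2, ∑ p1 ∈ I 1, ∑ p0 ∈ I 0, 0)) := by
    refine tendsto_finsetSum _ fun p3 h3 => tendsto_finsetSum _ fun p2 h2 =>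
      tendsto_finsetSum _ fun p1 h1 => tendsto_finsetSum _ fun p0 h0 => ?_
    refine main ![p0, p1, p2, p3] fun a => ?_
    fin_cases a
    exacts [h0, h1, h2, h3]
  simp only [Finset.sum_const_zero] at hsum
  refine hsum.congr' ?_
  filter_upwards [hg, eventually_gt_atTop 0] with l hgl hl
  have e0 : smp l φ = ∑ p ∈ I 0, smp l fun z => φ z * ρ p z := by
    ext x
    rw [Finsupp.finsetSum_apply, smp_apply hl hφ.2,
      Finset.sum_congr rfl fun p _ => smp_apply hl (hsm p).2 x, ← Finset.mul_sum]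
    by_cases h0 : φ (pt l x) = 0
    · rw [h0, zero_mul]
    · rw [hρ1 _ (I 0) fun p hp => (hI 0 p).2 ⟨pt l x, ?_, hρt p (subset_tsupport _ hp)⟩, mul_one]
      rw [hB0]
      exact subset_tsupport _ h0
  have e1 : ∀ k : Fin 3, lc (Y k) (g k l) =
      ∑ p ∈ I k.succ, lc (Y k) ((g k l).filter (· ∈ S l p)) := by
    intro k
    rw [← map_sum]
    congr 1
    ext x
    rw [Finsupp.finsetSum_apply]
    by_cases h0 : g k l x = 0
    · simp [Finsupp.filter_apply, h0]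
    · have h1 : ((⌊M * (pt l x).1⌋, ⌊M * (pt l x).2⌋) : Site) ∈ I k.succ :=
        (hI _ _).2 ⟨pt l x, by rw [hBs]; exact (hgl k).1 x h0, dec_floor hM _⟩
      rw [Finset.sum_eq_single_of_mem _ h1 fun p _ hp =>
        Finsupp.filter_apply_neg _ _ fun hc => hp ((hS _ _ _).1 hc).symm]
      exact (Finsupp.filter_apply_pos _ _ ((hS _ _ _).2 rfl)).symm
  rw [cv, e0, e1 0, e1 1, e1 2, map_sum]
  simp only [Finset.sum_mul, Finset.mul_sum, map_sum]
  rfl

end Vale.Agent.P163
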