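import Vale.Agent.P163.Stm

open MvPolynomial Filter Topology

namespace Vale.Agent.P163

/-! ### The algebra of local polynomial observables in the spin components 0, 1, 2 -/

abbrev Alg := MvPolynomial (Site × Fin 3) ℝ

/-- spin component `i` at site `x` -/
noncomputable def sp (i : Fin 3) (x : Site) : Alg := X (x, i)

/-- action of a map of sites -/
noncomputable def act (g : Site → Site) : Alg →ₐ[ℝ] Alg := rename fun v => (g v.1, v.2)

/-- translation -/
noncomputable def tr (s : Site) : Alg →ₐ[ℝ] Alg := act fun x => x + s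

/-- reflection in the vertical axis -/
def fl (x : Site) : Site := (-x.1, x.2)

/-- reflection in the diagonal -/
def sw (x : Site) : Site := (x.2, x.1)

/-- reflection in the vertical line through c, 0 -/
def flc (c : ℤ) (x : Site) : Site := (2 * c - x.1, x.2)

/-- exchange of the spin components 1 and 2 -/
noncomputable def sw12 : Alg →ₐ[ℝ] Alg := rename fun v => (v.1, Equiv.swap (1 : Fin 3) 2 v.2)

/-- observables that only involve sites of `S` -/
noncomputable def loc (S : Set Site) : Subalgebra ℝ Alg := supported ℝ {v | v.1 ∈ S}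

/-- unit vectors -/
def ee : Fin 2 → Site := ![(1, 0), (0, 1)]

/-- Noether current of the plane i, j on the bond from `x` to `x + ee μ` -/
noncomputable def cur (i j : Fin 3) (μ : Fin 2) (x : Site) : Alg :=
  sp i x * sp j (x + ee μ) - sp j x * sp i (x + ee μ)

/-- generator of rotations of the plane i, j at the site `x` -/
noncomputable def gen (i j : Fin 3) (x : Site) : Derivation ℝ Alg Alg :=
  sp i x • pderiv (x, j) - sp j x • pderiv (x, i)

/-- smeared generator -/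
noncomputable def genf (i j : Fin 3) (f : Site →₀ ℝ) : Derivation ℝ Alg Alg :=
  f.sum fun x c => c • gen i j x

/-- smearing of a family of observables -/
noncomputable def lc (Y : Site → Alg) : (Site →₀ ℝ) →ₗ[ℝ] Alg := Finsupp.linearCombination ℝ Y

/-- smeared spin component -/
noncomputable def sf (i : Fin 3) (f : Site →₀ ℝ) : Alg := lc (sp i) f

/-- smeared current -/
noncomputable def jj (i j : Fin 3) (V : Fin 2 → Site →₀ ℝ) : Alg := ∑ μ, lc (cur i j μ) (V μ)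

/-- lattice curl of the current around the plaquette with lower left corner `x` -/
noncomputable def rot (i j : Fin 3) (x : Site) : Alg :=
  cur i j 0 x + cur i j 1 (x + ee 0) - cur i j 0 (x + ee 1) - cur i j 1 x

/-- `sh s f x = f (x - s)` -/
noncomputable def sh (s : Site) (f : Site →₀ ℝ) : Site →₀ ℝ :=
  Finsupp.equivMapDomain (Equiv.addRight s) f

/-- forward difference `f (x + ee μ) - f x` -/
noncomputable def grad (μ : Fin 2) (f : Site →₀ ℝ) : Site →₀ ℝ := sh (-ee μ) f - f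

/-- backward difference `f x - f (x - ee μ)` -/
noncomputable def bgrad (μ : Fin 2) (f : Site →₀ ℝ) : Site →₀ ℝ := f - sh (ee μ) f

/-- squared norm -/
noncomputable def nsq (f : Site →₀ ℝ) : ℝ := f.sum fun _ c => c ^ 2

/-- Dirichlet energy -/
noncomputable def h1f (f : Site →₀ ℝ) : ℝ := ∑ μ, nsq (grad μ f)

/-- indicator of a finite set -/
noncomputable def ind (S : Finset Site) : Site →₀ ℝ := Finsupp.indicator S fun _ _ => 1

/-- the centred box of radius `l` -/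
noncomputable def bx (l : ℕ) : Finset Site := box (-(l : ℤ), -(l : ℤ)) ((l : ℤ), (l : ℤ))

/-- closed sup norm ball of sites -/
def bl (c : Site) (R : ℤ) : Set Site := {x | |x.1 - c.1| ≤ R ∧ |x.2 - c.2| ≤ R}

/-- eighth moment bound for the currents of a plane -/
def JB (E : Alg →ₗ[ℝ] ℝ) (i j : Fin 3) : Prop :=
  ∃ C : ℝ, 0 ≤ C ∧ ∀ V : Fin 2 → Site →₀ ℝ, E (jj i j V ^ 8) ≤ C * (∑ μ, nsq (V μ)) ^ 4

/-- `a` bounds the eighth moment norm of `P` -/
def N8 (E : Alg →ₗ[ℝ] ℝ) (P : Alg) (a : ℝ) : Prop := 0 ≤ a ∧ E (P ^ 8) ≤ a ^ 8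

/-- The properties of the plus state that the core argument uses. -/
structure State (β : ℝ) (E : Alg →ₗ[ℝ] ℝ) : Prop where
  one : E 1 = 1
  pos : ∀ P, 0 ≤ E (P * P)
  trans : ∀ s P, E (tr s P) = E P
  flip : ∀ P, E (act fl P) = E P
  swap : ∀ P, E (act sw P) = E P
  comp : ∀ P, E (sw12 P) = E P
  rp1 : ∀ P ∈ loc {x | 0 ≤ x.1}, 0 ≤ E (act fl P * P)
  rp2 : ∀ P ∈ loc {x | x.2 ≤ x.1}, 0 ≤ E (act sw P * P)
  ward : ∀ i j x P, E (gen i j x P) =
    β * E ((∑ μ, (cur i j μ (x - ee μ) - cur i j μ x)) * P)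
  jbd : JB E 0 1
  grif : ∀ p q : List Site, 0 ≤ E ((p.map (sp 0)).prod * (q.map (sp 2)).prod)
  neg : ∀ p q : List Site, E ((p.map (sp 0)).prod * (q.map (sp 2)).prod) ≤
    E (p.map (sp 0)).prod * E (q.map (sp 2)).prod

/-- two point function -/
noncomputable def gg (E : Alg →ₗ[ℝ] ℝ) (x : Site) : ℝ := E (sp 0 0 * sp 0 x)

/-- smeared two point function -/
noncomputable def vv (E : Alg →ₗ[ℝ] ℝ) (f g : Site →₀ ℝ) : ℝ := E (sf 0 f * sf 0 g)

/-- block spin variance -/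
noncomputable def vb (E : Alg →ₗ[ℝ] ℝ) (l : ℕ) : ℝ := vv E (ind (bx l)) (ind (bx l))

/-- block spin correlation at horizontal distance `2 m l` -/
noncomputable def gb (E : Alg →ₗ[ℝ] ℝ) (l m : ℕ) : ℝ :=
  vv E (ind (bx l)) (sh (2 * (m : ℤ) * l, 0) (ind (bx l)))

/-- normalized block spin -/
noncomputable def fb (E : Alg →ₗ[ℝ] ℝ) (i : Fin 3) (l : ℕ) : Alg :=
  (Real.sqrt (vb E l))⁻¹ • sf i (ind (bx l))

/-- sum of the two point function over the sup norm sphere of radius `r` -/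
noncomputable def shell (E : Alg →ₗ[ℝ] ℝ) (r : ℕ) : ℝ :=
  ∑ x ∈ (bx r).filter (fun x => |x.1| = (r : ℤ) ∨ |x.2| = (r : ℤ)), gg E x

/-! ### Sampling of functions on the plane -/

abbrev Pl := ℝ × ℝ

/-- centre of the plaquette at `x`, at scale `l` -/
noncomputable def pt (l : ℕ) (x : Site) : Pl := (((x.1 : ℝ) + 1 / 2) / l, ((x.2 : ℝ) + 1 / 2) / l)

open Classical in
/-- sampling at scale `l` -/
noncomputable def smp (l : ℕ) (φ : Pl → ℝ) : Site →₀ ℝ :=
  if h : (Function.support fun x => φ (pt l x)).Finite then Finsupp.ofSupportFinite _ h else 0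

/-- smooth compactly supported functions -/
def Sm {F : Type} [NormedAddCommGroup F] [NormedSpace ℝ F] (f : Pl → F) : Prop :=
  ContDiff ℝ (⊤ : ℕ∞) f ∧ HasCompactSupport f

/-- test functions in `U` -/
def Tst (U : Set Pl) (f : Pl → ℂ) : Prop := Sm f ∧ tsupport f ⊆ U

/-- directional derivative along `ee μ` -/
noncomputable def pd (μ : Fin 2) (φ : Pl → ℝ) (p : Pl) : ℝ :=
  fderiv ℝ φ p (((ee μ).1 : ℝ), ((ee μ).2 : ℝ))

/-- the operator d1 + i d2 -/
noncomputable def dbar (f : Pl → ℂ) (p : Pl) : ℂ :=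
  fderiv ℝ f p (1, 0) + Complex.I * fderiv ℝ f p (0, 1)

/-- complex valued version of a real function -/
noncomputable def cx (φ : Pl → ℝ) (p : Pl) : ℂ := (φ p : ℂ)

/-- the current smeared with the vector field re w, im w at scale `l` -/
noncomputable def jv (i j : Fin 3) (l : ℕ) (w : Pl → ℂ) : Alg :=
  jj i j ![(l : ℝ)⁻¹ • smp l fun p => (w p).re, (l : ℝ)⁻¹ • smp l fun p => (w p).im]

/-- the curl smeared with `φ` at scale `l` -/
noncomputable def cv (i j : Fin 3) (l : ℕ) (φ : Pl → ℝ) : Alg := lc (rot i j) (smp l φ)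

/-- product of the two normalized block spins -/
noncomputable def ff (E : Alg →ₗ[ℝ] ℝ) (m l : ℕ) : Alg :=
  fb E 2 l * tr (2 * (m : ℤ) * l, 0) (fb E 1 l)

/-- the four point form -/
noncomputable def bb (E : Alg →ₗ[ℝ] ℝ) (m l : ℕ) (f g : Pl → ℂ) : ℝ :=
  E (jv 0 1 l f * jv 0 2 l g * ff E m l)

/-- the region away from the two blocks -/
def uu (m : ℕ) : Set Pl :=
  (Metric.closedBall (0 : Pl) (3 / 2) ∪ Metric.closedBall ((2 * (m : ℝ), 0) : Pl) (3 / 2))ᶜ

/-- families of lattice functions that are smooth at scale `l` -/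
def SF (φ : ℕ → Site → ℝ) : Prop :=
  ∃ K : ℝ, 1 ≤ K ∧ ∀ᶠ l : ℕ in atTop,
    (∃ c : Site, ∀ x, φ l x ≠ 0 → |(x.1 : ℝ) - c.1| ≤ K * l ∧ |(x.2 : ℝ) - c.2| ≤ K * l) ∧
    (∀ x, |φ l x| ≤ K) ∧ (∀ μ x, |φ l (x + ee μ) - φ l x| ≤ K / l) ∧
    ∀ μ ν x, |φ l (x + ee μ + ee ν) - φ l (x + ee μ) - φ l (x + ee ν) + φ l x| ≤ K / l ^ 2

/-! ### The curl two point function as a kernel on the lattice -/

/-- bilinear form of a kernel -/
noncomputable def dd (N φ ψ : Site → ℝ) : ℝ := ∑' p : Site × Site, φ p.1 * ψ p.2 * N (p.1 - p.2)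

/-- Dirichlet energy -/
noncomputable def h1 (φ : Site → ℝ) : ℝ :=
  ∑' x, ((φ (x + ee 0) - φ x) ^ 2 + (φ (x + ee 1) - φ x) ^ 2)

/-- reflection of plaquettes in the vertical axis -/
def rho (x : Site) : Site := (-1 - x.1, x.2)

/-- one dimensional smoothing -/
noncomputable def k1 (h : ℤ → ℝ) (x : ℤ) : ℝ := (h (x - 1) + 2 * h x + h (x + 1)) / 4

/-- two dimensional smoothing -/
noncomputable def kap (φ : Site → ℝ) (x : Site) : ℝ := k1 (fun s => k1 (fun t => φ (s, t)) x.2) x.1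

/-- kernel hypotheses, finitely supported test functions -/
structure NH (N : Site → ℝ) (C : ℝ) : Prop where
  bdd : ∀ d, |N d| ≤ C
  flip : ∀ d, N (fl d) = N d
  swap : ∀ d, N (sw d) = N d
  h1b : ∀ φ ψ : Site →₀ ℝ, |dd N φ ψ| ≤ C * Real.sqrt (h1 φ) * Real.sqrt (h1 ψ)
  rp1 : ∀ φ : Site →₀ ℝ, (∀ x, φ x ≠ 0 → 0 ≤ x.1) → 0 ≤ dd N φ (φ ∘ rho)
  rp2 : ∀ φ : Site →₀ ℝ, (∀ x, φ x ≠ 0 → x.2 + 1 ≤ x.1) → 0 ≤ dd N φ (φ ∘ sw)

/-- kernel hypotheses, summable test functions, smoothing `T`, margins `a`, `b` -/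
structure NS (N : Site → ℝ) (C : ℝ) (T : (Site → ℝ) → Site → ℝ) (a b : ℤ) : Prop where
  bdd : ∀ d, |N d| ≤ C
  flip : ∀ d, N (fl d) = N d
  swap : ∀ d, N (sw d) = N d
  h1b : ∀ φ ψ, Summable φ → Summable ψ →
    |dd N φ ψ| ≤ C * Real.sqrt (h1 (T φ)) * Real.sqrt (h1 (T ψ))
  rp1 : ∀ φ, Summable φ → (∀ x, φ x ≠ 0 → a ≤ x.1) → 0 ≤ dd N φ (φ ∘ rho)
  rp2 : ∀ φ, Summable φ → (∀ x, φ x ≠ 0 → x.2 + b ≤ x.1) → 0 ≤ dd N φ (φ ∘ sw)

/-- Gaussian with a monomial weight, centred at 1/4 -/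
noncomputable def hk (k : ℕ) (a : ℝ) (x : ℤ) : ℝ :=
  ((x : ℝ) - 1 / 4) ^ k * Real.exp (-2 * a * ((x : ℝ) - 1 / 4) ^ 2)

/-- theta value -/
noncomputable def th (a : ℝ) : ℝ := ∑' x : ℤ, Real.exp (-4 * a * ((x : ℝ) - 1 / 4) ^ 2)

/-- total mass of the Gaussian -/
noncomputable def zz (a : ℝ) : ℝ := ∑' x : ℤ, hk 0 a x

/-- staggered Gaussian moments of a kernel -/
noncomputable def ws (N : Site → ℝ) (e1 e2 : ℝ) (i j : ℕ) (a : ℝ) : ℝ :=
  ∑' d : Site, N d * (e1 ^ d.1 * e2 ^ d.2 * ((d.1 : ℝ) ^ i * (d.2 : ℝ) ^ j) *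
    Real.exp (-a * ((d.1 : ℝ) ^ 2 + (d.2 : ℝ) ^ 2)))

/-- column sums -/
noncomputable def qq (N : Site → ℝ) (k : ℕ) (a : ℝ) : ℝ :=
  ∑' y : ℤ, N (2 * (k : ℤ) + 1, y) * Real.exp (-a * (y : ℝ) ^ 2)

/-- the positive part of the fourth moment coming from odd columns `t ≥ 3` -/
noncomputable def p1 (N : Site → ℝ) (a : ℝ) : ℝ :=
  ∑' k : ℕ, (2 * (k : ℝ) + 3) ^ 4 * Real.exp (-a * (2 * (k : ℝ) + 3) ^ 2) * qq N (k + 1) a

/-- vertical convolution with the normalized Gaussian -/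
noncomputable def yc (a : ℝ) (φ : Site → ℝ) (x : Site) : ℝ :=
  (∑' t : ℤ, φ (x.1, t) * hk 0 a (x.2 - t)) / zz a

end Vale.Agent.P163
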