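import Vale.Agent.P163.GauA

open Filter Topology

namespace Vale.Agent.P163

/-- ` (x + d - 1/4)^2 + (x - 1/4)^2 = 2 (x + d/2 - 1/4)^2 + d^2/2`; for even `d` shift `x`, for
`d = 2k + 1` use `x ↦ -x - k`. -/
theorem hk_auto {a : ℝ} (ha : 0 < a) (d : ℤ) :
    ∑' x, hk 0 a (x + d) * hk 0 a x = th a * Real.exp (-a * (d : ℝ) ^ 2) := by
  rw [th]
  obtain ⟨k, rfl | rfl⟩ := Int.even_or_odd' d
  · rw [← (Equiv.subRight k).tsum_eq, ← tsum_mul_right]
    refine tsum_congr fun x => ?_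
    simp only [hk, pow_zero, one_mul, ← Real.exp_add, Equiv.subRight_apply]
    congr 1
    push_cast
    ring
  · rw [← (Equiv.subLeft (-k)).tsum_eq, ← tsum_mul_right]
    refine tsum_congr fun x => ?_
    simp only [hk, pow_zero, one_mul, ← Real.exp_add, Equiv.subLeft_apply]
    congr 1
    push_cast
    ring

theorem GauB_nat {a : ℝ} (ha : 0 < a) (k : ℕ) :
    Summable fun n : ℕ => (n : ℝ) ^ k * Real.exp (-a * (n : ℝ) ^ 2) := by
  refine Summable.of_nonneg_of_le (fun n => by positivity) (fun n => ?_)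
    (Real.summable_pow_mul_exp_neg_nat_mul k ha)
  refine mul_le_mul_of_nonneg_left (Real.exp_le_exp.2 ?_) (by positivity)
  have h : (n : ℝ) ≤ (n : ℝ) ^ 2 := by exact_mod_cast Nat.le_self_pow two_ne_zero n
  nlinarith

theorem summable_gauss {a : ℝ} (ha : 0 < a) (k : ℕ) :
    Summable fun y : ℤ => |(y : ℝ)| ^ k * Real.exp (-a * (y : ℝ) ^ 2) :=
  Summable.of_nat_of_neg (by simpa using GauB_nat ha k) (by simpa using GauB_nat ha k)

theorem summable_gauss2 {a : ℝ} (ha : 0 < a) (i j : ℕ) :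
    Summable fun d : Site => |(d.1 : ℝ)| ^ i * |(d.2 : ℝ)| ^ j *
      Real.exp (-a * ((d.1 : ℝ) ^ 2 + (d.2 : ℝ) ^ 2)) := by
  refine ((summable_gauss ha i).mul_of_nonneg (summable_gauss ha j) (fun _ => by positivity)
    fun _ => by positivity).congr fun d => ?_
  rw [mul_add, Real.exp_add]
  ring

theorem GauB_geo {s : ℝ} (hs : 0 < s) (hs1 : s ≤ 1) :
    ∃ G : ℝ, HasSum (fun x : ℤ => Real.exp (1 - s * |(x : ℝ)|)) G ∧ G * s ≤ 4 * Real.exp 1 := by
  have h0 := Real.exp_pos (-s)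
  have h1 : Real.exp (-s) * (1 + s) ≤ 1 := by
    rw [Real.exp_neg, inv_mul_le_iff₀ (Real.exp_pos s)]
    linarith [Real.add_one_le_exp s]
  have h2 : s / 2 ≤ 1 - Real.exp (-s) := by nlinarith
  have h3 : Real.exp (-s) < 1 := by linarith
  have g := hasSum_geometric_of_lt_one h0.le h3
  refine ⟨Real.exp 1 * (1 - Real.exp (-s))⁻¹ + Real.exp 1 * Real.exp (-s) * (1 - Real.exp (-s))⁻¹,
    HasSum.of_nat_of_neg_add_one ?_ ?_, ?_⟩
  · have e : (fun n : ℕ => Real.exp (1 - s * |((n : ℤ) : ℝ)|)) =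
        fun n : ℕ => Real.exp 1 * Real.exp (-s) ^ n := by
      funext n
      rw [← Real.exp_nat_mul, ← Real.exp_add, Int.cast_natCast, Nat.abs_cast]
      congr 1
      ring
    rw [e]
    exact g.mul_left _
  · have e : (fun n : ℕ => Real.exp (1 - s * |((-(n + 1 : ℤ) : ℤ) : ℝ)|)) =
        fun n : ℕ => Real.exp 1 * Real.exp (-s) * Real.exp (-s) ^ n := by
      funext n
      rw [← Real.exp_nat_mul, ← Real.exp_add, ← Real.exp_add, Int.cast_neg, abs_neg,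
        abs_of_nonneg (by positivity)]
      congr 1
      push_cast
      ring
    rw [e]
    exact g.mul_left _
  · have h4 : (1 - Real.exp (-s))⁻¹ * s ≤ 2 := by
      rw [inv_mul_le_iff₀ (by linarith)]
      linarith
    have h5 : Real.exp (-s) * ((1 - Real.exp (-s))⁻¹ * s) ≤ 1 * 2 :=
      mul_le_mul h3.le h4 (mul_nonneg (inv_nonneg.2 (by linarith)) hs.le) zero_le_one
    nlinarith [Real.exp_pos 1]

theorem GauB_up {s : ℝ} (hs : 0 < s) (hs1 : s ≤ 1) {f : ℤ → ℝ} (h0 : ∀ x, 0 ≤ f x)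
    (h : ∀ x, f x ≤ Real.exp (1 - s * |(x : ℝ)|)) :
    Summable f ∧ (∑' x, f x) * s ≤ 4 * Real.exp 1 := by
  obtain ⟨G, hG, hb⟩ := GauB_geo hs hs1
  have hf := Summable.of_nonneg_of_le h0 h hG.summable
  exact ⟨hf, (mul_le_mul_of_nonneg_right (hasSum_le h hf.hasSum hG) hs.le).trans hb⟩

theorem GauB_low {s : ℝ} (hs : 0 < s) (hs1 : s ≤ 1) {f : ℤ → ℝ} (hf : Summable f)
    (h : ∀ x : ℤ, Real.exp (-4 * s ^ 2 * ((x : ℝ) - 1 / 4) ^ 2) ≤ f x) :
    Real.exp (-4) ≤ (∑' x, f x) * s := by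
  have h1 := hf.sum_le_tsum ((Finset.range (⌊1 / s⌋₊ + 1)).map ⟨Nat.cast, Nat.cast_injective⟩)
    fun x _ => (Real.exp_pos _).le.trans (h x)
  have h2 := Finset.card_nsmul_le_sum (Finset.range (⌊1 / s⌋₊ + 1)) (fun n => f n) (Real.exp (-4))
    fun n hn => by
      refine le_trans (Real.exp_le_exp.2 ?_) (h n)
      have h3 : (n : ℝ) ≤ 1 / s := (Nat.le_floor_iff (by positivity)).1
        (Nat.lt_succ_iff.1 (Finset.mem_range.1 hn))
      rw [le_div_iff₀ hs] at h3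
      have h4 : 0 ≤ (n : ℝ) * s := by positivity
      have h5 : (s * (n - 1 / 4)) ^ 2 ≤ 1 := by
        rw [sq_le_one_iff_abs_le_one, abs_le]
        constructor <;> nlinarith
      rw [Int.cast_natCast]
      nlinarith
  rw [Finset.sum_map] at h1
  rw [Finset.card_range, nsmul_eq_mul] at h2
  have h6 := Nat.lt_floor_add_one (1 / s)
  rw [div_lt_iff₀ hs] at h6
  have h7 := mul_le_mul_of_nonneg_right (h2.trans h1) hs.le
  push_cast at h7
  nlinarith [Real.exp_pos (-4)]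

theorem GauB_abs {s : ℝ} (hs : 0 < s) (hs1 : s ≤ 1) (x : ℝ) :
    ∃ u : ℝ, s * |x| ≤ u + 1 / 4 ∧ s ^ 2 * (x - 1 / 4) ^ 2 = u ^ 2 := by
  refine ⟨s * |x - 1 / 4|, ?_, by rw [mul_pow, sq_abs]⟩
  have h := abs_sub_abs_le_abs_sub x (1 / 4)
  rw [abs_of_pos (by norm_num : (0 : ℝ) < 1 / 4)] at h
  nlinarith

/-- lower bounds: the terms with `0 ≤ x ≤ 1/s` are at least `exp (-4)`; upper bounds: compare with
`exp (-u^2) ≤ c / (1 + u^2)` or with a geometric series `exp (-a y^2) ≤ exp (1 - 2 s |y|)` -/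
theorem gauss_sums : ∃ c C : ℝ, 0 < c ∧ 0 < C ∧ ∀ s : ℝ, 0 < s → s ≤ 1 →
    c ≤ th (s ^ 2) * s ∧ th (s ^ 2) * s ≤ C ∧ c ≤ zz (s ^ 2) * s ∧
    (∑' x : ℤ, |(x : ℝ)| * hk 0 (s ^ 2) x) * s ^ 2 ≤ C ∧
    (∑' y : ℤ, Real.exp (-(s ^ 2) * (y : ℝ) ^ 2)) * s ≤ C := by
  refine ⟨Real.exp (-4), 4 * Real.exp 1, Real.exp_pos _, by positivity, fun s hs hs1 => ?_⟩
  have a1 := GauB_up hs hs1 (f := fun x : ℤ => Real.exp (-4 * s ^ 2 * ((x : ℝ) - 1 / 4) ^ 2))
    (fun x => (Real.exp_pos _).le) fun x => by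
      obtain ⟨u, h1, h2⟩ := GauB_abs hs hs1 x
      exact Real.exp_le_exp.2 (by nlinarith [sq_nonneg (u - 1 / 8)])
  have a2 := GauB_up hs hs1 (f := fun x : ℤ => s * (|(x : ℝ)| * hk 0 (s ^ 2) x))
    (fun x => by rw [hk]; positivity) fun x => by
      obtain ⟨u, h1, h2⟩ := GauB_abs hs hs1 x
      have h3 : s * |(x : ℝ)| ≤ Real.exp (s * |(x : ℝ)|) := by
        linarith [Real.add_one_le_exp (s * |(x : ℝ)|)]
      rw [hk, pow_zero, one_mul, ← mul_assoc]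
      refine (mul_le_mul_of_nonneg_right h3 (Real.exp_pos _).le).trans ?_
      rw [← Real.exp_add]
      exact Real.exp_le_exp.2 (by nlinarith [sq_nonneg (u - 1 / 2)])
  have a3 := GauB_up hs hs1 (f := fun y : ℤ => Real.exp (-(s ^ 2) * (y : ℝ) ^ 2))
    (fun x => (Real.exp_pos _).le) fun x => Real.exp_le_exp.2 (by
      nlinarith [sq_nonneg (s * |(x : ℝ)| - 1 / 2), sq_abs (x : ℝ)])
  refine ⟨GauB_low hs hs1 a1.1 fun x => le_rfl, a1.2,
    GauB_low hs hs1 (summable_hk 0 (by positivity)) fun x => ?_, ?_, a3.2⟩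
  · rw [hk, pow_zero, one_mul]
    exact Real.exp_le_exp.2 (by nlinarith [sq_nonneg (s * ((x : ℝ) - 1 / 4))])
  · have h := a2.2
    rw [tsum_mul_left] at h
    linarith

end Vale.Agent.P163
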