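import Vale.Agent.P163.Kap
import Vale.Agent.P163.GauB

open Filter Topology

namespace Vale.Agent.P163

theorem appr_lip1 {f : ℤ → ℝ} {L : ℝ} (h : ∀ n, |f (n + 1) - f n| ≤ L) (n a : ℤ) :
    |f (n + a) - f n| ≤ |(a : ℝ)| * L := by
  induction a using Int.induction_on with
  | zero => simp
  | succ i ih =>
    have h1 := h (n + i)
    have h2 := abs_sub_le (f (n + i + 1)) (f (n + i)) (f n)
    push_cast at ih ⊢
    rw [abs_of_nonneg (a := (i : ℝ)) (by positivity)] at ih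
    rw [abs_of_nonneg (a := (i : ℝ) + 1) (by positivity), ← add_assoc]
    linarith
  | pred i ih =>
    have h1 := h (n + (-i - 1))
    rw [show n + (-(i : ℤ) - 1) + 1 = n + -i by ring, abs_sub_comm] at h1
    have h2 := abs_sub_le (f (n + (-i - 1))) (f (n + -i)) (f n)
    push_cast at ih ⊢
    have h0 : (0 : ℝ) ≤ i := by positivity
    rw [abs_neg, abs_of_nonneg h0] at ih
    rw [abs_of_nonpos (a := -(i : ℝ) - 1) (by linarith)]
    linarith

theorem appr_lip {ψ : Site → ℝ} {L : ℝ} (h : ∀ ν x, |ψ (x + ee ν) - ψ x| ≤ L) (x : Site)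
    (a b : ℤ) : |ψ (x.1 + a, x.2 + b) - ψ x| ≤ (|(a : ℝ)| + |(b : ℝ)|) * L := by
  have h1 := appr_lip1 (f := fun n => ψ (n, x.2 + b))
    (fun n => by simpa [ee] using h 0 (n, x.2 + b)) x.1 a
  have h2 := appr_lip1 (f := fun n => ψ (x.1, n)) (fun n => by simpa [ee] using h 1 (x.1, n)) x.2 b
  have h3 := abs_sub_le (ψ (x.1 + a, x.2 + b)) (ψ (x.1, x.2 + b)) (ψ x)
  have h4 : |ψ (x.1, x.2 + b) - ψ x| ≤ |(b : ℝ)| * L := h2
  linarith

/-- The box of radius `r` around `c`. -/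
noncomputable def apprBox (c : Site) (r : ℕ) : Finset Site :=
  Finset.Icc (c.1 - r) (c.1 + r) ×ˢ Finset.Icc (c.2 - r) (c.2 + r)

theorem appr_mem {c x : Site} {r : ℕ} :
    x ∈ apprBox c r ↔ |x.1 - c.1| ≤ r ∧ |x.2 - c.2| ≤ r := by
  simp only [apprBox, Finset.mem_product, Finset.mem_Icc, abs_le]
  omega

theorem appr_card (c : Site) (r : ℕ) : ((apprBox c r).card : ℝ) = (2 * r + 1) ^ 2 := by
  have e : ∀ a : ℤ, (a + r + 1 - (a - r)).toNat = 2 * r + 1 := fun a => by omega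
  rw [apprBox, Finset.card_product, Int.card_Icc, Int.card_Icc, e, e]
  push_cast
  ring

theorem appr_tsum {f : Site → ℝ} {B : Finset Site} {M : ℝ} (h0 : ∀ x, f x ≠ 0 → x ∈ B)
    (h : ∀ x, f x ≤ M) : Summable f ∧ ∑' x, f x ≤ B.card * M := by
  have h1 : ∀ x ∉ B, f x = 0 := fun x hx => by_contra fun e => hx (h0 x e)
  refine ⟨summable_of_ne_finset_zero h1, ?_⟩
  rw [tsum_eq_sum h1, ← nsmul_eq_mul]
  exact Finset.sum_le_card_nsmul _ _ _ fun x _ => h x

theorem appr_supp {K l : ℝ} {c : Site} {φ : Site → ℝ}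
    (h : ∀ x, φ x ≠ 0 → |(x.1 : ℝ) - c.1| ≤ K * l ∧ |(x.2 : ℝ) - c.2| ≤ K * l) (x : Site)
    (hx : φ x ≠ 0) : x ∈ apprBox c ⌈K * l⌉₊ := by
  have h1 := (h x hx).1.trans (Nat.le_ceil _)
  have h2 := (h x hx).2.trans (Nat.le_ceil _)
  exact appr_mem.2 ⟨by exact_mod_cast h1, by exact_mod_cast h2⟩

theorem appr_supp_D {c : Site} {r : ℕ} {φ : Site → ℝ} (h : ∀ x, φ x ≠ 0 → x ∈ apprBox c r)
    (μ : Fin 2) (x : Site) (hx : φ (x + ee μ) - φ x ≠ 0) : x ∈ apprBox c (r + 1) := by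
  by_contra hc
  have h1 : φ x = 0 := by_contra fun e => hc (by
    have := h _ e
    simp only [appr_mem, abs_le] at this ⊢
    omega)
  have h2 : φ (x + ee μ) = 0 := by_contra fun e => hc (by
    have := h _ e
    fin_cases μ <;> simp only [appr_mem, abs_le, ee, Fin.zero_eta, Fin.mk_one, Fin.isValue,
      Matrix.cons_val_zero, Matrix.cons_val_one, Prod.fst_add, Prod.snd_add] at this ⊢ <;> omega)
  exact hx (by rw [h1, h2, sub_self])

theorem appr_kap {ψ : Site → ℝ} {L : ℝ} {c : Site} {r : ℕ} (h0 : ∀ x, ψ x ≠ 0 → x ∈ apprBox c r)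
    (h : ∀ ν x, |ψ (x + ee ν) - ψ x| ≤ L) : Summable (fun x => (ψ x - kap ψ x) ^ 2) ∧
      ∑' x, (ψ x - kap ψ x) ^ 2 ≤ (2 * ((r : ℝ) + 1) + 1) ^ 2 * (2 * L) ^ 2 := by
  have hL : 0 ≤ L := (abs_nonneg _).trans (h 0 0)
  have := appr_tsum (f := fun x => (ψ x - kap ψ x) ^ 2) (B := apprBox c (r + 1)) (M := (2 * L) ^ 2)
    (fun x hx => by
      by_contra hc
      have z : ∀ u v : ℤ, |u - x.1| ≤ 1 → |v - x.2| ≤ 1 → ψ (u, v) = 0 := fun u v hu hv =>
        by_contra fun e => hc (by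
          have := h0 _ e
          simp only [appr_mem, abs_le] at this hu hv ⊢
          omega)
      have z0 : ψ x = 0 := z x.1 x.2 (by simp) (by simp)
      apply hx
      simp only [kap, k1]
      rw [z0, z _ _ (by simp) (by simp), z _ _ (by simp) (by simp), z _ _ (by simp) (by simp),
        z _ _ (by simp) (by simp), z _ _ (by simp) (by simp), z _ _ (by simp) (by simp),
        z _ _ (by simp) (by simp), z _ _ (by simp) (by simp)]
      norm_num)
    fun x => by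
      have k : ∀ u v : ℤ, |u - x.1| ≤ 1 → |v - x.2| ≤ 1 →
          -(2 * L) ≤ ψ (u, v) - ψ x ∧ ψ (u, v) - ψ x ≤ 2 * L := fun u v hu hv => by
        have h1 := appr_lip h x (u - x.1) (v - x.2)
        rw [add_sub_cancel, add_sub_cancel] at h1
        have h2 : |((u - x.1 : ℤ) : ℝ)| ≤ 1 := by exact_mod_cast hu
        have h3 : |((v - x.2 : ℤ) : ℝ)| ≤ 1 := by exact_mod_cast hv
        exact abs_le.1 (h1.trans (mul_le_mul_of_nonneg_right (by linarith) hL))
      have a1 := k (x.1 - 1) (x.2 - 1) (by simp) (by simp)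
      have a2 := k (x.1 - 1) x.2 (by simp) (by simp)
      have a3 := k (x.1 - 1) (x.2 + 1) (by simp) (by simp)
      have a4 := k x.1 (x.2 - 1) (by simp) (by simp)
      have a5 := k x.1 x.2 (by simp) (by simp)
      have a6 := k x.1 (x.2 + 1) (by simp) (by simp)
      have a7 := k (x.1 + 1) (x.2 - 1) (by simp) (by simp)
      have a8 := k (x.1 + 1) x.2 (by simp) (by simp)
      have a9 := k (x.1 + 1) (x.2 + 1) (by simp) (by simp)
      refine sq_le_sq' ?_ ?_ <;> simp only [kap, k1] <;> linarith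
  rw [appr_card] at this
  exact_mod_cast this

theorem appr_hk0 (a : ℝ) (t : ℤ) : 0 < hk 0 a t := by
  unfold hk
  positivity

theorem appr_yc (a : ℝ) (φ : Site → ℝ) (x : Site) :
    yc a φ x = (∑' t : ℤ, φ (x.1, x.2 - t) * hk 0 a t) / zz a := by
  rw [yc, ← (Equiv.subLeft x.2).tsum_eq]
  simp

/-- The shear used for reindexing. -/
def apprShear : Site × ℤ ≃ Site × ℤ where
  toFun p := ((p.1.1, p.1.2 - p.2), p.2)
  invFun p := ((p.1.1, p.1.2 + p.2), p.2)
  left_inv p := by simp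
  right_inv p := by simp

theorem appr_sum2 {φ : Site → ℝ} {g : ℤ → ℝ} (hφ : Summable φ) (hg : Summable g) :
    Summable fun p : Site × ℤ => φ (p.1.1, p.1.2 - p.2) * g p.2 :=
  (apprShear.summable_iff (f := fun p : Site × ℤ => φ p.1 * g p.2)).2
    (summable_mul_of_summable_norm hφ.norm hg.norm)

theorem appr_yc_summable {a : ℝ} (ha : 0 < a) {φ : Site → ℝ} (hφ : Summable φ) :
    Summable (yc a φ) := by
  rw [show yc a φ = _ from funext (appr_yc a φ)]
  exact (appr_sum2 hφ (summable_hk 0 ha)).prod.div_const _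

theorem appr_yc_D {a : ℝ} (ha : 0 < a) {φ : Site → ℝ} (hφ : Summable φ) (μ : Fin 2) (x : Site) :
    yc a φ (x + ee μ) - yc a φ x = yc a (fun x => φ (x + ee μ) - φ x) x := by
  have h := appr_sum2 hφ (summable_hk 0 ha)
  rw [appr_yc, appr_yc, appr_yc, ← sub_div, ← (h.prod_factor _).tsum_sub (h.prod_factor _)]
  congr 2
  funext t
  rw [sub_mul, show ((x.1, x.2 - t) : Site) + ee μ = ((x + ee μ).1, (x + ee μ).2 - t) by
    ext <;> simp only [Prod.fst_add, Prod.snd_add]; ring]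

theorem appr_mom {a : ℝ} (ha : 0 < a) : Summable fun t : ℤ => |(t : ℝ)| * hk 0 a t := by
  refine Summable.of_nonneg_of_le (fun t => mul_nonneg (abs_nonneg _) (appr_hk0 a t).le)
    (fun t => ?_) ((summable_hk 1 ha).abs.add (summable_hk 0 ha))
  have h1 := abs_add_le ((t : ℝ) - 1 / 4) (1 / 4)
  rw [sub_add_cancel, abs_of_pos (show (0 : ℝ) < 1 / 4 by norm_num)] at h1
  have h2 := Real.exp_pos (-2 * a * ((t : ℝ) - 1 / 4) ^ 2)
  simp only [hk, pow_zero, pow_one, one_mul, abs_mul, abs_of_pos h2]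
  nlinarith

theorem appr_est {a : ℝ} (ha : 0 < a) (hz : 0 < zz a) {ψ : Site → ℝ} {L : ℝ} {B : Finset Site}
    (h0 : ∀ x, ψ x ≠ 0 → x ∈ B) (h : ∀ ν x, |ψ (x + ee ν) - ψ x| ≤ L) :
    Summable (fun x => (ψ x - yc a ψ x) ^ 2) ∧ ∑' x, (ψ x - yc a ψ x) ^ 2 ≤
      2 * B.card * (L * (∑' t : ℤ, |(t : ℝ)| * hk 0 a t) / zz a) ^ 2 := by
  have hψ : Summable ψ := summable_of_ne_finset_zero fun x hx => by_contra fun e => hx (h0 x e)
  have hg := summable_hk 0 ha
  have g0 := appr_hk0 a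
  have s1 := appr_sum2 hψ hg
  have s0 : Summable fun p : Site × ℤ => ψ p.1 * hk 0 a p.2 :=
    summable_mul_of_summable_norm hψ.norm hg.norm
  have s2 : Summable fun p : Site × ℤ => |ψ p.1 - ψ (p.1.1, p.1.2 - p.2)| * hk 0 a p.2 :=
    (s0.sub s1).abs.congr fun p => by rw [← sub_mul, abs_mul, abs_of_pos (g0 _)]
  have lip : ∀ (x : Site) (t : ℤ), |ψ x - ψ (x.1, x.2 - t)| ≤ L * |(t : ℝ)| := fun x t => by
    have := appr_lip h x 0 (-t)
    rw [abs_sub_comm, mul_comm] at this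
    simpa [sub_eq_add_neg] using this
  have sm := (appr_mom ha).mul_left L
  set A : Site → ℝ := fun x => ∑' t : ℤ, |ψ x - ψ (x.1, x.2 - t)| * hk 0 a t with hA
  set P := L * ∑' t : ℤ, |(t : ℝ)| * hk 0 a t with hP
  have A0 : ∀ x, 0 ≤ A x := fun x => tsum_nonneg fun t => mul_nonneg (abs_nonneg _) (g0 t).le
  have A1 : ∀ x, A x ≤ P := fun x => by
    rw [hP, ← tsum_mul_left]
    refine (s2.prod_factor x).tsum_le_tsum (fun t => ?_) sm
    rw [← mul_assoc]
    exact mul_le_mul_of_nonneg_right (lip x t) (g0 t).le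
  have P0 : 0 ≤ P := (A0 0).trans (A1 0)
  have A2 : ∀ x, |ψ x - yc a ψ x| ≤ A x / zz a := fun x => by
    have e : ψ x - yc a ψ x = (∑' t : ℤ, (ψ x - ψ (x.1, x.2 - t)) * hk 0 a t) / zz a := by
      simp only [sub_mul]
      have p0 : Summable fun t : ℤ => ψ x * hk 0 a t := s0.prod_factor x
      have p1 : Summable fun t : ℤ => ψ (x.1, x.2 - t) * hk 0 a t := s1.prod_factor x
      rw [p0.tsum_sub p1, tsum_mul_left, appr_yc, sub_div, ← zz, mul_div_cancel_right₀ _ hz.ne']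
    rw [e, abs_div, abs_of_pos hz]
    refine div_le_div_of_nonneg_right ?_ hz.le
    refine tsum_of_norm_bounded (f := fun t : ℤ => (ψ x - ψ (x.1, x.2 - t)) * hk 0 a t)
      (s2.prod_factor x).hasSum fun t => ?_
    rw [Real.norm_eq_abs, abs_mul, abs_of_pos (g0 t)]
  have A3 : ∀ x, (ψ x - yc a ψ x) ^ 2 ≤ P / zz a ^ 2 * A x := fun x => by
    rw [← sq_abs]
    refine (pow_le_pow_left₀ (abs_nonneg _) (A2 x) 2).trans ?_
    rw [div_pow, div_mul_eq_mul_div, sq (A x)]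
    exact div_le_div_of_nonneg_right (mul_le_mul_of_nonneg_right (A1 x) (A0 x)) (by positivity)
  have sA : Summable A := s2.prod
  have A4 : ∑' x, A x ≤ 2 * B.card * P := by
    rw [hA, ← Summable.tsum_comm (f := fun (x : Site) (t : ℤ) =>
      |ψ x - ψ (x.1, x.2 - t)| * hk 0 a t) s2, hP, ← tsum_mul_left, ← tsum_mul_left]
    refine s2.prod_symm.prod.tsum_le_tsum (fun t => ?_) (sm.mul_left _)
    have b1 := (appr_tsum (f := fun x : Site => |ψ x - ψ (x.1, x.2 - t)|)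
      (B := B ∪ B.image fun y => (y.1, y.2 + t)) (fun x hx => by
        by_cases e : ψ x = 0
        · refine Finset.mem_union_right _ (Finset.mem_image.2 ⟨(x.1, x.2 - t), h0 _ fun e' => ?_,
            by simp⟩)
          exact hx (by simp [e, e'])
        · exact Finset.mem_union_left _ (h0 x e)) fun x => lip x t).2
    have b2 : (((B ∪ B.image fun y => (y.1, y.2 + t)).card : ℕ) : ℝ) ≤ 2 * B.card := by
      exact_mod_cast (Finset.card_union_le _ _).trans (by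
        rw [two_mul]
        exact Nat.add_le_add_left Finset.card_image_le _)
    have b3 := b1.trans (mul_le_mul_of_nonneg_right b2 ((abs_nonneg _).trans (lip 0 t)))
    change ∑' x : Site, |ψ x - ψ (x.1, x.2 - t)| * hk 0 a t ≤ _
    rw [tsum_mul_right, ← mul_assoc L, ← mul_assoc]
    exact mul_le_mul_of_nonneg_right b3 (g0 t).le
  have s3 := Summable.of_nonneg_of_le (fun x => sq_nonneg _) A3 (sA.mul_left _)
  refine ⟨s3, (s3.tsum_le_tsum A3 (sA.mul_left _)).trans ?_⟩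
  rw [tsum_mul_left]
  refine (mul_le_mul_of_nonneg_left A4 (by positivity)).trans_eq ?_
  ring

theorem appr_h1_add {f g : Site → ℝ} (hf : Summable f) (hg : Summable g) :
    h1 (f + g) ≤ 2 * h1 f + 2 * h1 g := by
  unfold h1
  rw [← tsum_mul_left, ← tsum_mul_left,
    ← ((h1_summable hf).mul_left 2).tsum_add ((h1_summable hg).mul_left 2)]
  refine (h1_summable (hf.add hg)).tsum_le_tsum (fun x => ?_)
    (((h1_summable hf).mul_left 2).add ((h1_summable hg).mul_left 2))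
  simp only [Pi.add_apply]
  nlinarith [sq_nonneg (f (x + ee 0) - f x - (g (x + ee 0) - g x)),
    sq_nonneg (f (x + ee 1) - f x - (g (x + ee 1) - g x))]

theorem appr_h1_le {f : Site → ℝ} {u : Fin 2 → Site → ℝ} {M : ℝ}
    (e : ∀ μ x, f (x + ee μ) - f x = u μ x)
    (h : ∀ μ, Summable (fun x => u μ x ^ 2) ∧ ∑' x, u μ x ^ 2 ≤ M) : h1 f ≤ 2 * M := by
  unfold h1
  simp only [e]
  rw [(h 0).1.tsum_add (h 1).1]
  linarith [(h 0).2, (h 1).2]

theorem appr_kap_D (φ : Site → ℝ) (μ : Fin 2) (x : Site) :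
    kap φ (x + ee μ) - kap φ x = kap (fun x => φ (x + ee μ) - φ x) x := by
  fin_cases μ <;> simp only [kap, k1, ee, Fin.zero_eta, Fin.mk_one, Fin.isValue,
    Matrix.cons_val_zero, Matrix.cons_val_one, Prod.fst_add, Prod.snd_add, Prod.mk_add_mk,
    add_zero, sub_add_cancel, add_sub_cancel_right] <;> ring

/-- Write `φ - kap φ' = (φ - kap φ) + kap (φ - φ')` with `φ' = yc a φ`.  All second differences are
bounded by `K / l^2` and supported in a box of side at most `7 K l`, so their squared norms are at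
most `49 K^4 / l^2`.  The gradient of `φ - kap φ` is an average of differences of gradients at
distance at most two.  The gradient of `φ - φ'` is
`∑ t, g t / Z * (∇φ - ∇φ (· - (0, t)))`, whose norm is at most `∑ t, g t |t| / Z` times the norm of
a second difference (Jensen or Minkowski, telescoping); use `gauss_sums`, `h1_kap_le`. -/
theorem yc_approx : ∃ C : ℝ, ∀ (K l s : ℝ) (c : Site) (φ : Site → ℝ), 1 ≤ K → 1 ≤ l → 0 < s →
    s ≤ 1 → (∀ x, φ x ≠ 0 → |(x.1 : ℝ) - c.1| ≤ K * l ∧ |(x.2 : ℝ) - c.2| ≤ K * l) →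
    (∀ μ ν x, |φ (x + ee μ + ee ν) - φ (x + ee μ) - φ (x + ee ν) + φ x| ≤ K / l ^ 2) →
    Summable (yc (s ^ 2) φ) ∧ h1 (φ - kap (yc (s ^ 2) φ)) ≤ C * K ^ 4 / (s * l) ^ 2 := by
  obtain ⟨c₀, C₀, hc, hC, hg⟩ := gauss_sums
  refine ⟨81 * (16 + 8 * (C₀ / c₀) ^ 2), fun K l s c φ hK hl hs hs1 h0 h2 => ?_⟩
  obtain ⟨-, -, g1, g2, -⟩ := hg s hs hs1
  have ha : 0 < s ^ 2 := by positivity
  have hz : 0 < zz (s ^ 2) := (mul_pos_iff_of_pos_right hs).1 (hc.trans_le g1)
  have b0 := appr_supp h0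
  have hφ : Summable φ := summable_of_ne_finset_zero fun x hx => by_contra fun e => hx (b0 x e)
  have hy := appr_yc_summable ha hφ
  refine ⟨hy, ?_⟩
  have lip : ∀ μ ν x, |φ (x + ee ν + ee μ) - φ (x + ee ν) - (φ (x + ee μ) - φ x)| ≤ K / l ^ 2 :=
    fun μ ν x => by
      rw [← sub_add]
      exact h2 ν μ x
  have k1' := appr_h1_le (f := φ - kap φ)
    (u := fun μ x => φ (x + ee μ) - φ x - kap (fun x => φ (x + ee μ) - φ x) x)
    (fun μ x => by
      rw [← appr_kap_D, Pi.sub_apply, Pi.sub_apply]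
      ring) fun μ => appr_kap (appr_supp_D b0 μ) (lip μ)
  have k2 := appr_h1_le (f := φ - yc (s ^ 2) φ)
    (u := fun μ x => φ (x + ee μ) - φ x - yc (s ^ 2) (fun x => φ (x + ee μ) - φ x) x)
    (fun μ x => by
      rw [← appr_yc_D ha hφ, Pi.sub_apply, Pi.sub_apply]
      ring) fun μ => appr_est ha hz (appr_supp_D b0 μ) (lip μ)
  have e : φ - kap (yc (s ^ 2) φ) = (φ - kap φ) + kap (φ - yc (s ^ 2) φ) := by
    funext x
    simp only [Pi.sub_apply, Pi.add_apply, kap, k1]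
    ring
  have k3 := appr_h1_add (hφ.sub (summable_kap hφ)) (summable_kap (hφ.sub hy))
  have k4 := h1_kap_le (hφ.sub hy)
  rw [appr_card] at k2
  have r1 : (⌈K * l⌉₊ : ℝ) < K * l + 1 := Nat.ceil_lt_add_one (by positivity)
  have r2 : 1 ≤ K * l := one_le_mul_of_one_le_of_one_le hK hl
  have r0 : (0 : ℝ) ≤ ⌈K * l⌉₊ := Nat.cast_nonneg _
  push_cast at k1' k2
  have r3 : (2 * ((⌈K * l⌉₊ : ℝ) + 1 + 1) + 1) ^ 2 ≤ (9 * (K * l)) ^ 2 :=
    pow_le_pow_left₀ (by positivity) (by linarith) 2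
  have r4 : (2 * ((⌈K * l⌉₊ : ℝ) + 1) + 1) ^ 2 ≤ (9 * (K * l)) ^ 2 :=
    pow_le_pow_left₀ (by positivity) (by linarith) 2
  have m0 : 0 ≤ ∑' t : ℤ, |(t : ℝ)| * hk 0 (s ^ 2) t :=
    tsum_nonneg fun t => mul_nonneg (abs_nonneg _) (appr_hk0 _ t).le
  have m1 : K / l ^ 2 * (∑' t : ℤ, |(t : ℝ)| * hk 0 (s ^ 2) t) / zz (s ^ 2) ≤
      K / l ^ 2 * (C₀ / c₀ / s) := by
    rw [mul_div_assoc]
    refine mul_le_mul_of_nonneg_left ?_ (by positivity)
    rw [div_div, div_le_div_iff₀ hz (by positivity)]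
    refine le_of_mul_le_mul_right ?_ hs
    nlinarith [mul_le_mul g2 g1 hc.le hC.le]
  have k5 := mul_le_mul_of_nonneg_right r3 (sq_nonneg (2 * (K / l ^ 2)))
  have k6 := mul_le_mul r4 (pow_le_pow_left₀ (by positivity) m1 2) (by positivity) (by positivity)
  have e1 : (9 * (K * l)) ^ 2 * (2 * (K / l ^ 2)) ^ 2 = 324 * (K ^ 4 / (s * l) ^ 2) * s ^ 2 := by
    field_simp
    ring
  have e2 : (9 * (K * l)) ^ 2 * (K / l ^ 2 * (C₀ / c₀ / s)) ^ 2 =
      81 * (C₀ / c₀) ^ 2 * (K ^ 4 / (s * l) ^ 2) := by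
    field_simp
    ring
  have k7 := mul_le_of_le_one_right (show 0 ≤ 324 * (K ^ 4 / (s * l) ^ 2) by positivity)
    (pow_le_one₀ hs.le hs1 (n := 2))
  rw [e, mul_div_assoc]
  refine k3.trans ?_
  change 2 * h1 (φ - kap φ) + 2 * h1 (kap (φ - yc (s ^ 2) φ)) ≤ _
  change h1 (kap (φ - yc (s ^ 2) φ)) ≤ h1 (φ - yc (s ^ 2) φ) at k4
  linarith

end Vale.Agent.P163
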