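import Vale.Agent.P163.Defs

open MvPolynomial Filter Topology

namespace Vale.Agent.P163

/-! Algebraic bookkeeping. -/

theorem act_sp (g : Site → Site) (i : Fin 3) (x : Site) : act g (sp i x) = sp i (g x) := by
  simp [act, sp]

theorem act_act (g h : Site → Site) (P : Alg) : act g (act h P) = act (g ∘ h) P := by
  simp only [act, rename_rename]
  rfl

theorem act_id (P : Alg) : act id P = P := by
  exact rename_id_apply P

theorem tr_tr (s t : Site) (P : Alg) : tr s (tr t P) = tr (t + s) P := by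
  simp only [tr, act_act, Function.comp_def, add_assoc]

theorem tr_zero (P : Alg) : tr 0 P = P := by
  simp only [tr, add_zero]
  exact act_id P

theorem tr_sp (s : Site) (i : Fin 3) (x : Site) : tr s (sp i x) = sp i (x + s) := by
  exact act_sp _ i x

theorem tr_cur (s : Site) (i j : Fin 3) (μ : Fin 2) (x : Site) :
    tr s (cur i j μ x) = cur i j μ (x + s) := by
  simp only [cur, map_sub, map_mul, tr_sp, add_right_comm x s]

theorem tr_rot (s : Site) (i j : Fin 3) (x : Site) : tr s (rot i j x) = rot i j (x + s) := by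
  simp only [rot, map_sub, map_add, tr_cur, add_right_comm x s]

theorem fl_rot (i j : Fin 3) (x : Site) : act fl (rot i j x) = -rot i j (rho x) := by
  obtain ⟨a, b⟩ := x
  simp only [rot, cur, map_sub, map_add, map_mul, act_sp, fl, rho, ee, Matrix.cons_val_zero,
    Matrix.cons_val_one, Prod.mk_add_mk, add_zero, show -1 - a + 1 = -a by ring,
    show -(a + 1) = -1 - a by ring]
  ring

theorem sw_rot (i j : Fin 3) (x : Site) : act sw (rot i j x) = -rot i j (sw x) := by
  obtain ⟨a, b⟩ := x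
  simp only [rot, cur, map_sub, map_add, map_mul, act_sp, sw, ee, Matrix.cons_val_zero,
    Matrix.cons_val_one, Prod.mk_add_mk, add_zero]
  ring

theorem sh_apply (s : Site) (f : Site →₀ ℝ) (x : Site) : sh s f x = f (x - s) := by
  simp [sh, sub_eq_add_neg]

theorem grad_apply (μ : Fin 2) (f : Site →₀ ℝ) (x : Site) : grad μ f x = f (x + ee μ) - f x := by
  simp [grad, sh_apply]

theorem bgrad_apply (μ : Fin 2) (f : Site →₀ ℝ) (x : Site) :
    bgrad μ f x = f x - f (x - ee μ) := by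
  simp [bgrad, sh_apply]

theorem ind_apply (S : Finset Site) (x : Site) : ind S x = if x ∈ S then 1 else 0 := by
  simp [ind, Finsupp.indicator_apply]

theorem mem_bx (l : ℕ) (x : Site) : x ∈ bx l ↔ |x.1| ≤ l ∧ |x.2| ≤ l := by
  simp [bx, box, abs_le]

theorem card_bx (l : ℕ) : (bx l).card = (2 * l + 1) ^ 2 := by
  simp only [bx, box, Finset.card_product, Int.card_Icc]
  rw [show (l : ℤ) + 1 - -l = ((2 * l + 1 : ℕ) : ℤ) by push_cast; ring, Int.toNat_natCast, sq]

theorem lc_eq_sum (Y : Site → Alg) (f : Site →₀ ℝ) (S : Finset Site) (h : f.support ⊆ S) :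
    lc Y f = ∑ x ∈ S, f x • Y x := by
  rw [lc, Finsupp.linearCombination_apply]
  exact Finsupp.sum_of_support_subset f h _ fun _ _ => zero_smul _ _

theorem tr_lc (Y : Site → Alg) (hY : ∀ s x, tr s (Y x) = Y (x + s)) (s : Site) (f : Site →₀ ℝ) :
    tr s (lc Y f) = lc Y (sh s f) := by
  simp only [lc, Finsupp.linearCombination_apply, sh, Finsupp.sum_equivMapDomain, map_finsuppSum,
    map_smul, hY, Equiv.coe_addRight]

theorem loc_mono {S S' : Set Site} (h : S ⊆ S') : loc S ≤ loc S' := by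
  exact supported_mono fun _ hv => h hv

theorem sp_mem_loc {S : Set Site} (i : Fin 3) {x : Site} (h : x ∈ S) : sp i x ∈ loc S := by
  exact X_mem_supported.2 h

theorem cur_mem_loc {S : Set Site} (i j : Fin 3) (μ : Fin 2) {x : Site} (h : x ∈ S)
    (h' : x + ee μ ∈ S) : cur i j μ x ∈ loc S := by
  exact sub_mem (mul_mem (sp_mem_loc i h) (sp_mem_loc j h'))
    (mul_mem (sp_mem_loc j h) (sp_mem_loc i h'))

theorem rot_mem_loc (i j : Fin 3) (x : Site) :
    rot i j x ∈ loc {y | x.1 ≤ y.1 ∧ y.1 ≤ x.1 + 1 ∧ x.2 ≤ y.2 ∧ y.2 ≤ x.2 + 1} := by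
  refine sub_mem (sub_mem (add_mem (cur_mem_loc _ _ _ ?_ ?_) (cur_mem_loc _ _ _ ?_ ?_))
    (cur_mem_loc _ _ _ ?_ ?_)) (cur_mem_loc _ _ _ ?_ ?_) <;> simp [ee]

theorem basa_ind {S : Set Site} {P : Alg} (hP : P ∈ loc S) {p : Alg → Prop}
    (h1 : ∀ i, ∀ x ∈ S, p (sp i x)) (h2 : ∀ c, p (algebraMap ℝ Alg c))
    (h3 : ∀ P Q, P ∈ loc S → Q ∈ loc S → p P → p Q → p (P + Q))
    (h4 : ∀ P Q, P ∈ loc S → Q ∈ loc S → p P → p Q → p (P * Q)) : p P := by
  refine Algebra.adjoin_induction (p := fun P _ => p P) ?_ h2 h3 h4 hP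
  rintro _ ⟨v, hv, rfl⟩
  exact h1 v.2 v.1 hv

theorem act_mem_loc {S S' : Set Site} {P : Alg} (hP : P ∈ loc S) (g : Site → Site)
    (h : ∀ x ∈ S, g x ∈ S') : act g P ∈ loc S' := by
  refine basa_ind hP (p := fun P => act g P ∈ loc S') (fun i x hx => ?_) (fun c => ?_)
    (fun P Q _ _ h1 h2 => ?_) fun P Q _ _ h1 h2 => ?_
  · rw [act_sp]
    exact sp_mem_loc i (h x hx)
  · rw [AlgHom.commutes]
    exact Subalgebra.algebraMap_mem _ c
  · rw [map_add]
    exact add_mem h1 h2
  · rw [map_mul]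
    exact mul_mem h1 h2

theorem lc_mem_loc {S : Set Site} (Y : Site → Alg) (f : Site →₀ ℝ)
    (h : ∀ x, f x ≠ 0 → Y x ∈ loc S) : lc Y f ∈ loc S := by
  rw [lc_eq_sum Y f _ subset_rfl]
  exact sum_mem fun x hx => Subalgebra.smul_mem _ (h x (Finsupp.mem_support_iff.1 hx)) _

theorem exists_loc (P : Alg) : ∃ l : ℕ, P ∈ loc (bx l : Set Site) := by
  refine ⟨P.vars.sup fun v => max v.1.1.natAbs v.1.2.natAbs, mem_supported.2 fun v hv => ?_⟩
  have h := Finset.le_sup (f := fun v : Site × Fin 3 => max v.1.1.natAbs v.1.2.natAbs) hv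
  rw [max_le_iff] at h
  simp only [Set.mem_ofPred_eq, Finset.mem_coe, mem_bx, Int.abs_eq_natAbs, Nat.cast_le]
  exact h

theorem gen_sp (i j k : Fin 3) (x y : Site) : gen i j x (sp k y) =
    if y = x then (if k = j then sp i x else 0) - (if k = i then sp j x else 0) else 0 := by
  by_cases h : y = x <;> simp [gen, sp, pderiv_X, Pi.single_apply, h]

theorem basa_genf (i j : Fin 3) (f : Site →₀ ℝ) (P : Alg) :
    genf i j f P = f.sum fun x c => c • gen i j x P := by
  simp only [genf, Finsupp.sum]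
  induction f.support using Finset.induction_on with
  | empty => simp
  | insert a t ha ih => rw [Finset.sum_insert ha, Finset.sum_insert ha, Derivation.add_apply, ih,
      Derivation.smul_apply]

theorem genf_sp (i j k : Fin 3) (f : Site →₀ ℝ) (y : Site) : genf i j f (sp k y) =
    f y • ((if k = j then sp i y else 0) - (if k = i then sp j y else 0)) := by
  rw [basa_genf, Finsupp.sum_eq_single y (fun x _ hx => by rw [gen_sp, if_neg hx.symm, smul_zero])
    fun _ => zero_smul _ _, gen_sp, if_pos rfl]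

theorem genf_apply (i j : Fin 3) (f : Site →₀ ℝ) (P : Alg) :
    genf i j f P = f.sum fun x c => c • gen i j x P := by
  exact basa_genf i j f P

/-- two derivations that agree on the generators of `loc S` agree on `loc S`
(`Algebra.adjoin_induction`) -/
theorem genf_congr (i j : Fin 3) {S : Set Site} {P : Alg} (hP : P ∈ loc S) (f g : Site →₀ ℝ)
    (h : ∀ x ∈ S, f x = g x) : genf i j f P = genf i j g P := by
  refine basa_ind hP (p := fun P => genf i j f P = genf i j g P) (fun k x hx => ?_) (fun c => ?_)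
    (fun P Q _ _ h1 h2 => ?_) fun P Q _ _ h1 h2 => ?_
  · rw [genf_sp, genf_sp, h x hx]
  · rw [Derivation.map_algebraMap, Derivation.map_algebraMap]
  · rw [map_add, map_add, h1, h2]
  · rw [Derivation.leibniz, Derivation.leibniz, h1, h2]

theorem genf_eq_zero (i j : Fin 3) {S : Set Site} {P : Alg} (hP : P ∈ loc S) (f : Site →₀ ℝ)
    (h : ∀ x ∈ S, f x = 0) : genf i j f P = 0 := by
  rw [genf_congr i j hP f 0 h, genf_apply, Finsupp.sum_zero_index]

theorem genf_sf (i j k : Fin 3) (f g : Site →₀ ℝ) (h : ∀ x, g x ≠ 0 → f x = 1) :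
    genf i j f (sf k g) = (if k = j then sf i g else 0) - (if k = i then sf j g else 0) := by
  simp only [sf, lc_eq_sum _ g _ subset_rfl, map_sum, Derivation.map_smul, genf_sp]
  rw [Finset.sum_congr rfl fun x hx => by rw [h x (Finsupp.mem_support_iff.1 hx), one_smul]]
  split_ifs <;> simp [smul_sub]

/-- the commutator of the planes 01 and 02 -/
theorem genf_jj (f : Site →₀ ℝ) (V : Fin 2 → Site →₀ ℝ)
    (h : ∀ μ x, V μ x ≠ 0 → f x = 1 ∧ f (x + ee μ) = 1) : genf 0 1 f (jj 0 2 V) = -jj 1 2 V := by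
  simp only [jj, map_sum, ← Finset.sum_neg_distrib]
  refine Finset.sum_congr rfl fun μ _ => ?_
  simp only [lc_eq_sum _ (V μ) _ subset_rfl, map_sum, Derivation.map_smul,
    ← Finset.sum_neg_distrib, ← smul_neg]
  refine Finset.sum_congr rfl fun x hx => congrArg _ ?_
  obtain ⟨h1, h2⟩ := h μ x (Finsupp.mem_support_iff.1 hx)
  simp [cur, Derivation.leibniz, genf_sp, h1, h2]
  ring

theorem lc_rot (i j : Fin 3) (φ : Site →₀ ℝ) :
    lc (rot i j) φ = jj i j ![bgrad 1 φ, -bgrad 0 φ] := by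
  have e : ∀ μ ν, lc (cur i j μ) (sh (ee ν) φ) = lc (fun x => cur i j μ (x + ee ν)) φ :=
    fun μ ν => by
      simp only [lc, Finsupp.linearCombination_apply, sh, Finsupp.sum_equivMapDomain,
        Equiv.coe_addRight]
  simp only [jj, Fin.sum_univ_two, Matrix.cons_val_zero, Matrix.cons_val_one, bgrad, map_neg,
    map_sub, e, lc_eq_sum _ φ _ subset_rfl, rot, smul_sub, smul_add, Finset.sum_sub_distrib,
    Finset.sum_add_distrib]
  abel

theorem jj_add (i j : Fin 3) (V W : Fin 2 → Site →₀ ℝ) : jj i j (V + W) = jj i j V + jj i j W := by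
  simp only [jj, Pi.add_apply, map_add, Finset.sum_add_distrib]

theorem jj_sub (i j : Fin 3) (V W : Fin 2 → Site →₀ ℝ) : jj i j (V - W) = jj i j V - jj i j W := by
  simp only [jj, Pi.sub_apply, map_sub, Finset.sum_sub_distrib]

theorem jj_smul (i j : Fin 3) (c : ℝ) (V : Fin 2 → Site →₀ ℝ) : jj i j (c • V) = c • jj i j V := by
  simp only [jj, Pi.smul_apply, map_smul, Finset.smul_sum]

theorem basa_sw12 (i : Fin 3) (x : Site) : sw12 (sp i x) = sp (Equiv.swap 1 2 i) x := by
  simp [sw12, sp]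

theorem sw12_jj (V : Fin 2 → Site →₀ ℝ) : sw12 (jj 0 1 V) = jj 0 2 V := by
  simp only [jj, map_sum, lc_eq_sum _ (V _) _ subset_rfl, map_smul, cur, map_sub, map_mul,
    basa_sw12, Equiv.swap_apply_left, show Equiv.swap (1 : Fin 3) 2 0 = 0 by decide]

theorem sw12_sf1 (f : Site →₀ ℝ) : sw12 (sf 1 f) = sf 2 f := by
  simp only [sf, map_sum, lc_eq_sum _ f _ subset_rfl, map_smul, basa_sw12, Equiv.swap_apply_left]

theorem nsq_nonneg (f : Site →₀ ℝ) : 0 ≤ nsq f := by
  exact Finset.sum_nonneg fun _ _ => sq_nonneg _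

theorem nsq_eq_sum (f : Site →₀ ℝ) (S : Finset Site) (h : f.support ⊆ S) :
    nsq f = ∑ x ∈ S, f x ^ 2 := by
  exact Finsupp.sum_of_support_subset f h _ fun _ _ => by simp

theorem nsq_eq_tsum (f : Site →₀ ℝ) : nsq f = ∑' x, f x ^ 2 := by
  rw [tsum_eq_sum (s := f.support) fun x hx => by simp [Finsupp.notMem_support_iff.1 hx]]
  rfl

theorem nsq_sh (s : Site) (f : Site →₀ ℝ) : nsq (sh s f) = nsq f := by
  simp only [nsq, sh, Finsupp.sum_equivMapDomain]

theorem nsq_smul (c : ℝ) (f : Site →₀ ℝ) : nsq (c • f) = c ^ 2 * nsq f := by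
  rw [nsq_eq_sum _ f.support Finsupp.support_smul, nsq_eq_sum f _ subset_rfl, Finset.mul_sum]
  simp only [Finsupp.smul_apply, smul_eq_mul, mul_pow]

theorem nsq_neg (f : Site →₀ ℝ) : nsq (-f) = nsq f := by
  rw [← neg_one_smul ℝ f, nsq_smul, neg_one_sq, one_mul]

theorem nsq_bgrad (μ : Fin 2) (f : Site →₀ ℝ) : nsq (bgrad μ f) = nsq (grad μ f) := by
  rw [← nsq_sh (ee μ) (grad μ f)]
  refine congrArg nsq (Finsupp.ext fun x => ?_)
  rw [bgrad_apply, sh_apply, grad_apply, sub_add_cancel]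

theorem nsq_add_le (f g : Site →₀ ℝ) : nsq (f + g) ≤ 2 * nsq f + 2 * nsq g := by
  rw [nsq_eq_sum _ _ Finsupp.support_add, nsq_eq_sum f _ Finset.subset_union_left,
    nsq_eq_sum g _ Finset.subset_union_right, Finset.mul_sum, Finset.mul_sum,
    ← Finset.sum_add_distrib]
  refine Finset.sum_le_sum fun x _ => ?_
  rw [Finsupp.add_apply]
  nlinarith [sq_nonneg (f x - g x)]

theorem nsq_mono (f g : Site →₀ ℝ) (h : ∀ x, |f x| ≤ |g x|) : nsq f ≤ nsq g := by
  rw [nsq_eq_sum f (f.support ∪ g.support) Finset.subset_union_left,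
    nsq_eq_sum g (f.support ∪ g.support) Finset.subset_union_right]
  exact Finset.sum_le_sum fun x _ => sq_le_sq.2 (h x)

theorem nsq_le_card (f : Site →₀ ℝ) (S : Finset Site) (a : ℝ) (h : ∀ x, f x ≠ 0 → x ∈ S)
    (ha : ∀ x, |f x| ≤ a) : nsq f ≤ S.card * a ^ 2 := by
  rw [nsq_eq_sum f S fun x hx => h x (Finsupp.mem_support_iff.1 hx), ← nsmul_eq_mul]
  exact Finset.sum_le_card_nsmul _ _ _ fun x _ => sq_le_sq' (abs_le.1 (ha x)).1 (abs_le.1 (ha x)).2

theorem h1f_eq (f : Site →₀ ℝ) : h1f f = h1 f := by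
  have e : ∀ μ, Summable fun x => grad μ f x ^ 2 := fun μ =>
    summable_of_ne_finset_zero (s := (grad μ f).support) fun x hx => by
      rw [Finsupp.notMem_support_iff.1 hx, zero_pow two_ne_zero]
  rw [h1f, Fin.sum_univ_two, nsq_eq_tsum, nsq_eq_tsum, ← (e 0).tsum_add (e 1), h1]
  simp only [grad_apply]

end Vale.Agent.P163
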