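import Vale.Agent.P163.BasA

open MvPolynomial Filter Topology

namespace Vale.Agent.P163

variable {β : ℝ} {E : Alg →ₗ[ℝ] ℝ}

theorem State.cs (h : State β E) (P Q : Alg) : E (P * Q) ^ 2 ≤ E (P * P) * E (Q * Q) := by
  have e := discrim_le_zero (a := E (Q * Q)) (b := 2 * E (P * Q)) (c := E (P * P)) fun x => by
    have e := h.pos (P + x • Q)
    simp only [add_mul, mul_add, smul_mul_assoc, mul_smul_comm, map_add, map_smul, smul_eq_mul,
      mul_comm Q P] at e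
    linarith
  rw [discrim] at e
  linarith

theorem State.abs_le (h : State β E) {P Q : Alg} {a b : ℝ} (ha : 0 ≤ a) (hb : 0 ≤ b)
    (hP : E (P * P) ≤ a ^ 2) (hQ : E (Q * Q) ≤ b ^ 2) : |E (P * Q)| ≤ a * b := by
  refine abs_le_of_sq_le_sq ((h.cs P Q).trans ?_) (mul_nonneg ha hb)
  rw [mul_pow]
  exact mul_le_mul hP hQ (h.pos Q) (sq_nonneg a)

theorem basb_one (h : State β E) : N8 E 1 1 := ⟨zero_le_one, by simp [h.one]⟩

theorem basb_44 (h : State β E) {P Q : Alg} {a b : ℝ} (hP : N8 E P a) (hQ : N8 E Q b) :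
    E ((P * Q) ^ 2 * (P * Q) ^ 2) ≤ ((a * b) ^ 2) ^ 2 := by
  have e := h.abs_le (P := P ^ 4) (Q := Q ^ 4) (pow_nonneg hP.1 4) (pow_nonneg hQ.1 4)
    (by rw [← pow_add, ← pow_mul]; exact hP.2) (by rw [← pow_add, ← pow_mul]; exact hQ.2)
  rw [show (P * Q) ^ 2 * (P * Q) ^ 2 = P ^ 4 * Q ^ 4 by ring,
    show ((a * b) ^ 2) ^ 2 = a ^ 4 * b ^ 4 by ring]
  exact (le_abs_self _).trans e

theorem basb_sq3 (h : State β E) {P Q R : Alg} {a b c : ℝ} (hP : N8 E P a) (hQ : N8 E Q b)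
    (hR : N8 E R c) : E (P * Q * R * (P * Q * R)) ≤ (a * b * c) ^ 2 := by
  have e := h.abs_le (sq_nonneg _) (sq_nonneg _) (basb_44 h hP hQ) (basb_44 h hR (basb_one h))
  rw [show P * Q * R * (P * Q * R) = (P * Q) ^ 2 * (R * 1) ^ 2 by ring,
    show (a * b * c) ^ 2 = (a * b) ^ 2 * (c * 1) ^ 2 by ring]
  exact (le_abs_self _).trans e

/-- `E (P^2) ^ 4 ≤ E (P^4) ^ 2 ≤ E (P^8)` -/
theorem State.n8_sq1 (h : State β E) {P : Alg} {a : ℝ} (hP : N8 E P a) : E (P * P) ≤ a ^ 2 := by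
  simpa using basb_sq3 h hP (basb_one h) (basb_one h)

theorem State.n8_sq2 (h : State β E) {P Q : Alg} {a b : ℝ} (hP : N8 E P a) (hQ : N8 E Q b) :
    E (P * Q * (P * Q)) ≤ (a * b) ^ 2 := by
  simpa using basb_sq3 h hP hQ (basb_one h)

/-- `E (P²Q²R²) ^ 2 ≤ E (P⁴Q⁴) E (R⁴)`, `E (P⁴Q⁴) ^ 2 ≤ E P⁸ E Q⁸` -/
theorem State.n8_sq3 (h : State β E) {P Q R : Alg} {a b c : ℝ} (hP : N8 E P a) (hQ : N8 E Q b)
    (hR : N8 E R c) : E (P * Q * R * (P * Q * R)) ≤ (a * b * c) ^ 2 := by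
  exact basb_sq3 h hP hQ hR

theorem State.n8_mul4 (h : State β E) {P Q R S : Alg} {a b c d : ℝ} (hP : N8 E P a)
    (hQ : N8 E Q b) (hR : N8 E R c) (hS : N8 E S d) : |E (P * Q * (R * S))| ≤ a * b * c * d := by
  rw [mul_assoc (a * b)]
  exact h.abs_le (mul_nonneg hP.1 hQ.1) (mul_nonneg hR.1 hS.1) (h.n8_sq2 hP hQ) (h.n8_sq2 hR hS)

theorem State.n8_one (h : State β E) : N8 E 1 1 := by
  exact basb_one h

theorem State.n8_tr (h : State β E) {P : Alg} {a : ℝ} (hP : N8 E P a) (s : Site) :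
    N8 E (tr s P) a := by
  exact ⟨hP.1, by rw [← map_pow, h.trans]; exact hP.2⟩

theorem N8.mono {P : Alg} {a b : ℝ} (hP : N8 E P a) (hab : a ≤ b) : N8 E P b := by
  exact ⟨hP.1.trans hab, hP.2.trans (pow_le_pow_left₀ hP.1 hab 8)⟩

theorem N8.smul {P : Alg} {a : ℝ} (hP : N8 E P a) (c : ℝ) : N8 E (c • P) (|c| * a) := by
  refine ⟨mul_nonneg (abs_nonneg c) hP.1, ?_⟩
  rw [smul_pow, map_smul, smul_eq_mul, mul_pow, Even.pow_abs (by decide)]
  exact mul_le_mul_of_nonneg_left hP.2 (Even.pow_nonneg (by decide) c)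

theorem N8.neg {P : Alg} {a : ℝ} (hP : N8 E P a) : N8 E (-P) a := by
  exact ⟨hP.1, by rw [Even.neg_pow (by decide)]; exact hP.2⟩

theorem JB.n8 {i j : Fin 3} (h : JB E i j) :
    ∃ c : ℝ, 0 ≤ c ∧ ∀ V, N8 E (jj i j V) (c * Real.sqrt (∑ μ, nsq (V μ))) := by
  obtain ⟨C, h0, hC⟩ := h
  refine ⟨C + 1, by positivity, fun V => ⟨by positivity, (hC V).trans ?_⟩⟩
  have e : 0 ≤ ∑ μ, nsq (V μ) := Finset.sum_nonneg fun _ _ => nsq_nonneg _
  rw [mul_pow, show Real.sqrt (∑ μ, nsq (V μ)) ^ 8 = (Real.sqrt (∑ μ, nsq (V μ)) ^ 2) ^ 4 by ring,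
    Real.sq_sqrt e]
  exact mul_le_mul_of_nonneg_right ((le_add_of_nonneg_right zero_le_one).trans
    (le_self_pow₀ (le_add_of_nonneg_left h0) (by decide))) (pow_nonneg e 4)

theorem JB.n8_rot {i j : Fin 3} (h : JB E i j) :
    ∃ c : ℝ, 0 ≤ c ∧ ∀ φ, N8 E (lc (rot i j) φ) (c * Real.sqrt (h1f φ)) := by
  obtain ⟨c, h0, hc⟩ := h.n8
  refine ⟨c, h0, fun φ => ?_⟩
  have e := hc ![bgrad 1 φ, -bgrad 0 φ]
  simp only [Fin.sum_univ_two, Matrix.cons_val_zero, Matrix.cons_val_one, nsq_neg, nsq_bgrad] at e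
  rwa [lc_rot, h1f, Fin.sum_univ_two, add_comm]

theorem State.jb02 (h : State β E) : JB E 0 2 := by
  obtain ⟨C, h0, hC⟩ := h.jbd
  exact ⟨C, h0, fun V => by rw [← sw12_jj, ← map_pow, h.comp]; exact hC V⟩

/-- summation by parts -/
theorem State.wardf (h : State β E) (i j : Fin 3) (f : Site →₀ ℝ) (P : Alg) :
    E (genf i j f P) = β * E (jj i j (fun μ => grad μ f) * P) := by
  have e : ∀ μ, lc (cur i j μ) (sh (-ee μ) f) = lc (fun x => cur i j μ (x - ee μ)) f :=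
    fun μ => by
      simp only [lc, Finsupp.linearCombination_apply, sh, Finsupp.sum_equivMapDomain,
        Equiv.coe_addRight, sub_eq_add_neg]
  have e2 : jj i j (fun μ => grad μ f) =
      ∑ x ∈ f.support, f x • ∑ μ, (cur i j μ (x - ee μ) - cur i j μ x) := by
    simp only [jj, grad, map_sub, e, lc_eq_sum _ f _ subset_rfl, Finset.smul_sum, smul_sub,
      ← Finset.sum_sub_distrib]
    exact Finset.sum_comm
  rw [genf_apply, e2, Finset.sum_mul, map_sum, Finsupp.sum, map_sum, Finset.mul_sum]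
  refine Finset.sum_congr rfl fun x _ => ?_
  rw [map_smul, h.ward, smul_mul_assoc, map_smul, smul_eq_mul, smul_eq_mul, mul_left_comm]

theorem State.two_pt (h : State β E) (x y : Site) : E (sp 0 x * sp 0 y) = gg E (y - x) := by
  rw [gg, ← h.trans x (sp 0 0 * _), map_mul (tr x), tr_sp, tr_sp, zero_add, sub_add_cancel]

theorem State.gg_nonneg (h : State β E) (x : Site) : 0 ≤ gg E x := by
  simpa [gg] using h.grif [0, x] []

theorem basb_le (h : State β E) {P Q : Alg} (e : E (Q * Q) = E (P * P)) :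
    E (P * Q) ≤ E (P * P) := by
  have e1 := h.pos (P - Q)
  simp only [sub_mul, mul_sub, map_sub, mul_comm Q P] at e1
  linarith

theorem State.gg_le (h : State β E) (x : Site) : gg E x ≤ gg E 0 := by
  exact basb_le h (by rw [h.two_pt, h.two_pt, sub_self, sub_self])

theorem State.gg_neg (h : State β E) (x : Site) : gg E (-x) = gg E x := by
  rw [← zero_sub, ← h.two_pt, mul_comm, gg]

theorem State.vv_eq (h : State β E) (f g : Site →₀ ℝ) (S T : Finset Site) (hf : f.support ⊆ S)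
    (hg : g.support ⊆ T) : vv E f g = ∑ x ∈ S, ∑ y ∈ T, f x * g y * gg E (y - x) := by
  rw [vv, sf, sf, lc_eq_sum _ f S hf, lc_eq_sum _ g T hg, Finset.sum_mul_sum]
  simp only [map_sum, smul_mul_smul_comm, map_smul, smul_eq_mul, h.two_pt]

theorem State.vv_mono (h : State β E) {f f' g g' : Site →₀ ℝ} (hf : ∀ x, 0 ≤ f x)
    (hg : ∀ x, 0 ≤ g x) (hf' : ∀ x, f x ≤ f' x) (hg' : ∀ x, g x ≤ g' x) :
    vv E f g ≤ vv E f' g' := by
  rw [h.vv_eq f g (f.support ∪ f'.support) (g.support ∪ g'.support) Finset.subset_union_left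
    Finset.subset_union_left, h.vv_eq f' g' (f.support ∪ f'.support) (g.support ∪ g'.support)
    Finset.subset_union_right Finset.subset_union_right]
  exact Finset.sum_le_sum fun x _ => Finset.sum_le_sum fun y _ => mul_le_mul_of_nonneg_right
    (mul_le_mul (hf' x) (hg' y) (hg y) ((hf x).trans (hf' x))) (h.gg_nonneg _)

theorem State.vv_nonneg (h : State β E) {f g : Site →₀ ℝ} (hf : ∀ x, 0 ≤ f x)
    (hg : ∀ x, 0 ≤ g x) : 0 ≤ vv E f g := by
  rw [h.vv_eq f g _ _ subset_rfl subset_rfl]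
  exact Finset.sum_nonneg fun x _ => Finset.sum_nonneg fun y _ =>
    mul_nonneg (mul_nonneg (hf x) (hg y)) (h.gg_nonneg _)

theorem State.vv_sh (h : State β E) (s : Site) (f g : Site →₀ ℝ) :
    vv E (sh s f) (sh s g) = vv E f g := by
  have e := tr_lc (sp 0) (fun s x => tr_sp s 0 x) s
  rw [vv, vv, sf, sf, ← e, ← e, ← map_mul, h.trans, sf, sf]

theorem State.vb_nonneg (h : State β E) (l : ℕ) : 0 ≤ vb E l := by
  exact h.pos _

theorem State.gb_nonneg (h : State β E) (l m : ℕ) : 0 ≤ gb E l m := by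
  have e : ∀ x, 0 ≤ ind (bx l) x := fun x => by rw [ind_apply]; positivity
  exact h.vv_nonneg e fun x => by rw [sh_apply]; exact e _

theorem State.vv_sh_le (h : State β E) (s : Site) (f : Site →₀ ℝ) :
    vv E f (sh s f) ≤ vv E f f := by
  exact basb_le h (h.vv_sh s f f)

end Vale.Agent.P163
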