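import Vale.Agent.P163.Defs



namespace Vale.Agent.P163

open Classical in
theorem Comb_ind (Null : (Fin 4 → Site) → Prop) (c : ℤ) (G H : Site → Prop) (lam : Site → ℤ)
    (e : Site) (hl : ∀ x y, lam (x - y) = lam x - lam y)
    (hM : ∀ (p : Fin 4 → Site) (S : Finset (Fin 4)),
      (∀ i ∉ S, ∀ j ∈ S, lam (p i) + c ≤ lam (p j)) →
      (∃ m0 : ℕ, ∀ m : ℕ, m0 ≤ m → Null fun i => if i ∈ S then p i + (m : ℤ) • e else p i) →
      Null p)
    (hG : ∀ d, G d → G (-d)) (hH : ∀ d, H d → H (-d))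
    (hfar : ∀ d : Site, c ≤ lam d → ∃ m0 : ℕ, ∀ m : ℕ, m0 ≤ m →
      G (d + (m : ℤ) • e) ∧ H (d + (m : ℤ) • e))
    (hcut : ∀ p : Fin 4 → Site, (∀ i j, i ≠ j → H (p i - p j)) → ∀ i j, i ≠ j →
      ¬ G (p i - p j) → ∃ S : Finset (Fin 4), (∀ a ∉ S, ∀ b ∈ S, lam (p a) + c ≤ lam (p b)) ∧
        (i ∈ S ↔ j ∉ S))
    (hend : ∀ p : Fin 4 → Site, (∀ i j, i ≠ j → G (p i - p j)) → Null p)
    (p : Fin 4 → Site) (hp : ∀ i j, i ≠ j → H (p i - p j)) : Null p := by
  induction hn : (Finset.univ.filter fun z : Fin 4 × Fin 4 =>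
    z.1 ≠ z.2 ∧ ¬ G (p z.1 - p z.2)).card using Nat.strong_induction_on generalizing p with
  | _ n ih =>
  by_cases hall : ∀ i j, i ≠ j → G (p i - p j)
  · exact hend p hall
  push Not at hall
  obtain ⟨i, j, hij, hb⟩ := hall
  obtain ⟨S, hS, hi⟩ := hcut p hp i j hij hb
  have h1 : ∀ z : Fin 4 × Fin 4, ∃ m0 : ℕ, z.1 ∉ S → z.2 ∈ S → ∀ m : ℕ, m0 ≤ m →
      G (p z.2 - p z.1 + (m : ℤ) • e) ∧ H (p z.2 - p z.1 + (m : ℤ) • e) := by
    intro z
    by_cases hz : z.1 ∉ S ∧ z.2 ∈ S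
    · obtain ⟨m0, h⟩ := hfar (p z.2 - p z.1) (by rw [hl]; linarith [hS _ hz.1 _ hz.2])
      exact ⟨m0, fun _ _ => h⟩
    · exact ⟨0, fun a b => absurd ⟨a, b⟩ hz⟩
  choose m0 hm0 using h1
  refine hM p S hS ⟨Finset.univ.sup m0, fun m hm => ?_⟩
  set q : Fin 4 → Site := fun i => if i ∈ S then p i + (m : ℤ) • e else p i with hq
  have cross : ∀ a b, (a ∈ S ↔ b ∉ S) → G (q a - q b) ∧ H (q a - q b) := by
    intro a b hab
    by_cases ha : a ∈ S
    · have hb := hab.1 ha
      have := hm0 (b, a) hb ha m ((Finset.le_sup (Finset.mem_univ _)).trans hm)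
      have e1 : q a - q b = p a - p b + (m : ℤ) • e := by
        simp only [hq, if_pos ha, if_neg hb]; abel
      rwa [e1]
    · have hb : b ∈ S := by_contra fun hb => ha (hab.2 hb)
      have := hm0 (a, b) ha hb m ((Finset.le_sup (Finset.mem_univ _)).trans hm)
      have e1 : q a - q b = -(p b - p a + (m : ℤ) • e) := by
        simp only [hq, if_neg ha, if_pos hb]; abel
      rw [e1]
      exact ⟨hG _ this.1, hH _ this.2⟩
  have same : ∀ a b, ¬ (a ∈ S ↔ b ∉ S) → q a - q b = p a - p b := by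
    intro a b hab
    by_cases ha : a ∈ S
    · have hb : b ∈ S := by tauto
      simp only [hq, if_pos ha, if_pos hb]; abel
    · have hb : b ∉ S := by tauto
      simp only [hq, if_neg ha, if_neg hb]
  refine ih _ ?_ q (fun a b hab => ?_) rfl
  · rw [← hn]
    refine Finset.card_lt_card ⟨fun z hz => ?_, fun hsub => ?_⟩
    · simp only [Finset.mem_filter, Finset.mem_univ, true_and] at hz ⊢
      refine ⟨hz.1, ?_⟩
      by_cases hab : z.1 ∈ S ↔ z.2 ∉ S
      · exact absurd (cross _ _ hab).1 hz.2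
      · rw [← same _ _ hab]; exact hz.2
    · have := hsub (show (i, j) ∈ _ from Finset.mem_filter.2 ⟨Finset.mem_univ _, hij, hb⟩)
      exact (Finset.mem_filter.1 this).2.2 (cross i j hi).1
  · by_cases hS' : a ∈ S ↔ b ∉ S
    · exact (cross a b hS').2
    · rw [same a b hS']; exact hp a b hab

theorem Comb_cut1 {c : ℤ} (hc : 0 < c) (y : Fin 4 → ℤ) (h : ∀ i j, i ≠ j → c ≤ |y i - y j|)
    {i j : Fin 4} (hij : i ≠ j) : ∃ S : Finset (Fin 4),
      (∀ a ∉ S, ∀ b ∈ S, y a + c ≤ y b) ∧ (i ∈ S ↔ j ∉ S) := by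
  refine ⟨Finset.univ.filter fun k => max (y i) (y j) ≤ y k, fun a ha b hb => ?_, ?_⟩
  · simp only [Finset.mem_filter, Finset.mem_univ, true_and] at ha hb
    have := h a b fun e => ha (e ▸ hb)
    rw [le_abs] at this
    omega
  · have := h i j hij
    rw [le_abs] at this
    simp only [Finset.mem_filter, Finset.mem_univ, true_and]
    omega

theorem Comb_five : ∀ a b c d e : Fin 4, a = b ∨ a = c ∨ a = d ∨ a = e ∨ b = c ∨ b = d ∨ b = e ∨
    c = d ∨ c = e ∨ d = e := by decide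

theorem Comb_cut2 {c : ℤ} (hc : 0 < c) (y : Fin 4 → ℤ) {i j : Fin 4} (h : y i + 3 * c ≤ y j) :
    ∃ S : Finset (Fin 4), (∀ a ∉ S, ∀ b ∈ S, y a + c ≤ y b) ∧ i ∉ S ∧ j ∈ S := by
  have key : ∃ t, y i ≤ t ∧ t + c ≤ y j ∧ ∀ a, y a ≤ t ∨ t + c ≤ y a := by
    by_contra hn
    push Not at hn
    obtain ⟨a0, h0⟩ := hn (y i) le_rfl (by omega)
    obtain ⟨a1, h1⟩ := hn (y i + c) (by omega) (by omega)
    obtain ⟨a2, h2⟩ := hn (y i + 2 * c) (by omega) (by omega)
    rcases Comb_five i a0 a1 a2 j with e | e | e | e | e | e | e | e | e | e <;>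
      (have := congrArg y e; omega)
  obtain ⟨t, h1, h2, h3⟩ := key
  refine ⟨Finset.univ.filter fun k => t + c ≤ y k, fun a ha b hb => ?_, ?_, ?_⟩
  · simp only [Finset.mem_filter, Finset.mem_univ, true_and] at ha hb
    have := h3 a
    omega
  · simp only [Finset.mem_filter, Finset.mem_univ, true_and]
    omega
  · simp only [Finset.mem_filter, Finset.mem_univ, true_and]
    omega

/-- Four steps, each an induction on the number of bad pairs; a move translates the set
`S = {k | lam (p j) ≤ lam (p k)}` (or another cut) by `m • e` with `m` large, which makes all pairs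
across the cut good and leaves the other pairs unchanged.
(A) If `|Δ1| + c ≤ |Δ2|` for all pairs: move `{0} ∪ above` along ` (1,1)`, then `{0} ∪ below` along
` (1,-1)` (the values of `x.1 - x.2` did not change), and use `hZ`.
(B) If `c ≤ |Δ2|` for all pairs, stretch along ` (0,1)` to reach (A).
(C) If `c ≤ |Δ1 + Δ2|` for all pairs, move along ` (1,1)` to reach (B).
(D) In general a pair with `|Δ1 + Δ2| < c` has `3 c < |Δ2|`, so with at most two points in
between there is a gap of size `c` in the second coordinate that separates them; move along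
` (0,1)` to reach (C). -/
theorem comb (Null : (Fin 4 → Site) → Prop) (c : ℤ) (hc : 0 < c)
    (hZ : ∀ p : Fin 4 → Site, (∀ i, i ≠ 0 → (p i).1 + c ≤ (p 0).1) → Null p)
    (hM : ∀ (lam : Site → ℤ) (e : Site),
      ((lam = (fun x => x.2) ∧ e = (0, 1)) ∨ (lam = (fun x => x.1 + x.2) ∧ e = (1, 1)) ∨
        (lam = (fun x => x.1 - x.2) ∧ e = (1, -1))) →
      ∀ (p : Fin 4 → Site) (S : Finset (Fin 4)), (∀ i ∉ S, ∀ j ∈ S, lam (p i) + c ≤ lam (p j)) →
      (∃ m0 : ℕ, ∀ m : ℕ, m0 ≤ m → Null fun i => if i ∈ S then p i + (m : ℤ) • e else p i) →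
      Null p)
    (p : Fin 4 → Site)
    (hp : ∀ i j, i ≠ j → 4 * c ≤ |(p i).1 - (p j).1| ∨ 4 * c ≤ |(p i).2 - (p j).2|) : Null p := by
  have hA : ∀ p : Fin 4 → Site, (∀ i j, i ≠ j → |(p i - p j).1| + c ≤ |(p i - p j).2|) →
      Null p := by
    intro p hp
    have h1 : ∀ a b, (p a).2 < (p b).2 → (p a).1 + (p a).2 + c ≤ (p b).1 + (p b).2 ∧
        (p b).1 - (p b).2 + c ≤ (p a).1 - (p a).2 := by
      intro a b hab
      have := hp a b fun e => by rw [e] at hab; exact lt_irrefl _ hab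
      rw [Prod.fst_sub, Prod.snd_sub, abs_of_neg (sub_neg.2 hab)] at this
      have h2 := le_abs_self ((p a).1 - (p b).1)
      have h3 := neg_abs_le ((p a).1 - (p b).1)
      omega
    have h2 : ∀ i, (p i).1 + c - (p 0).1 ≤
        (Finset.univ.sup fun i => ((p i).1 + c - (p 0).1).toNat : ℕ) := fun i =>
      (Int.self_le_toNat _).trans (by
        exact_mod_cast Finset.le_sup (f := fun i => ((p i).1 + c - (p 0).1).toNat)
          (Finset.mem_univ i))
    generalize (Finset.univ.sup fun i => ((p i).1 + c - (p 0).1).toNat : ℕ) = m0 at h2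
    refine hM _ _ (Or.inr (Or.inl ⟨rfl, rfl⟩)) p (Finset.univ.filter fun k => (p 0).2 ≤ (p k).2)
      (fun a ha b hb => ?_) ⟨m0, fun m hm => ?_⟩
    · simp only [Finset.mem_filter, Finset.mem_univ, true_and] at ha hb
      exact (h1 a b (by omega)).1
    refine hM _ _ (Or.inr (Or.inr ⟨rfl, rfl⟩)) _ (Finset.univ.filter fun k => (p k).2 ≤ (p 0).2)
      (fun a ha b hb => ?_) ⟨m0, fun m' hm' => hZ _ fun i hi => ?_⟩
    · simp only [Finset.mem_filter, Finset.mem_univ, true_and] at ha hb ⊢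
      have := (h1 b a (by omega)).2
      split_ifs <;> (try simp only [Prod.fst_add, Prod.snd_add, Prod.smul_mk, smul_eq_mul]) <;>
        omega
    · have h3 := hp i 0 hi
      have h4 := h2 i
      have h5 := abs_nonneg (p i - p 0).1
      have h6 : (p i).2 ≠ (p 0).2 := fun e => by
        rw [Prod.snd_sub, e, sub_self, abs_zero] at h3
        omega
      simp only [Finset.mem_filter, Finset.mem_univ, true_and, le_refl, if_true]
      split_ifs <;> simp only [Prod.fst_add, Prod.smul_mk, smul_eq_mul] <;> omega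
  have hB := Comb_ind Null c (fun d => |d.1| + c ≤ |d.2|) (fun d => c ≤ |d.2|) (fun x => x.2)
    (0, 1) (fun _ _ => rfl) (hM _ _ (Or.inl ⟨rfl, rfl⟩))
    (fun d h => by simpa only [Prod.fst_neg, Prod.snd_neg, abs_neg] using h)
    (fun d h => by simpa only [Prod.snd_neg, abs_neg] using h)
    (fun d h => ⟨d.1.natAbs, fun m hm => by
      simp only [Prod.fst_add, Prod.snd_add, Prod.smul_mk, smul_eq_mul, Int.abs_eq_natAbs]
      omega⟩)
    (fun p h i j hij _ => Comb_cut1 hc (fun k => (p k).2) h hij) hA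
  have hC := Comb_ind Null c (fun d => c ≤ |d.2|) (fun d => c ≤ |d.1 + d.2|) (fun x => x.1 + x.2)
    (1, 1) (fun x y => by simp only [Prod.fst_sub, Prod.snd_sub]; ring)
    (hM _ _ (Or.inr (Or.inl ⟨rfl, rfl⟩)))
    (fun d h => by simpa only [Prod.snd_neg, abs_neg] using h)
    (fun d h => by simpa only [Prod.fst_neg, Prod.snd_neg, ← neg_add, abs_neg] using h)
    (fun d h => ⟨(c - d.2).natAbs, fun m hm => by
      simp only [Prod.fst_add, Prod.snd_add, Prod.smul_mk, smul_eq_mul, Int.abs_eq_natAbs]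
      omega⟩)
    (fun p h i j hij _ => Comb_cut1 hc (fun k => (p k).1 + (p k).2) (fun a b hab => by
      have := h a b hab
      simp only [Prod.fst_sub, Prod.snd_sub, Int.abs_eq_natAbs] at this ⊢
      omega) hij) hB
  refine Comb_ind Null c (fun d => c ≤ |d.1 + d.2|) (fun d => 4 * c ≤ |d.1| ∨ 4 * c ≤ |d.2|)
    (fun x => x.2) (0, 1) (fun _ _ => rfl) (hM _ _ (Or.inl ⟨rfl, rfl⟩))
    (fun d h => by simpa only [Prod.fst_neg, Prod.snd_neg, ← neg_add, abs_neg] using h)
    (fun d h => by simpa only [Prod.fst_neg, Prod.snd_neg, abs_neg] using h)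
    (fun d h => ⟨d.1.natAbs + (3 * c).natAbs, fun m hm => by
      simp only [Prod.fst_add, Prod.snd_add, Prod.smul_mk, smul_eq_mul, Int.abs_eq_natAbs]
      omega⟩)
    (fun p h i j hij hb => ?_) hC p hp
  have h1 := h i j hij
  simp only [Prod.fst_sub, Prod.snd_sub, Int.abs_eq_natAbs] at h1 hb
  rcases le_total (p i).2 (p j).2 with h2 | h2
  · obtain ⟨S, a, b, d⟩ := Comb_cut2 hc (fun k => (p k).2) (i := i) (j := j) (by omega)
    exact ⟨S, a, by tauto⟩
  · obtain ⟨S, a, b, d⟩ := Comb_cut2 hc (fun k => (p k).2) (i := j) (j := i) (by omega)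
    exact ⟨S, a, by tauto⟩

end Vale.Agent.P163
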