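import Vale.Agent.P163.Link
import Vale.Agent.P163.Comb

open MvPolynomial Filter Topology

namespace Vale.Agent.P163

variable {β : ℝ} {E : Alg →ₗ[ℝ] ℝ}

theorem Clus_SF {φ : ℕ → Site →₀ ℝ} (hφ : SF fun l => φ l) (s : ℕ → Site) :
    SF fun l => sh (s l) (φ l) := by
  obtain ⟨K, hK, h⟩ := hφ
  refine ⟨K, hK, h.mono fun l ⟨⟨c, hc⟩, h1, h2, h3⟩ => ⟨⟨c + s l, fun x hx => ?_⟩, fun x => ?_,
    fun μ x => ?_, fun μ ν x => ?_⟩⟩
  · simp only [sh_apply] at hx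
    have := hc _ hx
    simp only [Prod.fst_sub, Prod.snd_sub, Prod.fst_add, Prod.snd_add, Int.cast_sub,
      Int.cast_add, sub_sub, add_comm ((s l).1 : ℝ), add_comm ((s l).2 : ℝ)] at this ⊢
    exact this
  · simp only [sh_apply]; exact h1 _
  · simp only [sh_apply, add_sub_right_comm _ _ (s l)]
    exact h2 _ _
  · simp only [sh_apply, add_sub_right_comm _ _ (s l)]
    exact h3 _ _ _

theorem Clus_h1f {φ : ℕ → Site →₀ ℝ} (hφ : SF fun l => φ l) :
    ∃ B : ℝ, ∀ᶠ l : ℕ in atTop, h1f (φ l) ≤ B := by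
  obtain ⟨K, hK, h⟩ := hφ
  refine ⟨∑ _μ : Fin 2, 49 * K ^ 4, ?_⟩
  filter_upwards [h, eventually_ge_atTop 1] with l ⟨⟨c, hc⟩, _, h2, _⟩ hl
  have hl' : (1 : ℝ) ≤ l := by exact_mod_cast hl
  have hKl : 1 ≤ K * l := one_le_mul_of_one_le_of_one_le hK hl'
  have hc' : ∀ x, φ l x ≠ 0 → |x.1 - c.1| ≤ ⌈K * l⌉₊ ∧ |x.2 - c.2| ≤ ⌈K * l⌉₊ := fun x hx => by
    have := hc x hx
    have h0 := Nat.le_ceil (K * l)
    exact ⟨by exact_mod_cast this.1.trans h0, by exact_mod_cast this.2.trans h0⟩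
  refine Finset.sum_le_sum fun μ _ => ?_
  rw [← nsq_sh (-c)]
  refine (nsq_le_card _ (bx (⌈K * l⌉₊ + 1)) (K / l) (fun x hx => ?_) fun x => ?_).trans ?_
  · rw [sh_apply, grad_apply] at hx
    rw [mem_bx]
    have he : 0 ≤ (ee μ).1 ∧ (ee μ).1 ≤ 1 ∧ 0 ≤ (ee μ).2 ∧ (ee μ).2 ≤ 1 := by
      fin_cases μ <;> simp [ee]
    by_cases h0 : φ l (x - -c) = 0
    · rw [h0, sub_zero] at hx
      have := hc' _ hx
      simp only [Prod.fst_sub, Prod.snd_sub, Prod.fst_add, Prod.snd_add, Prod.fst_neg,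
        Prod.snd_neg, abs_le] at this ⊢
      push_cast
      omega
    · have := hc' _ h0
      simp only [Prod.fst_sub, Prod.snd_sub, Prod.fst_neg, Prod.snd_neg, abs_le] at this ⊢
      push_cast
      omega
  · rw [sh_apply, grad_apply]; exact h2 _ _
  · rw [card_bx]
    push_cast
    have h0 := (Nat.ceil_lt_add_one (show 0 ≤ K * l by linarith)).le
    have h1 : 2 * ((⌈K * l⌉₊ : ℝ) + 1) + 1 ≤ 7 * (K * l) := by linarith
    have h3 := pow_le_pow_left₀ (by positivity) h1 2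
    refine (mul_le_mul_of_nonneg_right h3 (sq_nonneg _)).trans (le_of_eq ?_)
    field_simp
    norm_num

theorem Clus_prod (h : State β E) {F : Fin 4 → Alg} {K : ℝ} (hK : 1 ≤ K) (hF : ∀ a, N8 E (F a) K)
    {S : Finset (Fin 4)} {a : Fin 4} (ha : a ∉ S) :
    E ((∏ i ∈ S, F i) * ∏ i ∈ S, F i) ≤ (K * K * K) ^ 2 := by
  have h1 : ∀ i, N8 E (if i ∈ S then F i else 1) K := fun i => by
    split_ifs
    · exact hF i
    · exact h.n8_one.mono hK
  rw [← Finset.prod_ite_mem_eq, Fin.prod_univ_succAbove _ a, if_neg ha, one_mul,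
    Fin.prod_univ_three]
  exact h.n8_sq3 (h1 _) (h1 _) (h1 _)

theorem Clus_lam {lam : Site → ℤ} {e : Site}
    (hd : (lam = (fun x => x.2) ∧ e = (0, 1)) ∨ (lam = (fun x => x.1 + x.2) ∧ e = (1, 1)) ∨
      (lam = (fun x => x.1 - x.2) ∧ e = (1, -1))) {H : ℤ} {q x : Site}
    (hx : x ∈ bl (H • q) (4 * H)) : H * lam q - 8 * H ≤ lam x ∧ lam x ≤ H * lam q + 8 * H := by
  obtain ⟨h1, h2⟩ := hx
  simp only [Prod.smul_fst, Prod.smul_snd, smul_eq_mul, abs_le] at h1 h2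
  rcases hd with ⟨rfl, -⟩ | ⟨rfl, -⟩ | ⟨rfl, -⟩ <;> simp only [mul_add, mul_sub] <;> omega

theorem Clus_tr {P : Alg} {H R : ℤ} {p : Site} (hP : P ∈ loc (bl (H • p) R)) (q : Site) :
    tr (H • (q - p)) P ∈ loc (bl (H • q) R) := by
  refine act_mem_loc hP _ fun x hx => ?_
  obtain ⟨h1, h2⟩ := hx
  refine ⟨?_, ?_⟩
  · simp only [Prod.fst_add, Prod.smul_fst, Prod.fst_sub, smul_eq_mul, abs_le, mul_sub] at h1 ⊢
    omega
  · simp only [Prod.snd_add, Prod.smul_snd, Prod.snd_sub, smul_eq_mul, abs_le, mul_sub] at h2 ⊢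
    omega

theorem Clus_main (h : State β E) (hh : ℕ → ℕ) (K : ℝ) (hK : 1 ≤ K) (Y : Fin 4 → ℕ → Alg)
    (p : Fin 4 → Site)
    (hs : ∀ᶠ l : ℕ in atTop, ∀ a,
      Y a l ∈ loc (bl ((2 * (hh l : ℤ)) • p a) (4 * (2 * (hh l : ℤ)))) ∧ N8 E (Y a l) K)
    (lam : Site → ℤ) (e : Site)
    (hd : (lam = (fun x => x.2) ∧ e = (0, 1)) ∨ (lam = (fun x => x.1 + x.2) ∧ e = (1, 1)) ∨
      (lam = (fun x => x.1 - x.2) ∧ e = (1, -1))) (q : Fin 4 → Site) (S : Finset (Fin 4))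
    (hS : ∀ i ∉ S, ∀ j ∈ S, lam (q i) + 20 ≤ lam (q j)) (m0 : ℕ)
    (hm : ∀ m : ℕ, m0 ≤ m → Tendsto (fun l => E (∏ a, tr ((2 * (hh l : ℤ)) •
      ((if a ∈ S then q a + (m : ℤ) • e else q a) - p a)) (Y a l))) atTop (𝓝 0)) :
    Tendsto (fun l => E (∏ a, tr ((2 * (hh l : ℤ)) • (q a - p a)) (Y a l))) atTop (𝓝 0) := by
  set T : Fin 4 → ℕ → Alg := fun a l => tr ((2 * (hh l : ℤ)) • (q a - p a)) (Y a l) with hT
  have e1 : ∀ (m : ℕ) l, ∏ a, tr ((2 * (hh l : ℤ)) •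
      ((if a ∈ S then q a + (m : ℤ) • e else q a) - p a)) (Y a l) =
      (∏ a ∈ Sᶜ, T a l) * tr ((2 * (hh l : ℤ) * m) • e) (∏ a ∈ S, T a l) := by
    intro m l
    rw [← Finset.prod_compl_mul_prod S, map_prod]
    congr 1
    · exact Finset.prod_congr rfl fun a ha => by rw [if_neg (Finset.mem_compl.1 ha)]
    · refine Finset.prod_congr rfl fun a ha => ?_
      rw [if_pos ha, hT, tr_tr, add_sub_right_comm, smul_add, mul_smul (2 * (hh l : ℤ))]
  simp only [e1] at hm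
  simp only [← Finset.prod_compl_mul_prod S]
  rcases S.eq_empty_or_nonempty with rfl | ⟨j, hj⟩
  · simpa only [Finset.prod_empty, map_one] using hm m0 le_rfl
  rcases Sᶜ.eq_empty_or_nonempty with h0 | hne
  · simpa only [h0, Finset.prod_empty, one_mul, h.trans] using hm m0 le_rfl
  obtain ⟨i, hi, hmax⟩ := Finset.exists_max_image Sᶜ (fun a => lam (q a)) hne
  refine h.move lam e hd _ _ hh (fun l => 2 * (hh l : ℤ) * lam (q i) + 8 * (2 * (hh l : ℤ)))
    ((K * K * K) ^ 2) (hs.mono fun l hl => ⟨?_, ?_, ?_, ?_⟩) m0 hm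
  · refine prod_mem fun a ha => loc_mono (fun x hx => ?_) (Clus_tr (hl a).1 (q a))
    have h1 := (Clus_lam hd hx).2
    have h2 := mul_le_mul_of_nonneg_left (hmax a ha) (show 0 ≤ 2 * (hh l : ℤ) by positivity)
    simp only [Set.mem_ofPred_eq]
    linarith
  · refine prod_mem fun a ha => loc_mono (fun x hx => ?_) (Clus_tr (hl a).1 (q a))
    have h1 := (Clus_lam hd hx).1
    have h2 := mul_le_mul_of_nonneg_left (hS i (Finset.mem_compl.1 hi) a ha)
      (show 0 ≤ 2 * (hh l : ℤ) by positivity)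
    have h3 : 0 ≤ (hh l : ℤ) := by positivity
    simp only [Set.mem_ofPred_eq]
    linarith
  · exact Clus_prod h hK (fun a => h.n8_tr (hl a).2 _) (a := j) (by simpa using hj)
  · exact Clus_prod h hK (fun a => h.n8_tr (hl a).2 _) (Finset.mem_compl.1 hi)

/-- Let `H = 2 * hh l`, `Y 0 = lc rot φ`, `Y k.succ = X k`, all in `loc (bl (H • p i) (4 H))`
eventually, all with bounded eighth moments (`JB.n8_rot` and `SF` bound `h1f`).  Apply `comb` with
`c = 20` to `Null q := Tendsto (fun l => E (∏ i, tr (H • (q i - p i)) (Y i l))) atTop (𝓝 0)`.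
`hZ` is `State.zero` (`tr_lc`; translates of an `SF` family are `SF`), `hM` is `State.move` with
`A = ∏ i ∉ S`, `B = ∏ i ∈ S` (second moments of products of at most three factors by `n8_sq3`
with factors `1`; the cases `S = ∅`, `S = univ` are trivial by translation invariance). -/
theorem State.cluster (h : State β E) {i j : Fin 3} (hJ : JB E i j) (hh : ℕ → ℕ) (δ K : ℝ)
    (hδ : 0 < δ) (φ : ℕ → Site →₀ ℝ) (hφ : SF fun l => φ l) (X : Fin 3 → ℕ → Alg)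
    (p : Fin 4 → Site)
    (hp : ∀ a b, a ≠ b → 80 ≤ |(p a).1 - (p b).1| ∨ 80 ≤ |(p a).2 - (p b).2|)
    (hs : ∀ᶠ l : ℕ in atTop, δ * l ≤ hh l ∧
      (∀ x, φ l x ≠ 0 → x ∈ bl ((2 * (hh l : ℤ)) • p 0) (3 * (2 * (hh l : ℤ)))) ∧
      ∀ k : Fin 3, X k l ∈ loc (bl ((2 * (hh l : ℤ)) • p k.succ) (4 * (2 * (hh l : ℤ)))) ∧
        N8 E (X k l) K) :
    Tendsto (fun l => E (lc (rot i j) (φ l) * (X 0 l * X 1 l * X 2 l))) atTop (𝓝 0) := by
  obtain ⟨c, hc0, hc⟩ := hJ.n8_rot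
  obtain ⟨B, hB⟩ := Clus_h1f hφ
  set Y : Fin 4 → ℕ → Alg := fun a l =>
    Fin.cons (α := fun _ => Alg) (lc (rot i j) (φ l)) (fun k => X k l) a with hY
  set K' := max 1 (max K (c * Real.sqrt B))
  have hY' : ∀ᶠ l : ℕ in atTop, ∀ a,
      Y a l ∈ loc (bl ((2 * (hh l : ℤ)) • p a) (4 * (2 * (hh l : ℤ)))) ∧ N8 E (Y a l) K' := by
    filter_upwards [hs, hB, eventually_ge_atTop 1] with l hl hb h1 a
    refine Fin.cases ⟨?_, ?_⟩ (fun k => ⟨(hl.2.2 k).1,
      (hl.2.2 k).2.mono ((le_max_left _ _).trans (le_max_right _ _))⟩) a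
    · refine lc_mem_loc _ _ fun x hx => loc_mono (fun y hy => ?_) (rot_mem_loc i j x)
      have h2 : (0 : ℝ) < hh l :=
        lt_of_lt_of_le (mul_pos hδ (by exact_mod_cast h1)) hl.1
      have h3 : 0 < hh l := by exact_mod_cast h2
      obtain ⟨h4, h5⟩ := hl.2.1 x hx
      obtain ⟨a1, a2, a3, a4⟩ := hy
      refine ⟨?_, ?_⟩
      · rw [_root_.abs_le] at h4 ⊢
        omega
      · rw [_root_.abs_le] at h5 ⊢
        omega
    · exact (hc (φ l)).mono ((mul_le_mul_of_nonneg_left (Real.sqrt_le_sqrt hb) hc0).trans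
        ((le_max_right _ _).trans (le_max_right _ _)))
  have key := comb (fun q => Tendsto (fun l => E (∏ a, tr ((2 * (hh l : ℤ)) • (q a - p a))
    (Y a l))) atTop (𝓝 0)) 20 (by norm_num) (fun q hq => ?_)
    (fun lam e hd q S hS ⟨m0, hm⟩ => Clus_main h hh K' (le_max_left _ _) Y p hY' lam e hd q S hS
      m0 hm) p (fun a b hab => by simpa only [show (4 : ℤ) * 20 = 80 by norm_num] using hp a b hab)
  · simpa only [sub_self, smul_zero, tr_zero, Fin.prod_univ_succ (n := 3), hY, Fin.cons_zero,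
      Fin.cons_succ, Fin.prod_univ_three] using key
  · simp only [Fin.prod_univ_succ (n := 3), hY, Fin.cons_zero, Fin.cons_succ,
      tr_lc _ fun s x => tr_rot s i j x]
    refine h.zero hJ _ (Clus_SF hφ _) _
      (fun l => 2 * (hh l : ℤ) * (q 0).1 - 16 * (2 * (hh l : ℤ))) δ ((K' * K' * K') ^ 2) hδ ?_
    filter_upwards [hs, hY'] with l hl hl'
    refine ⟨fun x hx => ?_, ?_, ?_⟩
    · rw [sh_apply] at hx
      have h1 := (hl.2.1 _ hx).1
      simp only [Prod.fst_sub, Prod.smul_fst, smul_eq_mul, _root_.abs_le, mul_sub] at h1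
      have h2 : 2 * (hh l : ℤ) * (q 0).1 - 16 * (2 * (hh l : ℤ)) + hh l ≤ x.1 := by omega
      have h3 : ((2 * (hh l : ℤ) * (q 0).1 - 16 * (2 * (hh l : ℤ)) : ℤ) : ℝ) + hh l ≤ x.1 := by
        exact_mod_cast h2
      linarith [hl.1]
    · refine prod_mem fun k _ => loc_mono (fun x hx => ?_) (Clus_tr (hl.2.2 k).1 (q k.succ))
      have h1 := hx.1
      have h2 := mul_le_mul_of_nonneg_left (hq k.succ (Fin.succ_ne_zero k))
        (show 0 ≤ 2 * (hh l : ℤ) by positivity)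
      simp only [Prod.smul_fst, smul_eq_mul, _root_.abs_le] at h1
      simp only [Set.mem_ofPred_eq]
      linarith [h1.2]
    · rw [Fin.prod_univ_three]
      exact h.n8_sq3 (h.n8_tr (hl' (Fin.succ 0)).2 _) (h.n8_tr (hl' (Fin.succ 1)).2 _)
        (h.n8_tr (hl' (Fin.succ 2)).2 _)

end Vale.Agent.P163
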