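import Vale.Agent.P163.Defs

open Filter Topology

namespace Vale.Agent.P163

/-! Norms of the weighted Gaussians.  With `H k u = u ^ k * exp (-2 u ^ 2)` one has
`hk k (s^2) x = s⁻¹ ^ k * H k (s * (x - 1/4))`.  `H k` and its first two derivatives are bounded
by `c / (1 + u ^ 2)`, and this bound is stable under shifts of `u` by at most one, so the mean
value theorem bounds the first difference by `s⁻¹ ^ k * s * c' / (1 + u ^ 2)` and the second by
`s⁻¹ ^ k * s ^ 2 * c' / (1 + u ^ 2)`; finally `∑ x, 1 / (1 + s^2 (x - 1/4)^2) ≤ c'' / s`. -/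

/-- decay bound -/
def GauA_Bd (f : ℝ → ℝ) (c : ℝ) : Prop := ∀ u, |f u| ≤ c / (1 + u ^ 2)

/-- polynomial times Gaussian -/
noncomputable def GauA_G (p : Polynomial ℝ) (u : ℝ) : ℝ := p.eval u * Real.exp (-2 * u ^ 2)

theorem GauA_deriv (p : Polynomial ℝ) (u : ℝ) :
    HasDerivAt (GauA_G p) (GauA_G (p.derivative - 4 * Polynomial.X * p) u) u := by
  have h1 : HasDerivAt (fun u : ℝ => -2 * u ^ 2) (-2 * (2 * u)) u := by
    simpa using (hasDerivAt_pow 2 u).const_mul (-2)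
  have h2 := (p.hasDerivAt u).mul h1.exp
  refine HasDerivAt.congr_deriv h2 ?_
  simp only [GauA_G, Polynomial.eval_sub, Polynomial.eval_mul, Polynomial.eval_X,
    Polynomial.eval_ofNat]
  ring

theorem GauA_bd (p : Polynomial ℝ) : ∃ c, 0 ≤ c ∧ GauA_Bd (GauA_G p) c := by
  induction p using Polynomial.induction_on' with
  | add p q hp hq =>
    obtain ⟨c, hc, h1⟩ := hp
    obtain ⟨d, hd, h2⟩ := hq
    refine ⟨c + d, by positivity, fun u => ?_⟩
    have e : GauA_G (p + q) u = GauA_G p u + GauA_G q u := by simp [GauA_G, add_mul]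
    rw [e, add_div]
    exact (abs_add_le _ _).trans (add_le_add (h1 u) (h2 u))
  | monomial n a =>
    refine ⟨|a| * (1 + n.factorial), by positivity, fun u => ?_⟩
    have h1 : 1 + u ^ 2 ≤ Real.exp (u ^ 2) := by linarith [Real.add_one_le_exp (u ^ 2)]
    have h2 : (u ^ 2) ^ n ≤ n.factorial * Real.exp (u ^ 2) := by
      have := Real.pow_div_factorial_le_exp (u ^ 2) (sq_nonneg u) n
      rwa [div_le_iff₀ (by positivity), mul_comm] at this
    have h3 : |u| ^ n ≤ 1 + (u ^ 2) ^ n := by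
      rw [← sq_abs u, ← pow_mul, mul_comm, pow_mul]
      nlinarith [sq_nonneg (|u| ^ n - 1), pow_nonneg (abs_nonneg u) n]
    have h4 : |u| ^ n ≤ (1 + n.factorial) * Real.exp (u ^ 2) := by nlinarith [sq_nonneg u]
    have h5 : Real.exp (u ^ 2) * Real.exp (u ^ 2) * Real.exp (-2 * u ^ 2) = 1 := by
      rw [← Real.exp_add, ← Real.exp_add, ← Real.exp_zero]
      congr 1
      ring
    rw [GauA_G, Polynomial.eval_monomial, abs_mul, abs_mul, abs_pow, abs_of_pos (Real.exp_pos _),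
      le_div_iff₀ (by positivity)]
    calc |a| * |u| ^ n * Real.exp (-2 * u ^ 2) * (1 + u ^ 2)
        ≤ |a| * ((1 + n.factorial) * Real.exp (u ^ 2)) * Real.exp (-2 * u ^ 2) *
          Real.exp (u ^ 2) := by gcongr
      _ = |a| * (1 + n.factorial) *
          (Real.exp (u ^ 2) * Real.exp (u ^ 2) * Real.exp (-2 * u ^ 2)) := by ring
      _ = _ := by rw [h5, mul_one]

theorem GauA_shift {c u v : ℝ} (hc : 0 ≤ c) (h : |u - v| ≤ 1) :
    c / (1 + v ^ 2) ≤ 3 * c / (1 + u ^ 2) := by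
  rw [div_le_div_iff₀ (by positivity) (by positivity)]
  have h1 : (u - v) ^ 2 ≤ 1 := (sq_le_one_iff_abs_le_one _).2 h
  have h2 : 1 + u ^ 2 ≤ 3 * (1 + v ^ 2) := by nlinarith [sq_nonneg (u - 2 * v), sq_nonneg v]
  nlinarith

theorem GauA_mvt {f f' : ℝ → ℝ} (hf : ∀ u, HasDerivAt f (f' u) u) {s : ℝ} (hs : 0 < s)
    (hs1 : s ≤ 1) (u : ℝ) : ∃ v, |u - v| ≤ 1 ∧ f (u + s) - f u = s * f' v := by
  obtain ⟨v, hv, h⟩ := exists_hasDerivAt_eq_slope f f' (show u < u + s by linarith)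
    (fun x _ => (hf x).continuousAt.continuousWithinAt) fun x _ => hf x
  refine ⟨v, abs_le.2 ⟨by linarith [hv.2], by linarith [hv.1]⟩, ?_⟩
  rw [h, add_sub_cancel_left]
  field_simp

theorem GauA_diff {f f' : ℝ → ℝ} (hf : ∀ u, HasDerivAt f (f' u) u) {c s : ℝ} (hc : 0 ≤ c)
    (hb : GauA_Bd f' c) (hs : 0 < s) (hs1 : s ≤ 1) :
    GauA_Bd (fun u => f (u + s) - f u) (s * (3 * c)) := fun u => by
  obtain ⟨v, hv, h⟩ := GauA_mvt hf hs hs1 u
  simp only
  rw [h, abs_mul, abs_of_pos hs, mul_div_assoc]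
  exact mul_le_mul_of_nonneg_left ((hb v).trans (GauA_shift hc hv)) hs.le

theorem GauA_fin {s : ℝ} (hs : 0 < s) (hs1 : s ≤ 1) (T : Finset ℤ) :
    ∑ x ∈ T, s / (1 + (s * ((x : ℝ) - 1 / 4)) ^ 2) ≤ 12 := by
  obtain ⟨N, hN⟩ : ∃ N : ℕ, ∀ x ∈ T, |x| < N := by
    obtain ⟨B, hB⟩ := (T.image fun x => |x|).bddAbove
    refine ⟨B.toNat + 1, fun x hx => ?_⟩
    have := hB (Finset.mem_coe.2 (Finset.mem_image_of_mem _ hx))
    have h2 := Int.self_le_toNat B
    push_cast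
    omega
  have hT : T ⊆ (Finset.range (2 * N)).image fun i : ℕ => (i : ℤ) - N := fun x hx => by
    have h := abs_lt.1 (hN x hx)
    refine Finset.mem_image.2 ⟨(x + N).toNat, Finset.mem_range.2 (by omega), by omega⟩
  refine (Finset.sum_le_sum_of_subset_of_nonneg hT fun _ _ _ => by positivity).trans ?_
  rw [Finset.sum_image fun i _ j _ h => by simpa using h]
  let A : ℕ → ℝ := fun i => 3 * Real.arctan (s * ((i : ℝ) - N - 1 / 4))
  have h1 : ∀ i ∈ Finset.range (2 * N),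
      s / (1 + (s * ((((i : ℤ) - N : ℤ) : ℝ) - 1 / 4)) ^ 2) ≤ A (i + 1) - A i := by
    intro i _
    obtain ⟨v, hv, h⟩ := GauA_mvt Real.hasDerivAt_arctan hs hs1 (s * ((i : ℝ) - N - 1 / 4))
    have e : s * (((i + 1 : ℕ) : ℝ) - N - 1 / 4) = s * ((i : ℝ) - N - 1 / 4) + s := by
      push_cast
      ring
    rw [abs_sub_comm] at hv
    have h2 := GauA_shift hs.le hv
    simp only [A]
    rw [e, ← mul_sub, h]
    push_cast
    refine h2.trans (le_of_eq ?_)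
    ring
  refine (Finset.sum_le_sum h1).trans ?_
  rw [Finset.sum_range_sub]
  simp only [A]
  linarith [Real.arctan_lt_pi_div_two (s * (((2 * N : ℕ) : ℝ) - N - 1 / 4)),
    Real.neg_pi_div_two_lt_arctan (s * (((0 : ℕ) : ℝ) - N - 1 / 4)), Real.pi_le_four]

theorem GauA_sum {f : ℝ → ℝ} {c s : ℝ} (hb : GauA_Bd f c) (hs : 0 < s) (hs1 : s ≤ 1) :
    ∑' x : ℤ, f (s * ((x : ℝ) - 1 / 4)) ^ 2 * s ≤ 12 * c ^ 2 := by
  refine Real.tsum_le_of_sum_le (fun x => by positivity) fun T => ?_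
  have h1 : ∀ u, f u ^ 2 * s ≤ s / (1 + u ^ 2) * c ^ 2 := fun u => by
    have h2 : f u ^ 2 ≤ (c / (1 + u ^ 2)) ^ 2 := by
      rw [← sq_abs]
      gcongr
      exact hb u
    have h3 : (c / (1 + u ^ 2)) ^ 2 ≤ c ^ 2 / (1 + u ^ 2) := by
      rw [div_pow]
      gcongr
      nlinarith [sq_nonneg u]
    calc f u ^ 2 * s ≤ c ^ 2 / (1 + u ^ 2) * s := by gcongr; exact h2.trans h3
      _ = _ := by ring
  refine (Finset.sum_le_sum fun x _ => h1 _).trans ?_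
  rw [← Finset.sum_mul]
  gcongr
  exact GauA_fin hs hs1 T

theorem GauA_hk (k : ℕ) (s : ℝ) (x : ℤ) :
    hk k (s ^ 2) x * s ^ k = GauA_G (Polynomial.X ^ k) (s * ((x : ℝ) - 1 / 4)) := by
  simp only [hk, GauA_G, Polynomial.eval_pow, Polynomial.eval_X, mul_pow]
  rw [mul_assoc (-2 : ℝ)]
  ring

theorem summable_hk (k : ℕ) {a : ℝ} (ha : 0 < a) : Summable (hk k a) := by
  obtain ⟨c, hc, hb⟩ := GauA_bd (Polynomial.X ^ k)
  have hs : 0 < Real.sqrt a := Real.sqrt_pos.2 ha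
  set s := Real.sqrt a with hs0
  have e : a = s ^ 2 := (Real.sq_sqrt ha.le).symm
  have ht : 0 < min s 1 := lt_min hs one_pos
  have h1 : Summable fun x : ℤ => min s 1 / (1 + (min s 1 * ((x : ℝ) - 1 / 4)) ^ 2) :=
    summable_of_sum_le (fun x => by positivity) (GauA_fin ht (min_le_right _ _))
  refine Summable.of_norm_bounded (h1.mul_left (c / (min s 1 * s ^ k))) fun x => ?_
  have h2 := hb (s * ((x : ℝ) - 1 / 4))
  rw [← GauA_hk, ← e, abs_mul, abs_of_pos (pow_pos hs k), ← le_div_iff₀ (pow_pos hs k)] at h2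
  refine h2.trans ?_
  have h3 : (min s 1 * ((x : ℝ) - 1 / 4)) ^ 2 ≤ (s * ((x : ℝ) - 1 / 4)) ^ 2 := by
    rw [mul_pow, mul_pow]
    gcongr
    exact min_le_left _ _
  calc c / (1 + (s * ((x : ℝ) - 1 / 4)) ^ 2) / s ^ k
      ≤ c / (1 + (min s 1 * ((x : ℝ) - 1 / 4)) ^ 2) / s ^ k := by gcongr
    _ = _ := by field_simp

theorem GauA_one (k : ℕ) : ∃ C : ℝ, 0 ≤ C ∧ ∀ s : ℝ, 0 < s → s ≤ 1 →
    (∑' x, hk k (s ^ 2) x ^ 2) * s ^ (2 * k + 1) ≤ C ∧
    (∑' x, (hk k (s ^ 2) (x + 1) - hk k (s ^ 2) x) ^ 2) * s ^ (2 * k + 1) ≤ C * s ^ 2 ∧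
    (∑' x, (hk k (s ^ 2) (x + 1) - 2 * hk k (s ^ 2) x + hk k (s ^ 2) (x - 1)) ^ 2) *
      s ^ (2 * k + 1) ≤ C * s ^ 4 := by
  set p : Polynomial ℝ := Polynomial.X ^ k with hp
  set q : Polynomial ℝ := p.derivative - 4 * Polynomial.X * p with hq
  obtain ⟨c0, hc0, b0⟩ := GauA_bd p
  obtain ⟨c1, hc1, b1⟩ := GauA_bd q
  obtain ⟨c2, hc2, b2⟩ := GauA_bd (q.derivative - 4 * Polynomial.X * q)
  refine ⟨12 * (c0 ^ 2 + (3 * c1) ^ 2 + (27 * c2) ^ 2), by positivity, fun s hs hs1 => ?_⟩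
  have e1 : ∀ x : ℤ, s * (((x + 1 : ℤ) : ℝ) - 1 / 4) = s * ((x : ℝ) - 1 / 4) + s := fun x => by
    push_cast
    ring
  have e2 : ∀ x : ℤ, s * (((x - 1 : ℤ) : ℝ) - 1 / 4) = s * ((x : ℝ) - 1 / 4) - s := fun x => by
    push_cast
    ring
  have d1 := GauA_diff (GauA_deriv p) hc1 b1 hs hs1
  have d2 := GauA_diff (GauA_deriv q) hc2 b2 hs hs1
  have d3 := GauA_diff (f := fun u => GauA_G p (u + s) - GauA_G p u)
    (fun u => ((GauA_deriv p (u + s)).comp_add_const u s).sub (GauA_deriv p u))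
    (by positivity) d2 hs hs1
  have d4 : GauA_Bd (fun u => GauA_G p (u + s) - 2 * GauA_G p u + GauA_G p (u - s))
      (s ^ 2 * (27 * c2)) := fun u => by
    have h1 := (d3 (u - s)).trans (GauA_shift (u := u) (by positivity)
      (by rw [sub_sub_cancel, abs_of_pos hs]; exact hs1))
    simp only [sub_add_cancel] at h1
    refine le_trans (le_of_eq ?_) (h1.trans (le_of_eq ?_))
    · congr 1
      ring
    · ring
  refine ⟨?_, ?_, ?_⟩
  · have h := GauA_sum b0 hs hs1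
    rw [← tsum_mul_right]
    refine le_trans (le_of_eq (tsum_congr fun x => ?_)) (h.trans (by nlinarith [sq_nonneg c1]))
    rw [← GauA_hk]
    ring
  · have h := GauA_sum d1 hs hs1
    rw [← tsum_mul_right]
    refine le_trans (le_of_eq (tsum_congr fun x => ?_)) (h.trans ?_)
    · rw [← e1, ← GauA_hk, ← GauA_hk]
      ring
    · nlinarith [sq_nonneg (s * c0), sq_nonneg (s * c2)]
  · have h := GauA_sum d4 hs hs1
    rw [← tsum_mul_right]
    refine le_trans (le_of_eq (tsum_congr fun x => ?_)) (h.trans ?_)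
    · rw [← e1, ← e2, ← GauA_hk, ← GauA_hk, ← GauA_hk]
      ring
    · nlinarith [sq_nonneg (s ^ 2 * c0), sq_nonneg (s ^ 2 * c1)]

theorem hk_norms : ∃ C : ℝ, 0 < C ∧ ∀ k ≤ 4, ∀ s : ℝ, 0 < s → s ≤ 1 →
    (∑' x, hk k (s ^ 2) x ^ 2) * s ^ (2 * k + 1) ≤ C ∧
    (∑' x, (hk k (s ^ 2) (x + 1) - hk k (s ^ 2) x) ^ 2) * s ^ (2 * k + 1) ≤ C * s ^ 2 ∧
    (∑' x, (hk k (s ^ 2) (x + 1) - 2 * hk k (s ^ 2) x + hk k (s ^ 2) (x - 1)) ^ 2) *
      s ^ (2 * k + 1) ≤ C * s ^ 4 := by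
  choose C hC h using GauA_one
  have h0 : 0 ≤ ∑ k ∈ Finset.range 5, C k := Finset.sum_nonneg fun k _ => hC k
  refine ⟨1 + ∑ k ∈ Finset.range 5, C k, by positivity, fun k hk s hs hs1 => ?_⟩
  have h1 : C k ≤ 1 + ∑ k ∈ Finset.range 5, C k := by
    have := Finset.single_le_sum (fun k _ => hC k) (Finset.mem_range.2 (by omega : k < 5))
    linarith
  obtain ⟨a, b, c⟩ := h k s hs hs1
  exact ⟨a.trans h1, b.trans (by gcongr), c.trans (by gcongr)⟩

end Vale.Agent.P163
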