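import Vale.Agent.P163.Defs

open Filter Topology

namespace Vale.Agent.P163

/-! Kernels: passage to summable test functions and the reflection positive form. -/

variable {N : Site → ℝ} {C : ℝ}

theorem KExt_prod {φ ψ : Site → ℝ} (hφ : Summable φ) (hψ : Summable ψ) :
    Summable fun p : Site × Site => |φ p.1| * |ψ p.2| :=
  summable_mul_of_summable_norm (f := fun x => |φ x|) (g := fun x => |ψ x|) hφ.abs.norm
    hψ.abs.norm

theorem KExt_le (hb : ∀ d, |N d| ≤ C) {a b a' b' : ℝ} (ha : |a| ≤ |a'|) (hb' : |b| ≤ |b'|)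
    (d : Site) : ‖a * b * N d‖ ≤ |a'| * |b'| * C := by
  rw [Real.norm_eq_abs, abs_mul, abs_mul]
  exact mul_le_mul (mul_le_mul ha hb' (abs_nonneg _) (abs_nonneg _)) (hb d) (abs_nonneg _)
    (by positivity)

theorem dd_summable (hb : ∀ d, |N d| ≤ C) {φ ψ : Site → ℝ} (hφ : Summable φ) (hψ : Summable ψ) :
    Summable fun p : Site × Site => φ p.1 * ψ p.2 * N (p.1 - p.2) :=
  Summable.of_norm_bounded ((KExt_prod hφ hψ).mul_right C) fun _ => KExt_le hb le_rfl le_rfl _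

theorem dd_add_left (hb : ∀ d, |N d| ≤ C) {φ φ' ψ : Site → ℝ} (hφ : Summable φ)
    (hφ' : Summable φ') (hψ : Summable ψ) : dd N (φ + φ') ψ = dd N φ ψ + dd N φ' ψ := by
  unfold dd
  rw [← (dd_summable hb hφ hψ).tsum_add (dd_summable hb hφ' hψ)]
  exact tsum_congr fun p => by rw [Pi.add_apply]; ring

theorem dd_add_right (hb : ∀ d, |N d| ≤ C) {φ ψ ψ' : Site → ℝ} (hφ : Summable φ)
    (hψ : Summable ψ) (hψ' : Summable ψ') : dd N φ (ψ + ψ') = dd N φ ψ + dd N φ ψ' := by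
  unfold dd
  rw [← (dd_summable hb hφ hψ).tsum_add (dd_summable hb hφ hψ')]
  exact tsum_congr fun p => by rw [Pi.add_apply]; ring

theorem dd_smul_left (c : ℝ) (φ ψ : Site → ℝ) : dd N (c • φ) ψ = c * dd N φ ψ := by
  unfold dd
  rw [← tsum_mul_left]
  exact tsum_congr fun p => by rw [Pi.smul_apply, smul_eq_mul]; ring

theorem dd_smul_right (c : ℝ) (φ ψ : Site → ℝ) : dd N φ (c • ψ) = c * dd N φ ψ := by
  unfold dd
  rw [← tsum_mul_left]
  exact tsum_congr fun p => by rw [Pi.smul_apply, smul_eq_mul]; ring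

/-- the shear `(d, y) ↦ (y + d, y)` -/
def KExt_shear : Site × Site ≃ Site × Site where
  toFun p := (p.2 + p.1, p.2)
  invFun p := (p.1 - p.2, p.2)
  left_inv p := by simp
  right_inv p := by simp

/-- reindex ` (x, y) ↦ (x - y, y)` -/
theorem dd_eq_tsum (hb : ∀ d, |N d| ≤ C) {φ ψ : Site → ℝ} (hφ : Summable φ) (hψ : Summable ψ) :
    dd N φ ψ = ∑' d, N d * ∑' y, φ (y + d) * ψ y := by
  unfold dd
  rw [← KExt_shear.tsum_eq]
  refine (KExt_shear.summable_iff.2 (dd_summable hb hφ hψ)).tsum_prod.trans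
    (tsum_congr fun d => ?_)
  rw [← tsum_mul_left]
  refine tsum_congr fun y => ?_
  simp only [KExt_shear, Function.comp, Equiv.coe_fn_mk, add_sub_cancel_left]
  ring

theorem abs_dd_le (hb : ∀ d, |N d| ≤ C) {φ ψ : Site → ℝ} (hφ : Summable φ) (hψ : Summable ψ) :
    |dd N φ ψ| ≤ C * (∑' x, |φ x|) * ∑' x, |ψ x| := by
  have h := tsum_of_norm_bounded ((KExt_prod hφ hψ).mul_right C).hasSum
    (f := fun p : Site × Site => φ p.1 * ψ p.2 * N (p.1 - p.2))
    fun _ => KExt_le hb le_rfl le_rfl _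
  rw [tsum_mul_right, ← hφ.abs.tsum_mul_tsum hψ.abs (KExt_prod hφ hψ)] at h
  exact h.trans_eq (by ring)

theorem KExt_sq {φ : Site → ℝ} (hφ : Summable φ) : Summable fun x => φ x ^ 2 :=
  Summable.of_nonneg_of_le (fun _ => sq_nonneg _) (fun x => by
    rw [← sq_abs, sq]
    exact mul_le_mul_of_nonneg_right (hφ.abs.le_tsum x fun _ _ => abs_nonneg _) (abs_nonneg _))
    (hφ.abs.mul_left (∑' x, |φ x|))

theorem KExt_shift {φ : Site → ℝ} (hφ : Summable φ) (e : Site) : Summable fun x => φ (x + e) :=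
  (Equiv.addRight e).summable_iff.2 hφ

theorem KExt_diff {φ : Site → ℝ} (hφ : Summable φ) (e : Site) :
    Summable fun x => (φ (x + e) - φ x) ^ 2 :=
  KExt_sq ((KExt_shift hφ e).sub hφ)

theorem h1_summable {φ : Site → ℝ} (hφ : Summable φ) :
    Summable fun x => (φ (x + ee 0) - φ x) ^ 2 + (φ (x + ee 1) - φ x) ^ 2 :=
  (KExt_diff hφ _).add (KExt_diff hφ _)

theorem h1_nonneg (φ : Site → ℝ) : 0 ≤ h1 φ := tsum_nonneg fun _ => by positivity

theorem KExt_rho_rho : Function.Involutive rho := fun x => by simp [rho]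

theorem KExt_sig : Function.Involutive fun x : Site => ((-2 - x.1, x.2) : Site) :=
  fun x => by simp

theorem summable_rho {φ : Site → ℝ} (hφ : Summable φ) : Summable (φ ∘ rho) :=
  (KExt_rho_rho.toPerm rho).summable_iff.2 hφ

theorem h1_rho {φ : Site → ℝ} (hφ : Summable φ) : h1 (φ ∘ rho) = h1 φ := by
  unfold h1
  rw [(KExt_diff (summable_rho hφ) _).tsum_add (KExt_diff (summable_rho hφ) _),
    (KExt_diff hφ _).tsum_add (KExt_diff hφ _),
    ← (KExt_sig.toPerm _).tsum_eq fun x => (φ (x + ee 0) - φ x) ^ 2,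
    ← (KExt_rho_rho.toPerm rho).tsum_eq fun x => (φ (x + ee 1) - φ x) ^ 2]
  congr 1
  · refine tsum_congr fun x => ?_
    have e1 : rho (x + ee 0) = (-2 - x.1, x.2) := by
      simp only [rho, ee, Matrix.cons_val_zero, Prod.fst_add, Prod.snd_add, add_zero]
      congr 1
      ring
    have e2 : ((-2 - x.1, x.2) : Site) + ee 0 = rho x := by
      simp only [rho, ee, Matrix.cons_val_zero, Prod.mk_add_mk, add_zero]
      congr 1
      ring
    simp only [Function.comp, Function.Involutive.coe_toPerm, e1, e2]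
    ring
  · refine tsum_congr fun x => ?_
    have e1 : rho (x + ee 1) = rho x + ee 1 := by simp [rho, ee]
    simp only [Function.comp, Function.Involutive.coe_toPerm, e1]

/-- truncation to a finite set -/
noncomputable def KExt_tr (φ : Site → ℝ) (s : Finset Site) : Site →₀ ℝ :=
  Finsupp.indicator s fun x _ => φ x

theorem KExt_tr_abs (φ : Site → ℝ) (s : Finset Site) (x : Site) : |KExt_tr φ s x| ≤ |φ x| := by
  by_cases h : x ∈ s
  · rw [KExt_tr, Finsupp.indicator_of_mem h]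
  · rw [KExt_tr, Finsupp.indicator_of_notMem h, abs_zero]
    exact abs_nonneg _

theorem KExt_tr_ne {φ : Site → ℝ} {s : Finset Site} {x : Site} (h : KExt_tr φ s x ≠ 0) :
    φ x ≠ 0 := fun h0 => h (abs_nonpos_iff.1 ((KExt_tr_abs φ s x).trans_eq (by rw [h0, abs_zero])))

theorem KExt_tr_lim (φ : Site → ℝ) (x : Site) :
    Tendsto (fun s => KExt_tr φ s x) atTop (𝓝 (φ x)) := by
  refine tendsto_const_nhds.congr' ?_
  filter_upwards [eventually_ge_atTop ({x} : Finset Site)] with s hs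
  rw [KExt_tr, Finsupp.indicator_of_mem (hs (Finset.mem_singleton_self x))]

theorem KExt_dd_lim (hb : ∀ d, |N d| ≤ C) {φ ψ : Site → ℝ} (hφ : Summable φ) (g : Site → Site)
    (hψ : Summable (ψ ∘ g)) : Tendsto (fun s => dd N (KExt_tr φ s) (KExt_tr ψ s ∘ g)) atTop
      (𝓝 (dd N φ (ψ ∘ g))) :=
  tendsto_tsum_of_dominated_convergence ((KExt_prod hφ hψ).mul_right C)
    (fun p => ((KExt_tr_lim φ p.1).mul (KExt_tr_lim ψ (g p.2))).mul_const _)
    (Eventually.of_forall fun s _ => KExt_le hb (KExt_tr_abs φ s _) (KExt_tr_abs ψ s _) _)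

theorem KExt_h1_lim {φ : Site → ℝ} (hφ : Summable φ) :
    Tendsto (fun s => h1 (KExt_tr φ s)) atTop (𝓝 (h1 φ)) := by
  have key : ∀ s x y, (KExt_tr φ s y - KExt_tr φ s x) ^ 2 ≤ (|φ y| + |φ x|) ^ 2 := fun s x y => by
    rw [← sq_abs]
    exact pow_le_pow_left₀ (abs_nonneg _) ((abs_sub _ _).trans
      (add_le_add (KExt_tr_abs φ s y) (KExt_tr_abs φ s x))) 2
  refine tendsto_tsum_of_dominated_convergence
    ((KExt_sq ((KExt_shift hφ (ee 0)).abs.add hφ.abs)).add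
      (KExt_sq ((KExt_shift hφ (ee 1)).abs.add hφ.abs)))
    (fun x => (((KExt_tr_lim φ _).sub (KExt_tr_lim φ x)).pow 2).add
      (((KExt_tr_lim φ _).sub (KExt_tr_lim φ x)).pow 2)) (Eventually.of_forall fun s x => ?_)
  rw [Real.norm_of_nonneg (by positivity)]
  exact add_le_add (key s x _) (key s x _)

/-- Truncate to finite sets `s ↑ univ`; `dd` and `h1` are continuous in the l1 norm
(dominated convergence `tendsto_tsum_of_dominated_convergence`). -/
theorem NH.toNS (h : NH N C) : NS N C id 0 1 := by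
  refine ⟨h.bdd, h.flip, h.swap, fun φ ψ hφ hψ => ?_, fun φ hφ hs => ?_, fun φ hφ hs => ?_⟩
  · exact le_of_tendsto_of_tendsto' (KExt_dd_lim h.bdd hφ id hψ).abs
      (((KExt_h1_lim hφ).sqrt.const_mul C).mul (KExt_h1_lim hψ).sqrt) fun s => h.h1b _ _
  · exact ge_of_tendsto' (KExt_dd_lim h.bdd hφ rho (summable_rho hφ)) fun s =>
      h.rp1 _ fun x hx => hs x (KExt_tr_ne hx)
  · exact ge_of_tendsto' (KExt_dd_lim h.bdd hφ sw ((Equiv.prodComm ℤ ℤ).summable_iff.2 hφ))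
      fun s => h.rp2 _ fun x hx => hs x (KExt_tr_ne hx)

variable {T : (Site → ℝ) → Site → ℝ} {a b : ℤ}

theorem KExt_inv : Function.Involutive fun p : Site × Site => (rho p.2, rho p.1) :=
  fun p => by simp only [KExt_rho_rho p.1, KExt_rho_rho p.2]

/-- `N (t, -y) = N (t, y)` follows from `flip` and `swap` -/
theorem NS.rp_symm (h : NS N C T a b) (φ ψ : Site → ℝ) :
    dd N φ (ψ ∘ rho) = dd N ψ (φ ∘ rho) := by
  unfold dd
  rw [← (KExt_inv.toPerm _).tsum_eq]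
  refine tsum_congr fun p => ?_
  have e : rho p.2 - rho p.1 = sw (fl (sw (p.1 - p.2))) := by
    simp only [rho, sw, fl, Prod.mk_sub_mk, Prod.fst_sub, Prod.snd_sub]
    congr 1 <;> ring
  simp only [Function.comp, Function.Involutive.coe_toPerm, KExt_rho_rho p.1, e, h.swap, h.flip]
  ring

theorem KExt_expand (h : NS N C T a b) {φ ψ : Site → ℝ} (hφ : Summable φ) (hψ : Summable ψ) :
    dd N (φ + ψ) ((φ + ψ) ∘ rho) =
      dd N φ (φ ∘ rho) + 2 * dd N φ (ψ ∘ rho) + dd N ψ (ψ ∘ rho) := by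
  rw [show (φ + ψ) ∘ rho = φ ∘ rho + ψ ∘ rho from rfl,
    dd_add_left h.bdd (ψ := φ ∘ rho + ψ ∘ rho) hφ hψ ((summable_rho hφ).add (summable_rho hψ)),
    dd_add_right h.bdd hφ (summable_rho hφ) (summable_rho hψ),
    dd_add_right h.bdd hψ (summable_rho hφ) (summable_rho hψ), h.rp_symm ψ φ]
  ring

theorem KExt_supp {φ ψ : Site → ℝ} (sφ : ∀ x, φ x ≠ 0 → a ≤ x.1) (sψ : ∀ x, ψ x ≠ 0 → a ≤ x.1)
    (x : Site) (hx : (φ + ψ) x ≠ 0) : a ≤ x.1 := by
  by_cases h0 : φ x = 0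
  · exact sψ x fun h1 => hx (by rw [Pi.add_apply, h0, h1, add_zero])
  · exact sφ x h0

theorem KExt_supp2 {ψ : Site → ℝ} (sψ : ∀ x, ψ x ≠ 0 → a ≤ x.1) (t : ℝ) (x : Site)
    (hx : (t • ψ) x ≠ 0) : a ≤ x.1 :=
  sψ x fun h1 => hx (by rw [Pi.smul_apply, h1, smul_zero])

/-- Cauchy Schwarz (`discrim_le_zero`) -/
theorem NS.rp_cs (h : NS N C T a b) {φ ψ : Site → ℝ} (hφ : Summable φ) (hψ : Summable ψ)
    (sφ : ∀ x, φ x ≠ 0 → a ≤ x.1) (sψ : ∀ x, ψ x ≠ 0 → a ≤ x.1) :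
    dd N φ (ψ ∘ rho) ^ 2 ≤ dd N φ (φ ∘ rho) * dd N ψ (ψ ∘ rho) := by
  have h1 := discrim_le_zero (a := dd N ψ (ψ ∘ rho)) (b := 2 * dd N φ (ψ ∘ rho))
    (c := dd N φ (φ ∘ rho)) fun t => by
      have hψ' : Summable (t • ψ) := hψ.const_smul t
      have h2 := h.rp1 _ (hφ.add hψ') (KExt_supp sφ (KExt_supp2 sψ t))
      change 0 ≤ dd N (φ + t • ψ) ((φ + t • ψ) ∘ rho) at h2
      rw [KExt_expand h hφ hψ', show (t • ψ) ∘ rho = t • (ψ ∘ rho) from rfl, dd_smul_right,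
        dd_smul_right, dd_smul_left] at h2
      linarith
  rw [discrim] at h1
  linarith

theorem NS.rp_add (h : NS N C T a b) {φ ψ : Site → ℝ} (hφ : Summable φ) (hψ : Summable ψ)
    (sφ : ∀ x, φ x ≠ 0 → a ≤ x.1) (sψ : ∀ x, ψ x ≠ 0 → a ≤ x.1) :
    Real.sqrt (dd N (φ + ψ) ((φ + ψ) ∘ rho)) ≤
      Real.sqrt (dd N φ (φ ∘ rho)) + Real.sqrt (dd N ψ (ψ ∘ rho)) := by
  have h1 := (le_abs_self _).trans (Real.abs_le_sqrt (h.rp_cs hφ hψ sφ sψ))
  rw [Real.sqrt_mul (h.rp1 φ hφ sφ)] at h1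
  refine Real.sqrt_le_iff.2 ⟨by positivity, ?_⟩
  rw [KExt_expand h hφ hψ, add_sq, Real.sq_sqrt (h.rp1 φ hφ sφ), Real.sq_sqrt (h.rp1 ψ hψ sψ)]
  linarith

/-- triangle inequality for finite linear combinations -/
theorem NS.rp_sum (h : NS N C T a b) {ι : Type} (s : Finset ι) (c : ι → ℝ) (f : ι → Site → ℝ)
    (hf : ∀ i ∈ s, Summable (f i)) (sf : ∀ i ∈ s, ∀ x, f i x ≠ 0 → a ≤ x.1) :
    Real.sqrt (dd N (∑ i ∈ s, c i • f i) ((∑ i ∈ s, c i • f i) ∘ rho)) ≤
      ∑ i ∈ s, |c i| * Real.sqrt (dd N (f i) (f i ∘ rho)) := by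
  classical
  suffices H : Summable (∑ i ∈ s, c i • f i) ∧ (∀ x, (∑ i ∈ s, c i • f i) x ≠ 0 → a ≤ x.1) ∧
      Real.sqrt (dd N (∑ i ∈ s, c i • f i) ((∑ i ∈ s, c i • f i) ∘ rho)) ≤
        ∑ i ∈ s, |c i| * Real.sqrt (dd N (f i) (f i ∘ rho)) from H.2.2
  induction s using Finset.induction_on with
  | empty => exact ⟨summable_zero, fun x hx => (hx rfl).elim, by simp [dd]⟩
  | insert i s hi ih =>
    obtain ⟨h1, h2, h3⟩ := ih (fun j hj => hf j (Finset.mem_insert_of_mem hj))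
      fun j hj => sf j (Finset.mem_insert_of_mem hj)
    have h4 : Summable (c i • f i) := (hf i (Finset.mem_insert_self i s)).const_smul (c i)
    have h5 := KExt_supp2 (sf i (Finset.mem_insert_self i s)) (c i)
    rw [Finset.sum_insert hi, Finset.sum_insert hi]
    refine ⟨h4.add h1, KExt_supp h5 h2, (h.rp_add h4 h1 h5 h2).trans (add_le_add ?_ h3)⟩
    rw [show (c i • f i) ∘ rho = c i • (f i ∘ rho) from rfl, dd_smul_right, dd_smul_left,
      ← mul_assoc, Real.sqrt_mul (mul_self_nonneg _), Real.sqrt_mul_self_eq_abs]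

end Vale.Agent.P163
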