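import Vale.Agent.P163.KExt

open Filter Topology

namespace Vale.Agent.P163

variable {N : Site → ℝ} {C : ℝ}

/-- the nine shifts -/
def Kap_v (i : Fin 3 × Fin 3) : Site := (![-1, 0, 1] i.1, ![-1, 0, 1] i.2)

/-- the nine weights -/
noncomputable def Kap_w (i : Fin 3 × Fin 3) : ℝ :=
  ![1 / 4, 1 / 2, 1 / 4] i.1 * ![1 / 4, 1 / 2, 1 / 4] i.2

theorem Kap_w_nonneg (i : Fin 3 × Fin 3) : 0 ≤ Kap_w i := by
  obtain ⟨a, b⟩ := i
  fin_cases a <;> fin_cases b <;> simp [Kap_w]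

theorem Kap_w_sum : ∑ i, Kap_w i = 1 := by
  simp [Kap_w, Fintype.sum_prod_type, Fin.sum_univ_three]
  norm_num

theorem Kap_v_bd (i : Fin 3 × Fin 3) :
    -1 ≤ (Kap_v i).1 ∧ (Kap_v i).1 ≤ 1 ∧ -1 ≤ (Kap_v i).2 ∧ (Kap_v i).2 ≤ 1 := by
  obtain ⟨a, b⟩ := i
  fin_cases a <;> fin_cases b <;> simp [Kap_v]

theorem Kap_add (φ : Site → ℝ) (x : Site) : kap φ x = ∑ i, Kap_w i * φ (x + Kap_v i) := by
  obtain ⟨x, y⟩ := x
  simp [kap, k1, Kap_w, Kap_v, Fintype.sum_prod_type, Fin.sum_univ_three, ← sub_eq_add_neg]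
  ring

theorem Kap_sub (φ : Site → ℝ) (x : Site) : kap φ x = ∑ i, Kap_w i * φ (x - Kap_v i) := by
  obtain ⟨x, y⟩ := x
  simp [kap, k1, Kap_w, Kap_v, Fintype.sum_prod_type, Fin.sum_univ_three]
  ring

theorem Kap_sh {φ : Site → ℝ} (hφ : Summable φ) (v : Site) : Summable fun x => φ (x - v) :=
  hφ.comp_injective (sub_left_injective (b := v))

theorem summable_kap {φ : Site → ℝ} (hφ : Summable φ) : Summable (kap φ) :=
  (summable_sum fun i _ => (Kap_sh hφ (Kap_v i)).mul_left (Kap_w i)).congr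
    fun x => (Kap_sub φ x).symm

theorem kap_rho (φ : Site → ℝ) : kap (φ ∘ rho) = kap φ ∘ rho := by
  funext x
  have e1 : -1 - (x.1 - 1) = -1 - x.1 + 1 := by ring
  have e2 : -1 - (x.1 + 1) = -1 - x.1 - 1 := by ring
  simp only [kap, k1, rho, Function.comp, e1, e2]
  ring

theorem kap_sw (φ : Site → ℝ) : kap (φ ∘ sw) = kap φ ∘ sw := by
  funext x
  simp only [kap, k1, sw, Function.comp]
  ring

theorem Kap_fl (φ : Site → ℝ) : kap (φ ∘ fl) = kap φ ∘ fl := by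
  funext x
  have e1 : -(x.1 - 1) = -x.1 + 1 := by ring
  have e2 : -(x.1 + 1) = -x.1 - 1 := by ring
  simp only [kap, k1, fl, Function.comp, e1, e2]
  ring

theorem kap_prod (f g : ℤ → ℝ) :
    kap (fun x => f x.1 * g x.2) = fun x => k1 f x.1 * k1 g x.2 := by
  funext x
  simp only [kap, k1]
  ring

/-- `kap` is an average of nine translates (Jensen, translation invariance of `h1`) -/
theorem h1_kap_le {φ : Site → ℝ} (hφ : Summable φ) : h1 (kap φ) ≤ h1 φ := by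
  set g : Site → ℝ := fun x => (φ (x + ee 0) - φ x) ^ 2 + (φ (x + ee 1) - φ x) ^ 2 with hg
  have hs : Summable g := h1_summable hφ
  have h1' : HasSum (fun x => ∑ i, Kap_w i * g (x - Kap_v i)) (∑ i, Kap_w i * h1 φ) :=
    hasSum_sum fun i _ =>
      (((Equiv.subRight (Kap_v i)).hasSum_iff (f := g)).2 hs.hasSum).mul_left (Kap_w i)
  rw [← Finset.sum_mul, Kap_w_sum, one_mul] at h1'
  refine hasSum_le (fun x => ?_) (h1_summable (summable_kap hφ)).hasSum h1'
  have key : ∀ e : Site, (kap φ (x + e) - kap φ x) ^ 2 ≤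
      ∑ i, Kap_w i * (φ (x - Kap_v i + e) - φ (x - Kap_v i)) ^ 2 := fun e => by
    refine le_trans (le_of_eq ?_) (Real.pow_arith_mean_le_arith_mean_pow_of_even Finset.univ
      Kap_w _ (fun i _ => Kap_w_nonneg i) Kap_w_sum even_two)
    simp only [Kap_sub, mul_sub, Finset.sum_sub_distrib, add_sub_right_comm]
  simp only [hg, mul_add, Finset.sum_add_distrib]
  exact add_le_add (key _) (key _)

theorem Kap_left (hb : ∀ d, |N d| ≤ C) {φ ψ : Site → ℝ} (hφ : Summable φ) (hψ : Summable ψ) :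
    dd (kap N) φ ψ = dd N (kap φ) ψ := by
  have h : ∀ i, HasSum (fun p : Site × Site => Kap_w i * (φ (p.1 - Kap_v i) * ψ p.2 *
      N (p.1 - p.2))) (Kap_w i * dd N (fun x => φ (x - Kap_v i)) ψ) := fun i =>
    (dd_summable hb (Kap_sh hφ (Kap_v i)) hψ).hasSum.mul_left _
  have h1 := hasSum_sum (s := Finset.univ) fun i _ => h i
  have h2 := hasSum_sum (s := Finset.univ) fun i _ =>
    ((Equiv.addRight (Kap_v i)).prodCongr (Equiv.refl Site)).hasSum_iff.2 (h i)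
  have e1 : (fun p : Site × Site => kap φ p.1 * ψ p.2 * N (p.1 - p.2)) = fun p =>
      ∑ i, Kap_w i * (φ (p.1 - Kap_v i) * ψ p.2 * N (p.1 - p.2)) := by
    funext p
    simp only [Kap_sub, Finset.sum_mul, mul_assoc]
  have e2 : (fun p : Site × Site => φ p.1 * ψ p.2 * kap N (p.1 - p.2)) = fun p =>
      ∑ i, Kap_w i * (φ (p.1 + Kap_v i - Kap_v i) * ψ p.2 * N (p.1 + Kap_v i - p.2)) := by
    funext p
    simp only [Kap_add, Finset.mul_sum, add_sub_cancel_right, add_sub_right_comm, mul_left_comm]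
  rw [dd, dd, e1, e2, h1.tsum_eq]
  exact h2.tsum_eq

theorem Kap_right (hb : ∀ d, |N d| ≤ C) {φ ψ : Site → ℝ} (hφ : Summable φ) (hψ : Summable ψ) :
    dd (kap N) φ ψ = dd N φ (kap ψ) := by
  have h : ∀ i, HasSum (fun p : Site × Site => Kap_w i * (φ p.1 * ψ (p.2 - Kap_v i) *
      N (p.1 - p.2))) (Kap_w i * dd N φ (fun x => ψ (x - Kap_v i))) := fun i =>
    (dd_summable hb hφ (Kap_sh hψ (Kap_v i))).hasSum.mul_left _
  have h1 := hasSum_sum (s := Finset.univ) fun i _ => h i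
  have h2 := hasSum_sum (s := Finset.univ) fun i _ =>
    ((Equiv.refl Site).prodCongr (Equiv.addRight (Kap_v i))).hasSum_iff.2 (h i)
  have e1 : (fun p : Site × Site => φ p.1 * kap ψ p.2 * N (p.1 - p.2)) = fun p =>
      ∑ i, Kap_w i * (φ p.1 * ψ (p.2 - Kap_v i) * N (p.1 - p.2)) := by
    funext p
    simp only [Kap_sub, Finset.sum_mul, Finset.mul_sum, mul_assoc, mul_left_comm]
  have e2 : (fun p : Site × Site => φ p.1 * ψ p.2 * kap N (p.1 - p.2)) = fun p =>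
      ∑ i, Kap_w i * (φ p.1 * ψ (p.2 + Kap_v i - Kap_v i) * N (p.1 - (p.2 + Kap_v i))) := by
    funext p
    simp only [Kap_sub, Finset.mul_sum, add_sub_cancel_right, sub_sub, mul_left_comm]
  rw [dd, dd, e1, e2, h1.tsum_eq]
  exact h2.tsum_eq

theorem Kap_bd (hb : ∀ d, |N d| ≤ C) (d : Site) : |kap N d| ≤ C := by
  rw [Kap_add]
  refine (Finset.abs_sum_le_sum_abs _ _).trans ((Finset.sum_le_sum fun i _ => ?_).trans
    (le_of_eq (by rw [← Finset.sum_mul, Kap_w_sum, one_mul] : ∑ i, Kap_w i * C = C)))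
  rw [abs_mul, abs_of_nonneg (Kap_w_nonneg i)]
  exact mul_le_mul_of_nonneg_left (hb _) (Kap_w_nonneg i)

/-- the smoothing is even, so it can be moved from the kernel to the test functions -/
theorem dd_kap (hb : ∀ d, |N d| ≤ C) {φ ψ : Site → ℝ} (hφ : Summable φ) (hψ : Summable ψ) :
    dd (kap (kap N)) φ ψ = dd N (kap φ) (kap ψ) := by
  rw [Kap_left (Kap_bd hb) hφ hψ, Kap_right hb (summable_kap hφ) hψ]

theorem Kap_supp {φ : Site → ℝ} {x : Site} (h : kap φ x ≠ 0) : ∃ i, φ (x + Kap_v i) ≠ 0 := by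
  rw [Kap_add] at h
  obtain ⟨i, -, hi⟩ := Finset.exists_ne_zero_of_sum_ne_zero h
  exact ⟨i, right_ne_zero_of_mul hi⟩

theorem NS.toKap (h : NS N C id 0 1) : NS (kap (kap N)) C kap 1 3 := by
  have e1 : N ∘ fl = N := funext h.flip
  have e2 : N ∘ sw = N := funext h.swap
  refine ⟨Kap_bd (Kap_bd h.bdd), fun d => ?_, fun d => ?_, fun φ ψ hφ hψ => ?_,
    fun φ hφ hs => ?_, fun φ hφ hs => ?_⟩
  · exact (congrFun (by rw [← Kap_fl, ← Kap_fl, e1] : kap (kap N) ∘ fl = kap (kap N)) d)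
  · exact (congrFun (by rw [← kap_sw, ← kap_sw, e2] : kap (kap N) ∘ sw = kap (kap N)) d)
  · rw [dd_kap h.bdd hφ hψ]
    exact h.h1b _ _ (summable_kap hφ) (summable_kap hψ)
  · rw [dd_kap h.bdd hφ (summable_rho hφ), kap_rho]
    refine h.rp1 _ (summable_kap hφ) fun x hx => ?_
    obtain ⟨i, hi⟩ := Kap_supp hx
    have h1 := hs _ hi
    have h2 := Kap_v_bd i
    rw [Prod.fst_add] at h1
    omega
  · have hs' : Summable (φ ∘ sw) := hφ.comp_injective Prod.swap_injective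
    rw [dd_kap h.bdd hφ hs', kap_sw]
    refine h.rp2 _ (summable_kap hφ) fun x hx => ?_
    obtain ⟨i, hi⟩ := Kap_supp hx
    have h1 := hs _ hi
    have h2 := Kap_v_bd i
    rw [Prod.fst_add, Prod.snd_add] at h1
    omega

end Vale.Agent.P163
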