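import Vale.Agent.P163.Small
import Vale.Agent.P163.Appr

open Filter Topology

namespace Vale.Agent.P163

/-- the column function -/
noncomputable def zeroCol (a : ℝ) (p x : Site) : ℝ := if x.1 = p.1 then hk 0 a (x.2 - p.2) else 0

theorem zero_inj (k : ℤ) : Function.Injective fun t : ℤ => ((k, t) : Site) :=
  fun _ _ e => congrArg Prod.snd e

theorem zero_col_summable {a : ℝ} (ha : 0 < a) (p : Site) : Summable (zeroCol a p) := by
  refine ((zero_inj p.1).summable_iff fun x hx => if_neg fun e => hx ⟨x.2, ?_⟩).1 ?_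
  · rw [← e]
  · exact ((Equiv.subRight p.2).summable_iff.2 (summable_hk 0 ha)).congr fun t => (if_pos rfl).symm

theorem zero_yc (a : ℝ) {φ : Site → ℝ} {S : Finset Site} (h0 : ∀ x, φ x ≠ 0 → x ∈ S) :
    yc a φ = ∑ p ∈ S, (φ p / zz a) • zeroCol a p := by
  funext x
  have e1 : ∑' p, φ p / zz a * zeroCol a p x = ∑ p ∈ S, φ p / zz a * zeroCol a p x :=
    tsum_eq_sum fun p hp => by rw [(by_contra fun e => hp (h0 p e) : φ p = 0), zero_div, zero_mul]
  rw [Finset.sum_apply]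
  simp only [Pi.smul_apply, smul_eq_mul]
  rw [← e1, ← (zero_inj x.1).tsum_eq fun p hp => ⟨p.2, ?_⟩, yc, ← tsum_div_const]
  · refine tsum_congr fun t => ?_
    simp only [zeroCol, if_true]
    ring
  · by_contra e
    exact hp (mul_eq_zero_of_right _ (if_neg fun e' => e (by rw [e'])))

theorem zero_col {N : Site → ℝ} {C : ℝ} (h : NS N C kap 1 3) {a K η : ℝ} (ha : 0 < a)
    (hz : 0 < zz a) {φ : Site → ℝ} {B : Finset Site} {m : ℕ} (hm : 1 ≤ m)
    (h0 : ∀ x, φ x ≠ 0 → x ∈ B) (h1 : ∀ x, φ x ≠ 0 → (m : ℤ) ≤ x.1) (hK : ∀ x, |φ x| ≤ K)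
    (hq : ∀ k : ℕ, m ≤ k → qq N k a ≤ η) :
    Real.sqrt (dd N (yc a φ) (yc a φ ∘ rho)) ≤ B.card * (K / zz a * Real.sqrt (th a * η)) := by
  classical
  have hS : ∀ p ∈ B.filter fun p => φ p ≠ 0, (m : ℤ) ≤ p.1 :=
    fun p hp => h1 p (Finset.mem_filter.1 hp).2
  rw [zero_yc a (S := B.filter fun p => φ p ≠ 0) fun x hx => Finset.mem_filter.2 ⟨h0 x hx, hx⟩]
  refine (h.rp_sum _ _ _ (fun p _ => zero_col_summable ha p) fun p hp x hx => ?_).trans ?_
  · have := hS p hp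
    have e : x.1 = p.1 := by_contra fun e => hx (if_neg e)
    omega
  refine (Finset.sum_le_card_nsmul _ _ (K / zz a * Real.sqrt (th a * η)) fun p hp => ?_).trans ?_
  · have hp1 := hS p hp
    have e : dd N (zeroCol a p) (zeroCol a p ∘ rho) = th a * qq N p.1.toNat a := by
      rw [qq, show 2 * ((p.1.toNat : ℕ) : ℤ) + 1 = p.1 + p.1 + 1 by omega]
      exact dd_col h.bdd ha p.1 p.1 p.2
    rw [e, abs_div, abs_of_pos hz]
    exact mul_le_mul (div_le_div_of_nonneg_right (hK p) hz.le) (Real.sqrt_le_sqrt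
      (mul_le_mul_of_nonneg_left (hq _ (by omega)) (th_pos ha).le)) (Real.sqrt_nonneg _)
      (div_nonneg ((abs_nonneg _).trans (hK p)) hz.le)
  · rw [nsmul_eq_mul]
    exact mul_le_mul_of_nonneg_right (by exact_mod_cast Finset.card_filter_le _ _)
      (mul_nonneg (div_nonneg ((abs_nonneg _).trans (hK 0)) hz.le) (Real.sqrt_nonneg _))

theorem zero_split {N : Site → ℝ} {C : ℝ} (h : NS N C id 0 1) {φ φ' : Site → ℝ} (hφ : Summable φ)
    (hφ' : Summable φ') (h1' : ∀ x, φ x ≠ 0 → 0 ≤ x.1) (h2 : ∀ x, φ' x ≠ 0 → 1 ≤ x.1) :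
    Real.sqrt (dd N φ (φ ∘ rho)) ≤ Real.sqrt (dd (kap (kap N)) φ' (φ' ∘ rho)) +
      Real.sqrt (C * h1 (φ - kap φ')) := by
  have sk := summable_kap hφ'
  have sψ : Summable (φ - kap φ') := hφ.sub sk
  have k0 : ∀ x, kap φ' x ≠ 0 → 0 ≤ x.1 := fun x hx => by
    by_contra hc
    have z : ∀ u v : ℤ, u ≤ x.1 + 1 → φ' (u, v) = 0 := fun u v hu => by_contra fun e => by
      have := h2 _ e
      omega
    apply hx
    simp only [kap, k1, z (x.1 - 1) _ (by omega), z x.1 _ (by omega), z (x.1 + 1) _ le_rfl]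
    norm_num
  have := h.rp_add sk sψ k0 fun x hx => by
    by_cases e : φ x = 0
    · exact k0 x fun e' => hx (by rw [Pi.sub_apply, e, e', sub_self])
    · exact h1' x e
  rw [add_sub_cancel, ← kap_rho, ← dd_kap h.bdd hφ' (summable_rho hφ')] at this
  refine this.trans (add_le_add_right (Real.sqrt_le_sqrt ((le_abs_self _).trans ?_)) _)
  have b := h.h1b _ _ sψ (summable_rho sψ)
  rwa [id, id, h1_rho sψ, mul_assoc, Real.mul_self_sqrt (h1_nonneg _)] at b

theorem zero_num {K l s P σ c C₁ e z t n : ℝ} (hK : 1 ≤ K) (hl : 0 < l) (hP : 0 < P)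
    (hσ : 0 < σ) (hc : 0 < c) (hC : 0 < C₁) (he : 0 ≤ e) (s1 : 1 / 2 ≤ s * P) (s2 : s * P ≤ 1)
    (hs : 0 < s) (l2 : σ * l ≤ 2 * P) (hz : c ≤ z * s) (ht : t * s ≤ C₁)
    (hn : n ≤ (5 * (K * l)) ^ 2) :
    n * (K / z * Real.sqrt (t * (e / P ^ 3))) ≤
      100 * K ^ 3 / (c * σ ^ 2) * Real.sqrt (2 * C₁ * e) := by
  have hz0 : 0 < z := (mul_pos_iff_of_pos_right hs).1 (hc.trans_le hz)
  have a1 : K / z ≤ K / (c * P) := by
    refine div_le_div_of_nonneg_left (by positivity) (by positivity) ?_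
    nlinarith [mul_le_mul_of_nonneg_right hz hP.le, mul_le_mul_of_nonneg_left s2 hz0.le]
  have a2 : Real.sqrt (t * (e / P ^ 3)) ≤ Real.sqrt (2 * C₁ * e) / P := by
    rw [← Real.sqrt_sq hP.le, ← Real.sqrt_div (by positivity), Real.sqrt_sq hP.le]
    refine Real.sqrt_le_sqrt ?_
    have a3 : t ≤ 2 * C₁ * P := by
      refine le_of_mul_le_mul_right (ht.trans ?_) hs
      nlinarith [mul_le_mul_of_nonneg_left s1 hC.le]
    refine (mul_le_mul_of_nonneg_right a3 (by positivity)).trans_eq ?_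
    field_simp
  have a4 : l ≤ 2 * P / σ := by rwa [le_div_iff₀' hσ]
  have a5 : n ≤ (5 * (K * (2 * P / σ))) ^ 2 := hn.trans (by gcongr)
  refine (mul_le_mul a5 (mul_le_mul a1 a2 (Real.sqrt_nonneg _) (by positivity)) (by positivity)
    (by positivity)).trans_eq ?_
  field_simp
  ring

/-- Let `N' = kap (kap N)`.  Fix a small `σ > 0` and for large `l` choose `j` with
`2^j ≤ σ l < 2^(j+1)`, `s = s j` from `col_small`.  `φ' = yc (s^2) φ` is the finite sum over
` (k, t)` in the support of `φ (k, t) / zz` times the column function of `dd_col`, all with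
`k ≥ δ l ≥ 2 * 2^j`, so by `NS.rp_sum` for `N'` its seminorm is at most
` (3 K l)^2 * K * (s / c) * sqrt (th * ε j / 8^j) ≤ C σ⁻¹^2 sqrt (ε j)`.  By `dd_kap`, `kap_rho` this
is the `N` seminorm of `kap φ'`; the rest `φ - kap φ'` is supported in `x.1 ≥ 0` and has `N`
seminorm at most `sqrt (C h1) ≤ C' σ` (`yc_approx`, `h1_rho`).  `NS.rp_add`, let `l → ∞`, then
`σ → 0`. -/
theorem curl_zero {N : Site → ℝ} {C : ℝ} (h : NH N C) (φ : ℕ → Site → ℝ) (hφ : SF φ) (δ : ℝ)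
    (hδ : 0 < δ) (hs : ∀ᶠ l : ℕ in atTop, ∀ x, φ l x ≠ 0 → δ * l ≤ x.1) :
    Tendsto (fun l => dd N (φ l) (φ l ∘ rho)) atTop (𝓝 0) := by
  have h0 := h.toNS
  have h' := h0.toKap
  have hC : 0 ≤ C := (abs_nonneg _).trans (h.bdd 0)
  obtain ⟨s, ε, hs1, hε, hq⟩ := col_small h'
  obtain ⟨K, hK, hφ⟩ := hφ
  obtain ⟨c, C₁, hc, hC₁, hg⟩ := gauss_sums
  obtain ⟨C₂, hy⟩ := yc_approx
  set B := 2 * Real.sqrt (C * (|C₂| * K ^ 4)) with hB
  have B0 : 0 ≤ B := by positivity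
  have sm : ∀ᶠ l : ℕ in atTop, Summable (φ l) := by
    filter_upwards [hφ] with l ⟨⟨c₀, b0⟩, _⟩
    exact summable_of_ne_finset_zero fun x hx => by_contra fun e => hx (appr_supp b0 x e)
  have pos : ∀ᶠ l : ℕ in atTop, ∀ x, φ l x ≠ 0 → 0 ≤ x.1 := by
    filter_upwards [hs] with l hl x hx
    exact_mod_cast (show (0 : ℝ) ≤ δ * l by positivity).trans (hl x hx)
  have main : ∀ σ : ℝ, 0 < σ → σ ≤ δ / 2 → ∀ᶠ l : ℕ in atTop,
      Real.sqrt (dd N (φ l) (φ l ∘ rho)) ≤ 100 * K ^ 3 / (c * σ ^ 2) *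
        Real.sqrt (2 * C₁ * |ε (Nat.log 2 ⌊σ * l⌋₊)|) + B * σ := fun σ hσ hσδ => by
    filter_upwards [hφ, hs, sm, pos, eventually_ge_atTop 1,
      (tendsto_natCast_atTop_atTop.const_mul_atTop hσ).eventually_ge_atTop 1]
      with l ⟨⟨c₀, b0⟩, b1, _, b2⟩ hl sl pl l1 l2
    set j := Nat.log 2 ⌊σ * l⌋₊ with hj
    have l1' : (1 : ℝ) ≤ l := by exact_mod_cast l1
    have j1 : (2 : ℝ) ^ j ≤ σ * l := by
      refine le_trans ?_ (Nat.floor_le (by positivity))
      exact_mod_cast Nat.pow_log_le_self 2 (Nat.floor_pos.2 l2).ne'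
    have j2 : σ * l ≤ 2 * 2 ^ j := by
      refine (Nat.lt_floor_add_one _).le.trans ?_
      have := Nat.lt_pow_succ_log_self one_lt_two ⌊σ * l⌋₊
      rw [← hj, Nat.succ_eq_add_one, pow_succ'] at this
      exact_mod_cast this
    have P1 : (1 : ℝ) ≤ 2 ^ j := one_le_pow₀ one_le_two
    obtain ⟨s1, s2⟩ := hs1 j
    have s0 : 0 < s j := (mul_pos_iff_of_pos_right (zero_lt_one.trans_le P1)).1 (by linarith)
    have s3 : s j ≤ 1 := (le_mul_of_one_le_right s0.le P1).trans s2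
    obtain ⟨-, g1, g2, -⟩ := hg _ s0 s3
    have ha : 0 < s j ^ 2 := by positivity
    have hz : 0 < zz (s j ^ 2) := (mul_pos_iff_of_pos_right s0).1 (hc.trans_le g2)
    obtain ⟨y1, y2⟩ := hy K l (s j) c₀ (φ l) hK l1' s0 s3 b0 b2
    have m1 : ∀ x, φ l x ≠ 0 → ((2 * 2 ^ j : ℕ) : ℤ) ≤ x.1 := fun x hx => by
      have : (2 : ℝ) * 2 ^ j ≤ x.1 := by
        nlinarith [hl x hx, mul_le_mul_of_nonneg_right hσδ (zero_le_one.trans l1')]
      exact_mod_cast this
    have m0 : 1 ≤ 2 * 2 ^ j := Nat.one_le_iff_ne_zero.2 (by positivity)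
    have k1' := zero_col h' (η := |ε j| / (2 ^ j) ^ 3) ha hz m0 (appr_supp b0) m1 b1 fun k hk => by
      rw [le_div_iff₀' (by positivity)]
      exact (hq j k hk).trans (le_abs_self _)
    have k2 := zero_split h0 sl y1 pl fun x hx => by
      by_contra hc'
      refine hx ?_
      have z : ∀ t : ℤ, φ l (x.1, t) = 0 := fun t => by_contra fun e => by
        have := m1 _ e
        omega
      simp [yc, z]
    have r1 : (⌈K * l⌉₊ : ℝ) < K * l + 1 := Nat.ceil_lt_add_one (by positivity)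
    have r2 : 1 ≤ K * l := one_le_mul_of_one_le_of_one_le hK l1'
    refine k2.trans (add_le_add (k1'.trans (zero_num hK (by positivity) (by positivity) hσ hc hC₁
      (abs_nonneg _) s1 s2 s0 j2 g2 g1 ?_)) ?_)
    · rw [appr_card]
      exact pow_le_pow_left₀ (by positivity) (by linarith) 2
    · refine Real.sqrt_le_iff.2 ⟨by positivity, ?_⟩
      rw [hB, mul_pow, mul_pow, Real.sq_sqrt (by positivity)]
      have r3 : C₂ * K ^ 4 / (s j * l) ^ 2 ≤ |C₂| * K ^ 4 * (2 * σ) ^ 2 := by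
        rw [div_le_iff₀ (by positivity), mul_assoc (|C₂| * K ^ 4), ← mul_pow]
        refine (mul_le_mul_of_nonneg_right (le_abs_self _) (by positivity)).trans
          (le_mul_of_one_le_right (by positivity) (one_le_pow₀ ?_))
        nlinarith [mul_le_mul_of_nonneg_left j1 s0.le]
      refine (mul_le_mul_of_nonneg_left (y2.trans r3) hC).trans_eq ?_
      ring
  have lg : Tendsto (Nat.log 2) atTop atTop :=
    tendsto_atTop_atTop_of_monotone Nat.log_monotone fun n => ⟨2 ^ n, (Nat.log_pow one_lt_two n).ge⟩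
  have lim : Tendsto (fun l => Real.sqrt (dd N (φ l) (φ l ∘ rho))) atTop (𝓝 0) := by
    refine tendsto_order.2 ⟨fun η hη => .of_forall fun l => hη.trans_le (Real.sqrt_nonneg _),
      fun η hη => ?_⟩
    set σ := min (δ / 2) (η / (2 * (B + 1))) with hσ
    have σ0 : 0 < σ := by positivity
    have σ1 : σ * (2 * (B + 1)) ≤ η := (le_div_iff₀ (by positivity)).1 (min_le_right _ _)
    have t1 := ((((hε.comp (lg.comp (tendsto_nat_floor_atTop.comp
      (tendsto_natCast_atTop_atTop.const_mul_atTop σ0)))).abs.const_mul (2 * C₁)).sqrt).const_mul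
      (100 * K ^ 3 / (c * σ ^ 2)))
    rw [abs_zero, mul_zero, Real.sqrt_zero, mul_zero] at t1
    filter_upwards [main σ σ0 (min_le_left _ _), t1.eventually_lt_const (half_pos hη)] with l a1 a2
    refine a1.trans_lt ?_
    simp only [Function.comp] at a2
    nlinarith
  have := lim.pow 2
  rw [zero_pow two_ne_zero] at this
  refine this.congr' ?_
  filter_upwards [sm, pos] with l a1 a2
  exact Real.sq_sqrt (h0.rp1 _ a1 a2)

end Vale.Agent.P163
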