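import Vale.Agent.P163.RP
import Vale.Agent.P163.Zero

open MvPolynomial Filter Topology

namespace Vale.Agent.P163

variable {β : ℝ} {E : Alg →ₗ[ℝ] ℝ}

theorem link_two (h : State β E) (i j : Fin 3) (x y : Site) :
    E (rot i j x * rot i j y) = E (rot i j 0 * rot i j (y - x)) := by
  rw [← h.trans x (rot i j 0 * _), map_mul (tr x), tr_rot, tr_rot, zero_add, sub_add_cancel]

theorem link_refl (i j : Fin 3) {g σ : Site → Site} (hσ : Function.Involutive σ)
    (hg : ∀ x, act g (rot i j x) = -rot i j (σ x)) (φ : Site →₀ ℝ) :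
    ∃ ψ : Site →₀ ℝ, (ψ : Site → ℝ) = φ ∘ σ ∧ act g (lc (rot i j) φ) = -lc (rot i j) ψ := by
  refine ⟨φ.mapDomain σ, funext fun x => ?_, ?_⟩
  · have := Finsupp.mapDomain_apply hσ.injective φ (σ x)
    rwa [hσ x] at this
  · rw [lc, Finsupp.linearCombination_mapDomain, Finsupp.linearCombination_apply,
      Finsupp.linearCombination_apply, Finsupp.sum, Finsupp.sum, map_sum,
      ← Finset.sum_neg_distrib]
    exact Finset.sum_congr rfl fun x _ => by rw [map_smul, hg, smul_neg, Function.comp_apply]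

theorem link_rho : Function.Involutive rho := fun x => by simp [rho]

theorem link_sw : Function.Involutive sw := fun _ => rfl

theorem link_flc : flc 0 = fl := funext fun x => by simp [flc, fl]

theorem link_loc (i j : Fin 3) {φ : Site →₀ ℝ} (hφ : ∀ x, φ x ≠ 0 → 0 ≤ x.1) :
    lc (rot i j) φ ∈ loc {x | 0 ≤ x.1} :=
  lc_mem_loc _ _ fun x hx => loc_mono (fun _ hy => (hφ x hx).trans hy.1) (rot_mem_loc i j x)

theorem State.dd_rot (h : State β E) (i j : Fin 3) (φ ψ : Site →₀ ℝ) :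
    dd (fun d => -E (rot i j 0 * rot i j d)) φ ψ = -E (lc (rot i j) φ * lc (rot i j) ψ) := by
  rw [dd, tsum_eq_sum (s := φ.support ×ˢ ψ.support), Finset.sum_product,
    lc_eq_sum _ φ _ subset_rfl, lc_eq_sum _ ψ _ subset_rfl, Finset.sum_mul_sum, map_sum,
    ← Finset.sum_neg_distrib]
  · refine Finset.sum_congr rfl fun x _ => ?_
    rw [map_sum, ← Finset.sum_neg_distrib]
    refine Finset.sum_congr rfl fun y _ => ?_
    rw [smul_mul_smul_comm, map_smul, smul_eq_mul, mul_comm (rot i j x), link_two h i j y x]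
    ring
  · intro p hp
    rw [Finset.mem_product, not_and_or, Finsupp.notMem_support_iff,
      Finsupp.notMem_support_iff] at hp
    rcases hp with hp | hp <;> simp [hp]

theorem link_rp (h : State β E) (i j : Fin 3) {g σ : Site → Site} (hσ : Function.Involutive σ)
    (hg : ∀ x, act g (rot i j x) = -rot i j (σ x)) (φ : Site →₀ ℝ) :
    dd (fun d => -E (rot i j 0 * rot i j d)) φ (φ ∘ σ) =
      E (act g (lc (rot i j) φ) * lc (rot i j) φ) := by
  obtain ⟨ψ, e1, e2⟩ := link_refl i j hσ hg φ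
  rw [← e1, h.dd_rot, e2, neg_mul, map_neg, mul_comm]

/-- `bdd` and `h1b` from `JB.n8_rot`; `flip`, `swap`, `rp1`, `rp2` from `fl_rot`, `sw_rot` -/
theorem State.nh (h : State β E) {i j : Fin 3} (hJ : JB E i j) :
    ∃ C, NH (fun d => -E (rot i j 0 * rot i j d)) C := by
  obtain ⟨c, hc, hn⟩ := hJ.n8_rot
  refine ⟨max (E (rot i j 0 * rot i j 0)) (c ^ 2), fun d => ?_, fun d => ?_, fun d => ?_,
    fun φ ψ => ?_, fun φ hφ => ?_, fun φ hφ => ?_⟩
  · have h0 := h.pos (rot i j 0)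
    have h1 := h.cs (rot i j 0) (rot i j d)
    rw [link_two h i j d d, sub_self, ← sq] at h1
    rw [abs_neg]
    exact (abs_le_of_sq_le_sq h1 h0).trans (le_max_left _ _)
  · rw [← h.flip (rot i j 0 * rot i j d), map_mul (act fl), fl_rot, fl_rot, neg_mul_neg,
      link_two h i j (rho 0)]
    have : rho d - rho 0 = fl d := by simp [rho, fl]; ring
    rw [this]
  · rw [← h.swap (rot i j 0 * rot i j d), map_mul (act sw), sw_rot, sw_rot, neg_mul_neg]
    rfl
  · rw [h.dd_rot, abs_neg, ← h1f_eq, ← h1f_eq]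
    refine (h.abs_le (hn φ).1 (hn ψ).1 (h.n8_sq1 (hn φ)) (h.n8_sq1 (hn ψ))).trans ?_
    have := mul_le_mul_of_nonneg_right (le_max_right (E (rot i j 0 * rot i j 0)) (c ^ 2))
      (mul_nonneg (Real.sqrt_nonneg (h1f φ)) (Real.sqrt_nonneg (h1f ψ)))
    linarith
  · rw [link_rp h i j link_rho (fl_rot i j)]
    exact h.rp1 _ (link_loc i j hφ)
  · rw [link_rp h i j link_sw (sw_rot i j)]
    refine h.rp2 _ (lc_mem_loc _ _ fun x hx => loc_mono (fun y hy => ?_) (rot_mem_loc i j x))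
    exact hy.2.2.2.trans ((hφ x hx).trans hy.1)

theorem link_SF {φ : ℕ → Site → ℝ} (hφ : SF φ) (s : ℕ → Site) :
    SF fun l x => φ l (x - s l) := by
  obtain ⟨K, hK, h⟩ := hφ
  refine ⟨K, hK, h.mono fun l ⟨⟨c, h1⟩, h2, h3, h4⟩ => ⟨⟨c + s l, fun x hx => ?_⟩,
    fun x => h2 _, fun μ x => ?_, fun μ ν x => ?_⟩⟩
  · have := h1 _ hx
    simp only [Prod.fst_sub, Prod.snd_sub, Prod.fst_add, Prod.snd_add, Int.cast_sub,
      Int.cast_add] at this ⊢
    rwa [sub_sub, sub_sub, add_comm ((s l).1 : ℝ), add_comm ((s l).2 : ℝ)] at this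
  · simpa only [add_sub_right_comm] using h3 μ (x - s l)
  · simpa only [add_sub_right_comm] using h4 μ ν (x - s l)

/-- Translate by ` (- c l, 0)` (the family stays in `SF`), write `A = act fl A'` and use
`flc_cs`, `flc_le` with `c = 0` and `curl_zero`. -/
theorem State.zero (h : State β E) {i j : Fin 3} (hJ : JB E i j) (φ : ℕ → Site →₀ ℝ)
    (hφ : SF fun l => φ l) (A : ℕ → Alg) (c : ℕ → ℤ) (δ K : ℝ) (hδ : 0 < δ)
    (hs : ∀ᶠ l : ℕ in atTop, (∀ x, φ l x ≠ 0 → (c l : ℝ) + δ * l ≤ x.1) ∧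
      A l ∈ loc {x | x.1 ≤ c l} ∧ E (A l * A l) ≤ K) :
    Tendsto (fun l => E (lc (rot i j) (φ l) * A l)) atTop (𝓝 0) := by
  obtain ⟨C, hN⟩ := h.nh hJ
  have hsh : ∀ l, (sh (-c l, 0) (φ l) : Site → ℝ) = fun x => φ l (x - (-c l, 0)) :=
    fun l => funext (sh_apply _ _)
  have hsup : ∀ᶠ l : ℕ in atTop, ∀ x, sh (-c l, 0) (φ l) x ≠ 0 → δ * l ≤ x.1 :=
    hs.mono fun l hl x hx => by
      have := hl.1 _ (by rwa [sh_apply] at hx)
      simp only [Prod.fst_sub, Int.cast_sub, Int.cast_neg] at this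
      linarith
  have hz := curl_zero hN (fun l => sh (-c l, 0) (φ l))
    (by simpa only [hsh] using link_SF hφ fun l => (-c l, 0)) δ hδ hsup
  have h2 : Tendsto (fun l => E (lc (rot i j) (φ l) * A l) ^ 2) atTop (𝓝 0) := by
    have hz' := hz.const_mul K
    rw [mul_zero] at hz'
    refine squeeze_zero' (Eventually.of_forall fun _ => sq_nonneg _) ?_ hz'
    filter_upwards [hs, hsup] with l hl hl'
    have hQ : lc (rot i j) (sh (-c l, 0) (φ l)) ∈ loc {x | 0 ≤ x.1} :=
      link_loc i j fun x hx => by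
        have := (mul_nonneg hδ.le (Nat.cast_nonneg l)).trans (hl' x hx)
        exact_mod_cast this
    have hP : act fl (tr (-c l, 0) (A l)) ∈ loc {x | 0 ≤ x.1} := by
      refine act_mem_loc (S := {x | x.1 ≤ 0}) (act_mem_loc hl.2.1 _ fun x hx => ?_) _
        fun x hx => ?_
      · have : x.1 ≤ c l := hx
        simp only [Set.mem_ofPred_eq, Prod.fst_add]
        omega
      · exact neg_nonneg.2 (show x.1 ≤ 0 from hx)
    have e1 := h.flc_cs 0 hP hQ
    have e2 := h.flc_le 0 (act fl (tr (-c l, 0) (A l)))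
    have e3 := h.flc_pos 0 hQ
    have e4 : act fl (act fl (tr (-c l, 0) (A l))) = tr (-c l, 0) (A l) := by
      rw [act_act, show fl ∘ fl = id from funext fun x => by simp [fl], act_id]
    rw [link_flc] at e1 e2 e3
    rw [← map_mul (act fl) (tr _ _), h.flip, ← map_mul (tr _), h.trans] at e2
    rw [link_rp h i j link_rho (fl_rot i j), ← h.trans (-c l, 0), map_mul (tr _),
      tr_lc _ (tr_rot · i j), mul_comm, ← e4]
    exact e1.trans (mul_le_mul_of_nonneg_right (e2.trans hl.2.2) e3)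
  rw [tendsto_zero_iff_abs_tendsto_zero]
  simpa only [Real.sqrt_sq_eq_abs, Real.sqrt_zero, Function.comp_def] using h2.sqrt

end Vale.Agent.P163
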