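import Vale.Agent.P163.Kap
import Vale.Agent.P163.GauB

open Filter Topology

namespace Vale.Agent.P163

theorem mom_sq {f : ℤ → ℝ} (hf : Summable f) : Summable fun x => f x ^ 2 :=
  ((summable_mul_of_summable_norm hf.norm hf.norm).comp_injective
    (i := fun x : ℤ => (x, x)) fun _ _ e => congrArg Prod.fst e).congr fun x => (sq (f x)).symm

theorem mom_up {f : ℤ → ℝ} (hf : Summable f) : Summable fun x => f (x + 1) :=
  (Equiv.addRight (1 : ℤ)).summable_iff.2 hf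

theorem mom_dn {f : ℤ → ℝ} (hf : Summable f) : Summable fun x => f (x - 1) :=
  (Equiv.subRight (1 : ℤ)).summable_iff.2 hf

theorem mom_k1 {f : ℤ → ℝ} (hf : Summable f) : Summable (k1 f) :=
  (((mom_dn hf).add (hf.mul_left 2)).add (mom_up hf)).div_const 4

theorem mom_k1_le {f : ℤ → ℝ} (hf : Summable f) : ∑' x, k1 f x ^ 2 ≤ ∑' x, f x ^ 2 := by
  have h := mom_sq hf
  have e1 : ∑' x, f (x + 1) ^ 2 = ∑' x, f x ^ 2 :=
    (Equiv.addRight (1 : ℤ)).tsum_eq fun x => f x ^ 2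
  have e2 : ∑' x, f (x - 1) ^ 2 = ∑' x, f x ^ 2 :=
    (Equiv.subRight (1 : ℤ)).tsum_eq fun x => f x ^ 2
  have h1 : ∑' x, k1 f x ^ 2 ≤ ∑' x, k1 (fun x => f x ^ 2) x :=
    (mom_sq (mom_k1 hf)).tsum_le_tsum (fun x => by
      simp only [k1]
      nlinarith [sq_nonneg (f (x - 1) - f x), sq_nonneg (f (x + 1) - f x),
        sq_nonneg (f (x - 1) - f (x + 1))]) (mom_k1 h)
  refine h1.trans_eq ?_
  simp only [k1]
  rw [tsum_div_const, ((mom_dn h).add (h.mul_left 2)).tsum_add (mom_up h),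
    (mom_dn h).tsum_add (h.mul_left 2), tsum_mul_left, e1, e2]
  ring

theorem mom_n1_le {f : ℤ → ℝ} (hf : Summable f) :
    ∑' x, (f (x + 1) - f x) ^ 2 ≤ 4 * ∑' x, f x ^ 2 := by
  have h := mom_sq hf
  have e1 : ∑' x, f (x + 1) ^ 2 = ∑' x, f x ^ 2 :=
    (Equiv.addRight (1 : ℤ)).tsum_eq fun x => f x ^ 2
  have h1 : ∑' x, (f (x + 1) - f x) ^ 2 ≤ ∑' x, 2 * (f (x + 1) ^ 2 + f x ^ 2) :=
    (mom_sq ((mom_up hf).sub hf)).tsum_le_tsum (fun x => by
      nlinarith [sq_nonneg (f (x + 1) + f x)]) (((mom_up h).add h).mul_left 2)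
  refine h1.trans_eq ?_
  rw [tsum_mul_left, (mom_up h).tsum_add h, e1]
  ring

theorem mom_h1 {f g : ℤ → ℝ} (hf : Summable f) (hg : Summable g) :
    h1 (fun x => f x.1 * g x.2) = (∑' x, (f (x + 1) - f x) ^ 2) * (∑' x, g x ^ 2) +
      (∑' x, f x ^ 2) * ∑' x, (g (x + 1) - g x) ^ 2 := by
  have a0 := (mom_sq hf).norm
  have a1 := (mom_sq ((mom_up hf).sub hf)).norm
  have b0 := (mom_sq hg).norm
  have b1 := (mom_sq ((mom_up hg).sub hg)).norm
  rw [tsum_mul_tsum_of_summable_norm a1 b0, tsum_mul_tsum_of_summable_norm a0 b1,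
    ← (summable_mul_of_summable_norm a1 b0).tsum_add (summable_mul_of_summable_norm a0 b1), h1]
  refine tsum_congr fun x => ?_
  simp only [ee, Fin.isValue, Matrix.cons_val_zero, Matrix.cons_val_one, Prod.fst_add,
    Prod.snd_add, add_zero]
  ring

/-- staggered Gaussian with a monomial weight -/
noncomputable def momF (e : ℝ) (k : ℕ) (a : ℝ) (x : ℤ) : ℝ := e ^ x * hk k a x

theorem mom_e {e : ℝ} (he : e = 1 ∨ e = -1) (x : ℤ) : |e ^ x| = 1 := by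
  rcases he with rfl | rfl <;> simp [abs_zpow]

theorem mom_F {e : ℝ} (he : e = 1 ∨ e = -1) (k : ℕ) {a : ℝ} (ha : 0 < a) :
    Summable (momF e k a) :=
  Summable.of_abs ((summable_hk k ha).abs.congr fun x => by rw [momF, abs_mul, mom_e he, one_mul])

theorem mom_one : ∃ C : ℝ, 0 < C ∧ ∀ k ≤ 4, ∀ s : ℝ, 0 < s → s ≤ 1 →
    ((∑' x, k1 (momF 1 k (s ^ 2)) x ^ 2) * s ^ (2 * k + 1) ≤ C ∧
    (∑' x, (k1 (momF 1 k (s ^ 2)) (x + 1) - k1 (momF 1 k (s ^ 2)) x) ^ 2) * s ^ (2 * k + 1) ≤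
      C * s ^ 2) ∧
    (∑' x, k1 (momF (-1) k (s ^ 2)) x ^ 2) * s ^ (2 * k + 1) ≤ C * s ^ 4 ∧
    (∑' x, (k1 (momF (-1) k (s ^ 2)) (x + 1) - k1 (momF (-1) k (s ^ 2)) x) ^ 2) *
      s ^ (2 * k + 1) ≤ C * s ^ 4 := by
  obtain ⟨C, hC, h⟩ := hk_norms
  refine ⟨C, hC, fun k hk4 s hs hs1 => ?_⟩
  obtain ⟨n0, n1, n2⟩ := h k hk4 s hs hs1
  have ha : 0 < s ^ 2 := by positivity
  have hp : 0 ≤ s ^ (2 * k + 1) := by positivity
  have sk := summable_hk k ha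
  have e1 : momF 1 k (s ^ 2) = hk k (s ^ 2) := funext fun x => by simp [momF]
  have e2 : ∑' x, k1 (momF (-1) k (s ^ 2)) x ^ 2 =
      (∑' x, (hk k (s ^ 2) (x + 1) - 2 * hk k (s ^ 2) x + hk k (s ^ 2) (x - 1)) ^ 2) / 16 := by
    rw [← tsum_div_const]
    refine tsum_congr fun x => ?_
    have u : ((-1 : ℝ) ^ x) ^ 2 = 1 := by rw [← sq_abs, mom_e (Or.inr rfl), one_pow]
    simp only [k1, momF]
    rw [zpow_sub₀ (by norm_num), zpow_add₀ (by norm_num), zpow_one]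
    linear_combination
      (hk k (s ^ 2) (x + 1) - 2 * hk k (s ^ 2) x + hk k (s ^ 2) (x - 1)) ^ 2 / 16 * u
  have c4 : 0 ≤ C * s ^ 4 := by positivity
  refine ⟨⟨?_, ?_⟩, ?_, ?_⟩
  · rw [e1]
    exact (mul_le_mul_of_nonneg_right (mom_k1_le sk) hp).trans n0
  · rw [e1]
    refine (mul_le_mul_of_nonneg_right (le_of_eq_of_le (tsum_congr fun x => ?_)
      (mom_k1_le ((mom_up sk).sub sk))) hp).trans n1
    simp only [k1, sub_add_cancel, add_sub_cancel_right]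
    ring
  · rw [e2]
    linarith
  · refine (mul_le_mul_of_nonneg_right (mom_n1_le (mom_k1 (mom_F (Or.inr rfl) k ha))) hp).trans ?_
    rw [e2]
    linarith

/-- The shear used for reindexing. -/
def momShear : ℤ × ℤ ≃ ℤ × ℤ where
  toFun p := (p.2 + p.1, p.2)
  invFun p := (p.1 - p.2, p.2)
  left_inv p := by simp
  right_inv p := by simp

theorem mom_sum2 {f g : ℤ → ℝ} (hf : Summable f) (hg : Summable g) :
    Summable fun p : ℤ × ℤ => f (p.2 + p.1) * g p.2 :=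
  (momShear.summable_iff (f := fun p : ℤ × ℤ => f p.1 * g p.2)).2
    (summable_mul_of_summable_norm hf.norm hg.norm)

/-- correlation of two sequences -/
noncomputable def momC (f g : ℤ → ℝ) (d : ℤ) : ℝ := ∑' y, f (y + d) * g y

theorem mom_auto {e : ℝ} (he : e = 1 ∨ e = -1) {a : ℝ} (ha : 0 < a) (i : ℕ) (d : ℤ) :
    th a * (e ^ d * (d : ℝ) ^ i * Real.exp (-a * (d : ℝ) ^ 2)) = ∑ k ∈ Finset.range (i + 1),
      ((-1) ^ (k + i) * (i.choose k : ℝ)) * momC (momF e k a) (momF e (i - k) a) d := by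
  have e0 : e ≠ 0 := by rcases he with rfl | rfl <;> norm_num
  simp only [momC, ← tsum_mul_left]
  rw [← Summable.tsum_finsetSum fun k _ =>
    ((mom_sum2 (mom_F he k ha) (mom_F he (i - k) ha)).prod_factor d).mul_left _,
    mul_left_comm, ← hk_auto ha, ← tsum_mul_left]
  refine tsum_congr fun y => ?_
  have u : (e ^ y) ^ 2 = 1 := by rw [← sq_abs, mom_e he, one_pow]
  have v : (d : ℝ) = (((y + d : ℤ) : ℝ) - 1 / 4) - ((y : ℝ) - 1 / 4) := by
    push_cast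
    ring
  conv_lhs => rw [v, sub_pow, Finset.mul_sum, Finset.sum_mul]
  refine Finset.sum_congr rfl fun k _ => ?_
  simp only [momF, hk, zpow_add₀ e0]
  linear_combination -(e ^ d * (-1) ^ (k + i) * (((y + d : ℤ) : ℝ) - 1 / 4) ^ k *
    ((y : ℝ) - 1 / 4) ^ (i - k) * (i.choose k : ℝ) *
    Real.exp (-2 * a * (((y + d : ℤ) : ℝ) - 1 / 4) ^ 2) *
    Real.exp (-2 * a * ((y : ℝ) - 1 / 4) ^ 2)) * u

theorem mom_prod {f g : ℤ → ℝ} (hf : Summable f) (hg : Summable g) :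
    Summable fun x : Site => f x.1 * g x.2 := summable_mul_of_summable_norm hf.norm hg.norm

theorem mom_dd {N : Site → ℝ} {C : ℝ} (hb : ∀ d, |N d| ≤ C) {f g f' g' : ℤ → ℝ} (hf : Summable f)
    (hg : Summable g) (hf' : Summable f') (hg' : Summable g') :
    HasSum (fun d : Site => N d * (momC f f' d.1 * momC g g' d.2))
      (dd N (fun x => f x.1 * g x.2) fun x => f' x.1 * g' x.2) := by
  have s1 := mom_sum2 hf hf'
  have s2 := mom_sum2 hg hg'
  have s3 : Summable fun d : Site => momC f f' d.1 * momC g g' d.2 := mom_prod s1.prod s2.prod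
  have s4 : Summable fun d : Site => N d * (momC f f' d.1 * momC g g' d.2) :=
    Summable.of_norm_bounded (s3.abs.mul_left C) fun d => by
      rw [Real.norm_eq_abs, abs_mul]
      exact mul_le_mul_of_nonneg_right (hb d) (abs_nonneg _)
  convert s4.hasSum using 1
  rw [dd_eq_tsum hb (mom_prod hf hg) (mom_prod hf' hg')]
  refine tsum_congr fun d => ?_
  rw [momC, momC, tsum_mul_tsum_of_summable_norm (s1.prod_factor d.1).norm (s2.prod_factor d.2).norm]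
  congr 1
  refine tsum_congr fun y => ?_
  simp only [Prod.fst_add, Prod.snd_add]
  ring

theorem mom_main {N : Site → ℝ} {C : ℝ} (h : NS N C kap 1 3) {e1 e2 : ℝ} (he1 : e1 = 1 ∨ e1 = -1)
    (he2 : e2 = 1 ∨ e2 = -1) (i j : ℕ) {s M : ℝ} (hs : 0 < s) (hM : 0 ≤ M)
    (hb : ∀ k ≤ i, ∀ l ≤ j,
      h1 (fun x => k1 (momF e1 k (s ^ 2)) x.1 * k1 (momF e2 l (s ^ 2)) x.2) *
        (s ^ (2 * k + 1) * s ^ (2 * l + 1)) ≤ M * s ^ (i + j)) :
    (th (s ^ 2) * s) ^ 2 * |ws N e1 e2 i j (s ^ 2)| ≤ 2 ^ (i + j) * (C * M) := by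
  have ha : 0 < s ^ 2 := by positivity
  have hC : 0 ≤ C := (abs_nonneg _).trans (h.bdd 0)
  set D : ℕ → ℕ → ℝ := fun k l => dd N (fun x => momF e1 k (s ^ 2) x.1 * momF e2 l (s ^ 2) x.2)
    fun x => momF e1 (i - k) (s ^ 2) x.1 * momF e2 (j - l) (s ^ 2) x.2 with hD
  have key : th (s ^ 2) ^ 2 * ws N e1 e2 i j (s ^ 2) = ∑ k ∈ Finset.range (i + 1),
      ∑ l ∈ Finset.range (j + 1), (-1) ^ (k + i) * (i.choose k : ℝ) *
        ((-1) ^ (l + j) * (j.choose l : ℝ)) * D k l := by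
    rw [ws, ← tsum_mul_left]
    refine Eq.trans (tsum_congr fun d => ?_) (hasSum_sum fun k _ => hasSum_sum fun l _ =>
      (mom_dd h.bdd (mom_F he1 k ha) (mom_F he2 l ha) (mom_F he1 (i - k) ha)
        (mom_F he2 (j - l) ha)).mul_left
        ((-1) ^ (k + i) * (i.choose k : ℝ) * ((-1) ^ (l + j) * (j.choose l : ℝ)))).tsum_eq
    have := congrArg₂ (fun u v => N d * (u * v)) (mom_auto he1 ha i d.1) (mom_auto he2 ha j d.2)
    rw [Finset.sum_mul_sum] at this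
    simp only [Finset.mul_sum] at this
    rw [mul_add, Real.exp_add]
    refine Eq.trans (by ring) (this.trans ?_)
    exact Finset.sum_congr rfl fun k _ => Finset.sum_congr rfl fun l _ => by ring
  have bd : ∀ k ≤ i, ∀ l ≤ j, s ^ 2 * |D k l| ≤ C * M := fun k hk l hl => by
    have b1 := h.h1b _ _ (mom_prod (mom_F he1 k ha) (mom_F he2 l ha))
      (mom_prod (mom_F he1 (i - k) ha) (mom_F he2 (j - l) ha))
    rw [kap_prod, kap_prod, mul_assoc, ← Real.sqrt_mul (h1_nonneg _)] at b1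
    have b2 := mul_le_mul (hb k hk l hl) (hb (i - k) (Nat.sub_le _ _) (j - l) (Nat.sub_le _ _))
      (mul_nonneg (h1_nonneg _) (by positivity)) (by positivity)
    refine (mul_le_mul_of_nonneg_left b1 ha.le).trans ?_
    clear b1 key hD D
    obtain ⟨k', rfl⟩ := Nat.exists_eq_add_of_le hk
    obtain ⟨l', rfl⟩ := Nat.exists_eq_add_of_le hl
    rw [Nat.add_sub_cancel_left, Nat.add_sub_cancel_left] at b2 ⊢
    rw [mul_mul_mul_comm] at b2
    rw [mul_left_comm]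
    refine mul_le_mul_of_nonneg_left ?_ hC
    generalize h1 _ * h1 _ = H at b2 ⊢
    rw [← Real.sqrt_sq ha.le, ← Real.sqrt_mul (sq_nonneg _)]
    refine Real.sqrt_le_iff.2 ⟨hM, le_of_mul_le_mul_right (le_of_eq_of_le ?_ (b2.trans_eq ?_))
      (show 0 < s ^ (2 * (k + k' + (l + l'))) by positivity)⟩ <;> ring
  rw [mul_pow, mul_comm _ (s ^ 2), mul_assoc, ← abs_of_nonneg (sq_nonneg (th (s ^ 2))), ← abs_mul,
    key, pow_add, ← Nat.cast_two (R := ℝ), ← Nat.cast_pow, ← Nat.cast_pow,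
    ← Nat.sum_range_choose, ← Nat.sum_range_choose, Nat.cast_sum, Nat.cast_sum,
    Finset.sum_mul_sum, Finset.sum_mul]
  refine (mul_le_mul_of_nonneg_left (Finset.abs_sum_le_sum_abs _ _) ha.le).trans ?_
  rw [Finset.mul_sum]
  refine Finset.sum_le_sum fun k hk => ?_
  refine (mul_le_mul_of_nonneg_left (Finset.abs_sum_le_sum_abs _ _) ha.le).trans ?_
  rw [Finset.mul_sum, Finset.sum_mul]
  refine Finset.sum_le_sum fun l hl => ?_
  simp only [abs_mul, abs_pow, abs_neg, abs_one, one_pow, one_mul, Nat.abs_cast]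
  rw [mul_left_comm]
  exact mul_le_mul_of_nonneg_left (bd k (Nat.lt_succ_iff.1 (Finset.mem_range.1 hk)) l
    (Nat.lt_succ_iff.1 (Finset.mem_range.1 hl))) (by positivity)

theorem mom_cross {A0 A1 B0 B1 p q u0 u1 v0 v1 : ℝ} (hp : 0 ≤ p) (hq : 0 ≤ q) (a0 : 0 ≤ A0)
    (a1 : 0 ≤ A1) (b0 : 0 ≤ B0) (b1 : 0 ≤ B1) (h0 : A0 * p ≤ u0) (h1 : A1 * p ≤ u1)
    (k0 : B0 * q ≤ v0) (k1 : B1 * q ≤ v1) : (A1 * B0 + A0 * B1) * (p * q) ≤ u1 * v0 + u0 * v1 := by
  have x := mul_le_mul h1 k0 (by positivity) (le_trans (by positivity) h1)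
  have y := mul_le_mul h0 k1 (by positivity) (le_trans (by positivity) h0)
  linarith

/-- Let `Φ k l x = e1 ^ x.1 * hk k a x.1 * (e2 ^ x.2 * hk l a x.2)`.  By `dd_eq_tsum`, `hk_auto` and
the binomial expansion of `d = (y + d - 1/4) - (y - 1/4)`,
`th a ^ 2 * ws N e1 e2 i j a = ∑ k ≤ i, ∑ l ≤ j, ± binomials * dd N (Φ k l) (Φ (i-k) (j-l))`
(use `e ^ (y + d) * e ^ y = e ^ d` for `e = ± 1`).  By `kap_prod`, `h1 (kap (Φ k l))` is
`A1 * B0 + A0 * B1` with the one dimensional squared norms of `k1 (e ^ x * hk)` and of its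
difference.  For `e = 1`: `A0 ≤ ∑ hk^2`, `A1 ≤ ∑ (∇ hk)^2`.  For `e = -1`:
`k1 ((-1)^x h) x = -(-1)^x (h (x+1) - 2 h x + h (x-1)) / 4`, so `A0 ≤ ∑ (∇² hk)^2 / 16` and
`A1 ≤ 4 A0`.  With `hk_norms`: `h1 ≤ C / s^(2(k+l))` if `e1 = e2 = 1`, and
`h1 ≤ C s^2 / s^(2(k+l))` if `e1 = -1`.  Divide by `th ^ 2 ≥ c^2 / s^2`. -/
theorem ws_bound {N : Site → ℝ} {C : ℝ} (h : NS N C kap 1 3) :
    ∃ C' : ℝ, ∀ s : ℝ, 0 < s → s ≤ 1 → ∀ i j : ℕ,
      (i + j = 2 → |ws N 1 1 i j (s ^ 2)| ≤ C') ∧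
      (i + j = 4 → |ws N (-1) 1 i j (s ^ 2)| ≤ C' ∧ |ws N (-1) (-1) i j (s ^ 2)| ≤ C') := by
  obtain ⟨c, C₁, hc, -, hg⟩ := gauss_sums
  obtain ⟨C₀, hC₀, hn⟩ := mom_one
  have hC : 0 ≤ C := (abs_nonneg _).trans (h.bdd 0)
  refine ⟨16 * (C * (2 * C₀ ^ 2)) / c ^ 2, fun s hs hs1 i j => ?_⟩
  have ha : 0 < s ^ 2 := by positivity
  have fin : ∀ w : ℝ, i + j ≤ 4 →
      (th (s ^ 2) * s) ^ 2 * |w| ≤ 2 ^ (i + j) * (C * (2 * C₀ ^ 2)) →
      |w| ≤ 16 * (C * (2 * C₀ ^ 2)) / c ^ 2 := fun w hij hw => by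
    rw [le_div_iff₀' (by positivity)]
    refine (mul_le_mul_of_nonneg_right (pow_le_pow_left₀ hc.le (hg s hs hs1).1 2)
      (abs_nonneg _)).trans (hw.trans (mul_le_mul_of_nonneg_right ?_ (by positivity)))
    exact (pow_le_pow_right₀ one_le_two hij).trans_eq (by norm_num)
  have nn : ∀ f : ℤ → ℝ, 0 ≤ ∑' x, f x ^ 2 := fun f => tsum_nonneg fun x => sq_nonneg _
  have p1 : (1 : ℝ) = 1 ∨ (1 : ℝ) = -1 := Or.inl rfl
  have m1 : (-1 : ℝ) = 1 ∨ (-1 : ℝ) = -1 := Or.inr rfl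
  have s2 : s ^ 2 ≤ 1 := pow_le_one₀ hs.le hs1
  have s4 : s ^ 4 ≤ 1 := pow_le_one₀ hs.le hs1
  have c4 : 0 ≤ C₀ ^ 2 * s ^ 4 := by positivity
  refine ⟨fun hij => ?_, fun hij => ⟨?_, ?_⟩⟩
  · refine fin _ (by omega) (mom_main h p1 p1 i j hs (by positivity) fun k hk l hl => ?_)
    have a := (hn k (by omega) s hs hs1).1
    have b := (hn l (by omega) s hs hs1).1
    rw [mom_h1 (mom_k1 (mom_F p1 k ha)) (mom_k1 (mom_F p1 l ha)), hij]
    exact (mom_cross (by positivity) (by positivity) (nn _) (nn _) (nn _) (nn _) a.1 a.2 b.1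
      b.2).trans_eq (by ring)
  · refine fin _ (by omega) (mom_main h m1 p1 i j hs (by positivity) fun k hk l hl => ?_)
    have a := (hn k (by omega) s hs hs1).2
    have b := (hn l (by omega) s hs hs1).1
    rw [mom_h1 (mom_k1 (mom_F m1 k ha)) (mom_k1 (mom_F p1 l ha)), hij]
    refine (mom_cross (by positivity) (by positivity) (nn _) (nn _) (nn _) (nn _) a.1 a.2 b.1
      b.2).trans ?_
    linarith [mul_le_of_le_one_right c4 s2]
  · refine fin _ (by omega) (mom_main h m1 m1 i j hs (by positivity) fun k hk l hl => ?_)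
    have a := (hn k (by omega) s hs hs1).2
    have b := (hn l (by omega) s hs hs1).2
    rw [mom_h1 (mom_k1 (mom_F m1 k ha)) (mom_k1 (mom_F m1 l ha)), hij]
    refine (mom_cross (by positivity) (by positivity) (nn _) (nn _) (nn _) (nn _) a.1 a.2 b.1
      b.2).trans ?_
    linarith [mul_le_of_le_one_right c4 s4]

end Vale.Agent.P163
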