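import Vale.Agent.P163.Mom

open Filter Topology

namespace Vale.Agent.P163

variable {N : Site → ℝ} {C : ℝ}

theorem PosA_tsum (k : ℤ) {f : Site → ℝ} (h : ∀ x : Site, x.1 ≠ k → f x = 0) :
    ∑' x, f x = ∑' y : ℤ, f (k, y) :=
  ((Prod.mk_right_injective k).tsum_eq fun x hx => ⟨x.2, by
    by_contra h1
    exact hx (h x fun h2 => h1 (by rw [← h2]))⟩).symm

theorem PosA_summable {a : ℝ} (ha : 0 < a) (k t : ℤ) :
    Summable fun x : Site => if x.1 = k then hk 0 a (x.2 - t) else 0 := by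
  refine ((Prod.mk_right_injective k).summable_iff fun x hx => if_neg fun h => hx ⟨x.2, ?_⟩).1 ?_
  · rw [← h]
  · simpa [Function.comp_def] using (Equiv.subRight t).summable_iff.2 (summable_hk 0 ha)

/-- the column function: `dd` of `δ_k ⊗ g` with the reflection of `δ_k' ⊗ g`; use `dd_eq_tsum`,
`hk_auto` -/
theorem dd_col (hb : ∀ d, |N d| ≤ C) {a : ℝ} (ha : 0 < a) (k k' t : ℤ) :
    dd N (fun x => if x.1 = k then hk 0 a (x.2 - t) else 0)
      ((fun x : Site => if x.1 = k' then hk 0 a (x.2 - t) else 0) ∘ rho) =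
      th a * ∑' y : ℤ, N (k + k' + 1, y) * Real.exp (-a * (y : ℝ) ^ 2) := by
  rw [dd_eq_tsum hb (PosA_summable ha k t) (summable_rho (PosA_summable ha k' t))]
  have h1 : ∀ d : Site, ∑' y : Site, (if (y + d).1 = k then hk 0 a ((y + d).2 - t) else 0) *
      ((fun x : Site => if x.1 = k' then hk 0 a (x.2 - t) else 0) ∘ rho) y =
      if d.1 = k + k' + 1 then th a * Real.exp (-a * (d.2 : ℝ) ^ 2) else 0 := fun d => by
    simp only [Function.comp]
    rw [PosA_tsum (-1 - k') fun x hx => mul_eq_zero_of_right _ (if_neg fun h => hx (by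
      simp only [rho] at h; omega))]
    by_cases h : d.1 = k + k' + 1
    · rw [if_pos h, ← hk_auto ha, ← (Equiv.addRight t).tsum_eq]
      refine tsum_congr fun y => ?_
      rw [if_pos (by simp only [Prod.fst_add]; omega), if_pos (by simp only [rho]; omega)]
      simp only [rho, Prod.snd_add, Equiv.coe_addRight]
      congr 2 <;> ring
    · rw [if_neg h, tsum_congr fun y => mul_eq_zero_of_left (if_neg (by
        simp only [Prod.fst_add]; omega)) _, tsum_zero]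
  simp only [h1]
  rw [PosA_tsum (k + k' + 1) fun x hx => by rw [if_neg hx, mul_zero], ← tsum_mul_left]
  exact tsum_congr fun y => by rw [if_pos rfl]; ring

theorem th_pos {a : ℝ} (ha : 0 < a) : 0 < th a := by
  refine Summable.tsum_pos ((summable_hk 0 (a := 2 * a) (by positivity)).congr fun x => ?_)
    (fun _ => (Real.exp_pos _).le) 0 (Real.exp_pos _)
  rw [hk, pow_zero, one_mul]
  congr 1; ring

theorem PosA_dd (hb : ∀ d, |N d| ≤ C) {a : ℝ} (ha : 0 < a) {k k' : ℤ} {m : ℕ}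
    (h : k + k' = 2 * m) : dd N (fun x => if x.1 = k then hk 0 a (x.2 - 0) else 0)
      ((fun x : Site => if x.1 = k' then hk 0 a (x.2 - 0) else 0) ∘ rho) = th a * qq N m a := by
  rw [dd_col hb ha, h, qq]

theorem PosA_supp {a : ℝ} {k : ℤ} (hk1 : 1 ≤ k) (x : Site)
    (hx : (if x.1 = k then hk 0 a (x.2 - 0) else 0) ≠ 0) : 1 ≤ x.1 := by
  by_contra h
  exact hx (if_neg (by omega))

theorem qq_nonneg (h : NS N C kap 1 3) {a : ℝ} (ha : 0 < a) (k : ℕ) (hk1 : 1 ≤ k) :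
    0 ≤ qq N k a := by
  have h1 := h.rp1 _ (PosA_summable ha k 0) (PosA_supp (by omega))
  rw [PosA_dd h.bdd ha (m := k) (by ring)] at h1
  exact nonneg_of_mul_nonneg_right h1 (th_pos ha)

theorem PosA_g {a : ℝ} (ha : 0 < a) : Summable fun y : ℤ => Real.exp (-a * (y : ℝ) ^ 2) := by
  simpa using summable_gauss ha 0

theorem PosA_bd (hb : ∀ d, |N d| ≤ C) {a : ℝ} (ha : 0 < a) (t : ℤ) :
    |∑' y : ℤ, N (t, y) * Real.exp (-a * (y : ℝ) ^ 2)| ≤
      C * ∑' y : ℤ, Real.exp (-a * (y : ℝ) ^ 2) :=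
  tsum_of_norm_bounded (f := fun y : ℤ => N (t, y) * Real.exp (-a * (y : ℝ) ^ 2))
    ((PosA_g ha).hasSum.mul_left C) fun y => by
    rw [norm_mul, Real.norm_of_nonneg (Real.exp_pos _).le]
    exact mul_le_mul_of_nonneg_right (hb _) (Real.exp_pos _).le

theorem PosA_step (h : NS N C kap 1 3) {a : ℝ} (ha : 0 < a) (k : ℕ) (hk1 : 1 ≤ k) :
    qq N (k + 1) a ≤ qq N k a := by
  have cv : ∀ j : ℕ, 1 ≤ j → 2 * qq N (j + 1) a ≤ qq N j a + qq N (j + 2) a := fun j hj => by
    have h1 := h.rp_cs (PosA_summable ha j 0) (PosA_summable ha (j + 2) 0)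
      (PosA_supp (by omega)) (PosA_supp (by omega))
    rw [PosA_dd h.bdd ha (m := j + 1) (by push_cast; ring), PosA_dd h.bdd ha (m := j) (by ring),
      PosA_dd h.bdd ha (m := j + 2) (by push_cast; ring)] at h1
    have h2 : qq N (j + 1) a ^ 2 ≤ qq N j a * qq N (j + 2) a :=
      le_of_mul_le_mul_left (a := th a ^ 2) (by linarith) (pow_pos (th_pos ha) 2)
    have h3 := qq_nonneg h ha j hj
    have h4 := qq_nonneg h ha (j + 2) (by omega)
    exact abs_le_of_sq_le_sq' (by nlinarith [sq_nonneg (qq N j a - qq N (j + 2) a)])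
      (by linarith) |>.2
  by_contra hn
  push Not at hn
  have h1 : ∀ m : ℕ, qq N (k + 1) a - qq N k a ≤ qq N (k + m + 1) a - qq N (k + m) a ∧
      m * (qq N (k + 1) a - qq N k a) ≤ qq N (k + m) a := fun m => by
    induction m with
    | zero => simpa using qq_nonneg h ha k hk1
    | succ m ih =>
      have := cv (k + m) (by omega)
      rw [← add_assoc]
      push_cast
      constructor <;> linarith [ih.1, ih.2]
  obtain ⟨m, hm⟩ := exists_nat_gt ((C * ∑' y : ℤ, Real.exp (-a * (y : ℝ) ^ 2)) /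
    (qq N (k + 1) a - qq N k a))
  rw [div_lt_iff₀ (sub_pos.2 hn)] at hm
  exact absurd ((h1 m).2.trans ((le_abs_self _).trans (PosA_bd h.bdd ha _))) (not_le.2 hm)

/-- `qq (k+1) ^ 2 ≤ qq k * qq (k+2)` by `NS.rp_cs` for the columns `k`, `k + 2`; a bounded,
nonnegative, log convex sequence is nonincreasing -/
theorem qq_anti (h : NS N C kap 1 3) {a : ℝ} (ha : 0 < a) (k k' : ℕ) (hk1 : 1 ≤ k) (hk : k ≤ k') :
    qq N k' a ≤ qq N k a := by
  induction k', hk using Nat.le_induction with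
  | base => exact le_rfl
  | succ m hm ih => exact (PosA_step h ha m (by omega)).trans ih

/-- column contribution -/
noncomputable def PosA_G (N : Site → ℝ) (a : ℝ) (t : ℤ) : ℝ :=
  (t : ℝ) ^ 4 * Real.exp (-a * (t : ℝ) ^ 2) * ∑' y : ℤ, N (t, y) * Real.exp (-a * (y : ℝ) ^ 2)

theorem PosA_G_summable (hb : ∀ d, |N d| ≤ C) {a : ℝ} (ha : 0 < a) : Summable (PosA_G N a) := by
  refine .of_norm_bounded ((summable_gauss ha 4).mul_right
    (C * ∑' y : ℤ, Real.exp (-a * (y : ℝ) ^ 2))) fun t => ?_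
  rw [PosA_G, norm_mul, norm_mul, norm_pow, Real.norm_of_nonneg (Real.exp_pos _).le]
  exact mul_le_mul_of_nonneg_left (PosA_bd hb ha t) (by positivity)

theorem PosA_G_odd (a : ℝ) (k : ℕ) : PosA_G N a ((2 * (k + 1) + 1 : ℕ) : ℤ) =
    (2 * (k : ℝ) + 3) ^ 4 * Real.exp (-a * (2 * (k : ℝ) + 3) ^ 2) * qq N (k + 1) a := by
  simp only [PosA_G, qq]
  push_cast
  congr 2
  · ring
  · congr 1; ring

theorem p1_summable (h : NS N C kap 1 3) {a : ℝ} (ha : 0 < a) :
    Summable fun k : ℕ =>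
      (2 * (k : ℝ) + 3) ^ 4 * Real.exp (-a * (2 * (k : ℝ) + 3) ^ 2) * qq N (k + 1) a :=
  ((PosA_G_summable h.bdd ha).comp_injective (i := fun k : ℕ => ((2 * (k + 1) + 1 : ℕ) : ℤ))
    fun k l hkl => by simp only at hkl; omega).congr (PosA_G_odd a)

theorem PosA_ws (hb : ∀ d, |N d| ≤ C) {a : ℝ} (ha : 0 < a) {e : ℝ} (he : |e| = 1) :
    ws N e 1 4 0 a = ∑' t : ℤ, e ^ t * PosA_G N a t := by
  rw [ws, Summable.tsum_prod]
  · refine tsum_congr fun t => ?_
    rw [PosA_G, ← tsum_mul_left, ← tsum_mul_left]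
    refine tsum_congr fun y => ?_
    simp only [one_zpow, pow_zero, mul_add, Real.exp_add]
    ring
  · refine .of_norm_bounded ((summable_gauss2 ha 4 0).mul_left C) fun d => ?_
    simp only [norm_mul, norm_zpow, norm_pow, Real.norm_eq_abs, he, abs_one, one_zpow, one_mul,
      abs_of_pos (Real.exp_pos _)]
    exact mul_le_mul_of_nonneg_right (hb _) (by positivity)

theorem PosA_split (h : NS N C kap 1 3) {a : ℝ} (ha : 0 < a) :
    ws N 1 1 4 0 a - ws N (-1) 1 4 0 a = 4 * PosA_G N a 1 + 4 * p1 N a := by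
  have hG := PosA_G_summable h.bdd ha
  have hs : ∀ e : ℝ, |e| = 1 → Summable fun t : ℤ => e ^ t * PosA_G N a t := fun e he =>
    .of_norm_bounded hG.norm fun t => by simp [he]
  have ev : ∀ t, PosA_G N a (-t) = PosA_G N a t := fun t => by
    have : ∀ y, N (-t, y) = N (t, y) := fun y => h.flip (t, y)
    simp only [PosA_G, this, Int.cast_neg, neg_sq, Even.neg_pow (by decide : Even 4)]
  have h1 := tsum_nat_add_neg ((hs 1 abs_one).sub (hs (-1) (by simp)))
  have hi : Function.Injective fun k : ℕ => 2 * k + 1 := fun k l hkl => by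
    simp only at hkl; omega
  rw [← hi.tsum_eq] at h1
  · have h2 : ∀ k : ℕ, (1 : ℝ) ^ ((2 * k + 1 : ℕ) : ℤ) * PosA_G N a (2 * k + 1 : ℕ) -
        (-1) ^ ((2 * k + 1 : ℕ) : ℤ) * PosA_G N a (2 * k + 1 : ℕ) +
        (1 ^ (-((2 * k + 1 : ℕ) : ℤ)) * PosA_G N a (-(2 * k + 1 : ℕ)) -
        (-1) ^ (-((2 * k + 1 : ℕ) : ℤ)) * PosA_G N a (-(2 * k + 1 : ℕ))) =
        4 * PosA_G N a (2 * k + 1 : ℕ) := fun k => by
      rw [ev, zpow_neg, zpow_neg, zpow_natCast, zpow_natCast, Odd.neg_one_pow ⟨k, rfl⟩]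
      norm_num
      ring
    simp only [h2] at h1
    have h3 : Summable fun k : ℕ => PosA_G N a (2 * k + 1 : ℕ) :=
      hG.comp_injective fun k l hkl => by omega
    rw [tsum_mul_left, h3.tsum_eq_zero_add, (hs 1 abs_one).tsum_sub (hs (-1) (by simp))] at h1
    simp only [PosA_G_odd] at h1
    rw [PosA_ws h.bdd ha abs_one, PosA_ws h.bdd ha (e := -1) (by simp), p1]
    norm_num at h1 ⊢
    linarith
  · intro n hn
    rcases Nat.even_or_odd n with he | ⟨k, hk⟩
    · exact absurd (by simp [he.neg_one_pow]) hn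
    · exact ⟨k, hk.symm⟩

/-- `1 = 2 * [t odd] + (-1)^t`, so `ws 1 1 4 0 = 2 * (odd columns) + ws (-1) 1 4 0`, the odd
columns are `2 * p1 + 2 * exp (-a) * qq 0` by `flip`, and `|qq 0| ≤ C * C'' / s`. -/
theorem col_bound (h : NS N C kap 1 3) : ∃ C' : ℝ, ∀ s : ℝ, 0 < s → s ≤ 1 →
    4 * p1 N (s ^ 2) ≤ ws N 1 1 4 0 (s ^ 2) + C' / s := by
  obtain ⟨A, hA⟩ := ws_bound h
  obtain ⟨c, B, -, -, hB⟩ := gauss_sums
  have C0 : 0 ≤ C := (abs_nonneg _).trans (h.bdd 0)
  refine ⟨A + 4 * (C * B), fun s hs hs1 => ?_⟩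
  have ha : 0 < s ^ 2 := by positivity
  have h1 := ((hA s hs hs1 4 0).2 rfl).1
  have h2 := PosA_split h ha
  have h3 : |PosA_G N (s ^ 2) 1| ≤ C * B / s := by
    rw [PosA_G, abs_mul, mul_div_assoc]
    refine (mul_le_of_le_one_left (abs_nonneg _) ?_).trans ((PosA_bd h.bdd ha 1).trans
      (mul_le_mul_of_nonneg_left ((le_div_iff₀ hs).2 (hB s hs hs1).2.2.2.2) C0))
    simp [abs_of_pos (Real.exp_pos _), ha.le]
  have h4 : A ≤ A / s := le_div_self ((abs_nonneg _).trans h1) hs hs1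
  rw [add_div, mul_div_assoc]
  linarith [(abs_le.1 h1).1, (abs_le.1 h3).1]

end Vale.Agent.P163
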