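import Vale.Agent.P163.Mom

open Filter Topology

namespace Vale.Agent.P163

variable {N : Site → ℝ} {C : ℝ}

theorem PosB_th_pos {a : ℝ} (ha : 0 < a) : 0 < th a := by
  have h1 : Summable (hk 0 (2 * a)) := summable_hk 0 (by positivity)
  have h2 : (fun x : ℤ => Real.exp (-4 * a * ((x : ℝ) - 1 / 4) ^ 2)) = hk 0 (2 * a) := by
    funext x
    simp only [hk, pow_zero, one_mul]
    congr 1
    ring
  unfold th
  rw [h2]
  refine h1.tsum_pos (fun x => ?_) 0 ?_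
  · simp only [hk, pow_zero, one_mul]; exact (Real.exp_pos _).le
  · simp only [hk, pow_zero, one_mul]; exact Real.exp_pos _

/-- the Gaussian on a diagonal -/
noncomputable def PosB_ph (a : ℝ) (τ : ℤ) (x : Site) : ℝ :=
  if x.1 - x.2 = τ then hk 0 a x.2 else 0

theorem PosB_summable {a : ℝ} (ha : 0 < a) (τ : ℤ) : Summable (PosB_ph a τ) := by
  have hi : Function.Injective fun t : ℤ => ((t + τ, t) : Site) := fun t t' h =>
    (Prod.ext_iff.1 h).2
  rw [← hi.summable_iff]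
  · refine (summable_hk 0 ha).congr fun t => ?_
    simp [PosB_ph]
  · intro x hx
    refine if_neg fun h => hx ⟨x.2, ?_⟩
    ext
    · show x.2 + τ = x.1
      omega
    · rfl

theorem PosB_sw_summable {φ : Site → ℝ} (hφ : Summable φ) : Summable (φ ∘ sw) :=
  (Equiv.prodComm ℤ ℤ).summable_iff.2 hφ

theorem PosB_inner {a : ℝ} (ha : 0 < a) (τ : ℤ) (d : Site) :
    ∑' y, PosB_ph a τ (y + d) * (PosB_ph a τ ∘ sw) y =
      if d.1 - d.2 = 2 * τ then th a * Real.exp (-a * ((τ + d.2 : ℤ) : ℝ) ^ 2) else 0 := by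
  have hi : Function.Injective fun t : ℤ => ((t, t + τ) : Site) := fun t t' h =>
    (Prod.ext_iff.1 h).1
  rw [← hi.tsum_eq]
  · split_ifs with h
    · rw [← hk_auto ha]
      refine tsum_congr fun t => ?_
      have h1 : t + d.1 - (t + (τ + d.2)) = τ := by omega
      simp only [PosB_ph, sw, Function.comp, Prod.fst_add, Prod.snd_add, h1, if_true,
        add_sub_cancel_left, add_assoc]
    · refine (tsum_congr fun t => ?_).trans tsum_zero
      have h1 : ¬ (t + d.1 - (t + τ + d.2) = τ) := by omega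
      simp only [PosB_ph, Prod.fst_add, Prod.snd_add, h1, if_false, zero_mul]
  · intro y hy
    have h1 : (PosB_ph a τ ∘ sw) y ≠ 0 := right_ne_zero_of_mul hy
    have h2 : y.2 - y.1 = τ := by
      by_contra h
      exact h1 (if_neg h)
    refine ⟨y.1, ?_⟩
    ext
    · rfl
    · show y.1 + τ = y.2
      omega

/-- `rp2` for `φ x = if x.1 - x.2 = τ then hk 0 (2 a) x.2 else 0`, with `hk_auto` -/
theorem diag_nonneg (h : NS N C kap 1 3) {a : ℝ} (ha : 0 < a) (τ : ℤ) (hτ : 3 ≤ τ) :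
    0 ≤ ∑' s : ℤ, N (τ + s, s - τ) * Real.exp (-(2 * a) * (s : ℝ) ^ 2) := by
  have ha2 : 0 < 2 * a := by positivity
  have hs := PosB_summable ha2 τ
  have h1 := h.rp2 (PosB_ph (2 * a) τ) hs fun x hx => by
    have h2 : x.1 - x.2 = τ := by
      by_contra h
      exact hx (if_neg h)
    omega
  rw [dd_eq_tsum h.bdd hs (PosB_sw_summable hs)] at h1
  simp only [PosB_inner ha2] at h1
  have hi : Function.Injective fun s : ℤ => ((τ + s, s - τ) : Site) := fun t t' h =>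
    add_left_cancel (Prod.ext_iff.1 h).1
  rw [← hi.tsum_eq] at h1
  · have h3 : ∀ s : ℤ, N (τ + s, s - τ) * (if τ + s - (s - τ) = 2 * τ then
        th (2 * a) * Real.exp (-(2 * a) * ((τ + (s - τ) : ℤ) : ℝ) ^ 2) else 0) =
        th (2 * a) * (N (τ + s, s - τ) * Real.exp (-(2 * a) * (s : ℝ) ^ 2)) := by
      intro s
      rw [if_pos (by ring), add_sub_cancel]
      ring
    simp only [h3] at h1
    rw [tsum_mul_left] at h1
    exact (mul_nonneg_iff_of_pos_left (PosB_th_pos ha2)).1 h1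
  · intro d hd
    have h2 : d.1 - d.2 = 2 * τ := by
      by_contra h
      exact right_ne_zero_of_mul hd (if_neg h)
    refine ⟨τ + d.2, ?_⟩
    ext
    · show τ + (τ + d.2) = d.1
      omega
    · show τ + d.2 - τ = d.2
      omega

theorem PosB_mono (hb : ∀ d, |N d| ≤ C) {a : ℝ} (ha : 0 < a) (i j : ℕ) (u : Site → ℝ)
    (hu : ∀ d, |u d| ≤ 1) : Summable fun d : Site => N d * (u d * ((d.1 : ℝ) ^ i * (d.2 : ℝ) ^ j) *
      Real.exp (-a * ((d.1 : ℝ) ^ 2 + (d.2 : ℝ) ^ 2))) := by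
  refine Summable.of_norm_bounded ((summable_gauss2 ha i j).mul_left C) fun d => ?_
  have hC : 0 ≤ C := (abs_nonneg _).trans (hb d)
  rw [Real.norm_eq_abs, abs_mul, abs_mul, abs_mul, abs_mul, abs_pow, abs_pow,
    abs_of_pos (Real.exp_pos _)]
  refine mul_le_mul (hb d) ?_ (by positivity) hC
  refine mul_le_mul_of_nonneg_right ?_ (Real.exp_pos _).le
  exact mul_le_of_le_one_left (by positivity) (hu d)

theorem PosB_exp (hb : ∀ d, |N d| ≤ C) {a : ℝ} (ha : 0 < a) (e : ℝ) (he : |e| = 1) :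
    HasSum (fun d : Site => N d * (e ^ d.1 * e ^ d.2 * ((d.1 : ℝ) - d.2) ^ 4 *
      Real.exp (-a * ((d.1 : ℝ) ^ 2 + (d.2 : ℝ) ^ 2))))
      (ws N e e 4 0 a - 4 * ws N e e 3 1 a + 6 * ws N e e 2 2 a - 4 * ws N e e 1 3 a +
        ws N e e 0 4 a) := by
  have hu : ∀ d : Site, |e ^ d.1 * e ^ d.2| ≤ 1 := fun d => by
    rw [abs_mul, abs_zpow, abs_zpow, he, one_zpow, one_zpow, mul_one]
  have h := (((((PosB_mono hb ha 4 0 _ hu).hasSum.sub
    ((PosB_mono hb ha 3 1 _ hu).hasSum.mul_left 4)).add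
    ((PosB_mono hb ha 2 2 _ hu).hasSum.mul_left 6)).sub
    ((PosB_mono hb ha 1 3 _ hu).hasSum.mul_left 4)).add (PosB_mono hb ha 0 4 _ hu).hasSum)
  refine HasSum.congr_fun h fun d => ?_
  ring

theorem PosB_par (d : Site) (x : ℝ) :
    x = 2 * (if Even (d.1 - d.2) then x else 0) - (-1 : ℝ) ^ d.1 * (-1 : ℝ) ^ d.2 * x := by
  have h0 : (-1 : ℝ) ^ d.1 * (-1 : ℝ) ^ d.2 = (-1 : ℝ) ^ (d.1 + d.2) :=
    (zpow_add₀ (by norm_num) _ _).symm
  rw [h0]
  split_ifs with h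
  · have h1 : Even (d.1 + d.2) := by
      rw [Int.even_add]; exact Int.even_sub.1 h
    rw [h1.neg_one_zpow]; ring
  · have h1 : Odd (d.1 + d.2) := by
      rw [← Int.not_even_iff_odd, Int.even_add]; exact fun h' => h (Int.even_sub.2 h')
    rw [h1.neg_one_zpow]; ring

theorem PosB_even {F : Site → ℝ} (hF : Summable F) :
    (Summable fun τ : ℤ => ∑' s : ℤ, F (τ + s, s - τ)) ∧
    ∑' d : Site, (if Even (d.1 - d.2) then F d else 0) = ∑' τ : ℤ, ∑' s : ℤ, F (τ + s, s - τ) := by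
  have hi : Function.Injective fun p : ℤ × ℤ => ((p.1 + p.2, p.2 - p.1) : Site) := by
    intro p q h
    have h1 : p.1 + p.2 = q.1 + q.2 := (Prod.ext_iff.1 h).1
    have h2 : p.2 - p.1 = q.2 - q.1 := (Prod.ext_iff.1 h).2
    ext <;> omega
  have hs : Summable fun p : ℤ × ℤ => F (p.1 + p.2, p.2 - p.1) := hF.comp_injective hi
  refine ⟨hs.prod, ?_⟩
  rw [← hs.tsum_prod, ← hi.tsum_eq]
  · refine tsum_congr fun p => if_pos ⟨p.1, ?_⟩
    show p.1 + p.2 - (p.2 - p.1) = p.1 + p.1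
    ring
  · intro d hd
    have h1 : Even (d.1 - d.2) := by
      by_contra h
      exact hd (if_neg h)
    obtain ⟨τ, hτ⟩ := h1
    refine ⟨(τ, τ + d.2), ?_⟩
    ext
    · show τ + (τ + d.2) = d.1
      omega
    · show τ + d.2 - τ = d.2
      omega

theorem PosB_q (hb : ∀ d, |N d| ≤ C) {a : ℝ} (ha : 0 < a) (τ : ℤ) :
    |∑' s : ℤ, N (τ + s, s - τ) * Real.exp (-(2 * a) * (s : ℝ) ^ 2)| ≤
      C * ∑' y : ℤ, Real.exp (-a * (y : ℝ) ^ 2) := by
  have h1 : Summable fun y : ℤ => Real.exp (-a * (y : ℝ) ^ 2) := by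
    simpa using summable_gauss ha 0
  rw [← tsum_mul_left, ← Real.norm_eq_abs]
  refine tsum_of_norm_bounded (h1.mul_left C).hasSum fun y => ?_
  rw [Real.norm_eq_abs, abs_mul, abs_of_pos (Real.exp_pos _)]
  refine mul_le_mul (hb _) (Real.exp_le_exp.2 ?_) (Real.exp_pos _).le
    ((abs_nonneg _).trans (hb 0))
  nlinarith [mul_nonneg ha.le (sq_nonneg (y : ℝ))]

/-- `1 = 2 * [v even] - (-1)^v` for `v = d.1 - d.2`.  The staggered sum is a combination of
`ws N (-1) (-1) i (4 - i)`.  The even part is the sum over `τ` of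
` (2τ)^4 exp (-2 a τ^2)` times the sum in `diag_nonneg`; `τ ≤ -3`
reduces to `τ ≥ 3` by `swap`, and the five terms `|τ| ≤ 2` are `O (1 / s)`. -/
theorem diag_bound (h : NS N C kap 1 3) : ∃ C' : ℝ, ∀ s : ℝ, 0 < s → s ≤ 1 →
    -(C' / s) ≤ ∑' d : Site, N d * (((d.1 : ℝ) - d.2) ^ 4 *
      Real.exp (-(s ^ 2) * ((d.1 : ℝ) ^ 2 + (d.2 : ℝ) ^ 2))) := by
  obtain ⟨C₁, h1⟩ := ws_bound h
  obtain ⟨c, C₂, -, hC₂, h2⟩ := gauss_sums
  have hC : 0 ≤ C := (abs_nonneg _).trans (h.bdd 0)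
  refine ⟨2 * (5 * (256 * (C * C₂))) + 16 * C₁, fun s hs hs1 => ?_⟩
  have ha : 0 < s ^ 2 := by positivity
  set F : Site → ℝ := fun d => N d * (((d.1 : ℝ) - d.2) ^ 4 *
    Real.exp (-(s ^ 2) * ((d.1 : ℝ) ^ 2 + (d.2 : ℝ) ^ 2))) with hFd
  have hF : Summable F := by
    refine (PosB_exp h.bdd ha 1 abs_one).summable.congr fun d => ?_
    simp only [hFd, one_zpow, one_mul]
  have hst := PosB_exp h.bdd ha (-1) (by simp)
  have hev : Summable fun d : Site => if Even (d.1 - d.2) then F d else 0 := by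
    refine Summable.of_norm_bounded hF.norm fun d => ?_
    split_ifs
    · exact le_rfl
    · simp
  have e1 : ∑' d, F d = 2 * (∑' d : Site, if Even (d.1 - d.2) then F d else 0) -
      (ws N (-1) (-1) 4 0 (s ^ 2) - 4 * ws N (-1) (-1) 3 1 (s ^ 2) +
        6 * ws N (-1) (-1) 2 2 (s ^ 2) - 4 * ws N (-1) (-1) 1 3 (s ^ 2) +
        ws N (-1) (-1) 0 4 (s ^ 2)) := by
    rw [← ((hev.hasSum.mul_left 2).sub hst).tsum_eq]
    refine tsum_congr fun d => ?_
    refine (PosB_par d (F d)).trans ?_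
    simp only [hFd]
    ring
  obtain ⟨hs2, e2⟩ := PosB_even hF
  have e3 : ∀ τ : ℤ, ∑' t : ℤ, F (τ + t, t - τ) =
      (2 * (τ : ℝ)) ^ 4 * Real.exp (-(2 * s ^ 2) * (τ : ℝ) ^ 2) *
        ∑' t : ℤ, N (τ + t, t - τ) * Real.exp (-(2 * s ^ 2) * (t : ℝ) ^ 2) := by
    intro τ
    rw [← tsum_mul_left]
    refine tsum_congr fun t => ?_
    have h3 : Real.exp (-(s ^ 2) * (((τ : ℝ) + t) ^ 2 + ((t : ℝ) - τ) ^ 2)) =
        Real.exp (-(2 * s ^ 2) * (τ : ℝ) ^ 2) * Real.exp (-(2 * s ^ 2) * (t : ℝ) ^ 2) := by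
      rw [← Real.exp_add]
      congr 1
      ring
    simp only [hFd, Int.cast_add, Int.cast_sub, h3]
    ring
  have hpos : ∀ τ : ℤ, τ ∉ Finset.Icc (-2 : ℤ) 2 → 0 ≤ ∑' t : ℤ, F (τ + t, t - τ) := by
    intro τ hτ
    rw [e3]
    refine mul_nonneg (by positivity) ?_
    rw [Finset.mem_Icc] at hτ
    rcases le_or_gt 3 τ with h3 | h3
    · exact diag_nonneg h ha τ h3
    · refine (diag_nonneg h ha (-τ) (by omega)).trans (le_of_eq (tsum_congr fun t => ?_))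
      rw [← h.swap]
      simp only [sw, sub_neg_eq_add, add_comm t τ, neg_add_eq_sub]
  have hlow : ∀ τ ∈ Finset.Icc (-2 : ℤ) 2,
      -(256 * (C * C₂) / s) ≤ ∑' t : ℤ, F (τ + t, t - τ) := by
    intro τ hτ
    rw [e3]
    rw [Finset.mem_Icc] at hτ
    have h3 : (-2 : ℝ) ≤ τ := by exact_mod_cast hτ.1
    have h4 : (τ : ℝ) ≤ 2 := by exact_mod_cast hτ.2
    have h5 : (2 * (τ : ℝ)) ^ 4 ≤ 256 := by
      have h6 : (2 * (τ : ℝ)) ^ 2 ≤ 16 := by nlinarith
      nlinarith [sq_nonneg (2 * (τ : ℝ))]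
    have h6 : Real.exp (-(2 * s ^ 2) * (τ : ℝ) ^ 2) ≤ 1 :=
      Real.exp_le_one_iff.2 (by nlinarith [mul_nonneg ha.le (sq_nonneg (τ : ℝ))])
    have h7 : (2 * (τ : ℝ)) ^ 4 * Real.exp (-(2 * s ^ 2) * (τ : ℝ) ^ 2) ≤ 256 :=
      (mul_le_of_le_one_right (by positivity) h6).trans h5
    have h8 : (∑' y : ℤ, Real.exp (-(s ^ 2) * (y : ℝ) ^ 2)) ≤ C₂ / s :=
      (le_div_iff₀ hs).2 (h2 s hs hs1).2.2.2.2
    have h9 := (PosB_q h.bdd ha τ).trans (mul_le_mul_of_nonneg_left h8 hC)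
    refine neg_le_of_abs_le ?_
    rw [abs_mul, abs_of_nonneg (by positivity), mul_div_assoc, mul_div_assoc]
    exact mul_le_mul h7 h9 (abs_nonneg _) (by norm_num)
  have e4 : -(5 * (256 * (C * C₂) / s)) ≤ ∑' τ : ℤ, ∑' t : ℤ, F (τ + t, t - τ) := by
    refine le_trans ?_ (hs2.sum_le_tsum (Finset.Icc (-2 : ℤ) 2) hpos)
    refine le_trans (le_of_eq ?_) (Finset.sum_le_sum hlow)
    have h3 : (Finset.Icc (-2 : ℤ) 2).card = 5 := by decide
    rw [Finset.sum_const, h3, nsmul_eq_mul]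
    push_cast
    ring
  have b1 := abs_le.1 ((h1 s hs hs1 4 0).2 rfl).2
  have b2 := abs_le.1 ((h1 s hs hs1 3 1).2 rfl).2
  have b3 := abs_le.1 ((h1 s hs hs1 2 2).2 rfl).2
  have b4 := abs_le.1 ((h1 s hs hs1 1 3).2 rfl).2
  have b5 := abs_le.1 ((h1 s hs hs1 0 4).2 rfl).2
  have hC₁ : 0 ≤ C₁ := by linarith [b1.1, b1.2]
  have b6 : C₁ ≤ C₁ / s := le_div_self hC₁ hs hs1
  have e5 : (2 * (5 * (256 * (C * C₂))) + 16 * C₁) / s =
      2 * (5 * (256 * (C * C₂) / s)) + 16 * (C₁ / s) := by ring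
  rw [e1, e2, e5]
  linarith [b1.2, b2.1, b3.2, b4.1, b5.2]

end Vale.Agent.P163
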