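import Vale.Agent.P163.BasB
import Vale.Agent.P163.Hilb

open MvPolynomial Filter Topology

namespace Vale.Agent.P163

variable {β : ℝ} {E : Alg →ₗ[ℝ] ℝ}

/-- a reflection that preserves `E` and is positive on `H` -/
structure RPd (E : Alg →ₗ[ℝ] ℝ) (θ : Site → Site) (H : Set Site) : Prop where
  two : ∀ x, θ (θ x) = x
  inv : ∀ P, E (act θ P) = E P
  pos : ∀ P ∈ loc H, 0 ≤ E (act θ P * P)

theorem rp_act_id {g g' : Site → Site} (h : ∀ x, g (g' x) = x) (P : Alg) :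
    act g (act g' P) = P := by
  rw [act_act, show g ∘ g' = id from funext h, act_id]

theorem RPd.conj {θ : Site → Site} {H : Set Site} (h : RPd E θ H) (g g' : Site → Site)
    {θ' : Site → Site} {H' : Set Site} (hg : ∀ P, E (act g P) = E P) (h1 : ∀ x, g (g' x) = x)
    (h2 : ∀ x, θ' x = g (θ (g' x))) (h3 : ∀ x ∈ H', g' x ∈ H) (h4 : ∀ x, θ' (θ' x) = x) :
    RPd E θ' H' := by
  have e : ∀ P, act θ' P = act g (act θ (act g' P)) := fun P => by
    rw [act_act, act_act, show θ' = (g ∘ θ) ∘ g' from funext h2]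
  refine ⟨h4, fun P => ?_, fun P hP => ?_⟩
  · rw [e, hg, h.inv, ← hg, rp_act_id h1]
  · have := h.pos _ (act_mem_loc hP g' h3)
    rwa [← hg, map_mul, ← e, rp_act_id h1] at this

theorem RPd.symm {θ : Site → Site} {H : Set Site} (h : RPd E θ H) (P Q : Alg) :
    E (act θ P * Q) = E (act θ Q * P) := by
  rw [← h.inv, map_mul, rp_act_id h.two, mul_comm]

theorem RPd.le {θ : Site → Site} {H : Set Site} (h : RPd E θ H) (hE : State β E) (P : Alg) :
    E (act θ P * P) ≤ E (P * P) := by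
  have h1 := hE.pos (act θ P - P)
  have h2 : (act θ P - P) * (act θ P - P) =
      act θ (P * P) - act θ P * P - act θ P * P + P * P := by rw [map_mul]; ring
  rw [h2, map_add, map_sub, map_sub, h.inv] at h1
  linarith

/-- the form of a reflection -/
noncomputable def rpForm (E : Alg →ₗ[ℝ] ℝ) (θ : Site → Site) (H : Set Site) :
    Subalgebra.toSubmodule (loc H) →ₗ[ℝ] Subalgebra.toSubmodule (loc H) →ₗ[ℝ] ℝ :=
  ((LinearMap.mul ℝ Alg).compl₁₂ ((act θ).toLinearMap ∘ₗ Submodule.subtype _)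
    (Submodule.subtype _)).compr₂ E

theorem rpForm_apply (θ : Site → Site) (H : Set Site) (P Q : Subalgebra.toSubmodule (loc H)) :
    rpForm E θ H P Q = E (act θ P.1 * Q.1) := rfl

theorem rp_tr_mem {S S' : Set Site} {P : Alg} (hP : P ∈ loc S) (s : Site)
    (h : ∀ x ∈ S, x + s ∈ S') : tr s P ∈ loc S' := act_mem_loc hP (fun x => x + s) h

/-- translations that preserve `H` -/
noncomputable def rpShift {H : Set Site} {s : Site} (hs : ∀ x ∈ H, x + s ∈ H) :
    Subalgebra.toSubmodule (loc H) →ₗ[ℝ] Subalgebra.toSubmodule (loc H) :=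
  (tr s).toLinearMap.restrict fun _ hP => rp_tr_mem hP s hs

theorem rpShift_apply {H : Set Site} {s : Site} (hs : ∀ x ∈ H, x + s ∈ H)
    (P : Subalgebra.toSubmodule (loc H)) : (rpShift hs P).1 = tr s P.1 := rfl

theorem rpShift_pow {H : Set Site} {s : Site} (hs : ∀ x ∈ H, x + s ∈ H) (m : ℕ)
    (P : Subalgebra.toSubmodule (loc H)) : ((rpShift hs ^ m) P).1 = tr (m • s) P.1 := by
  induction m with
  | zero => rw [pow_zero, zero_smul, tr_zero]; rfl
  | succ m ih => rw [pow_succ', Module.End.mul_apply, rpShift_apply, ih, tr_tr, succ_nsmul]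

theorem RPd.shift_symm {θ : Site → Site} {H : Set Site} (hE : State β E) {s : Site}
    (hs : ∀ x ∈ H, x + s ∈ H) (hθ : ∀ x, θ (x + s) + s = θ x)
    (P Q : Subalgebra.toSubmodule (loc H)) :
    rpForm E θ H (rpShift hs P) Q = rpForm E θ H P (rpShift hs Q) := by
  rw [rpForm_apply, rpForm_apply, rpShift_apply, rpShift_apply, ← hE.trans s, map_mul]
  have : tr s (act θ (tr s P.1)) = act θ P.1 := by
    simp only [tr, act_act, Function.comp_def, hθ]
  rw [this]

theorem RPd.shift_bdd {θ : Site → Site} {H : Set Site} (h : RPd E θ H) (hE : State β E)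
    {s : Site} (hs : ∀ x ∈ H, x + s ∈ H) (P : Subalgebra.toSubmodule (loc H)) :
    ∃ C, ∀ m, rpForm E θ H ((rpShift hs ^ m) P) ((rpShift hs ^ m) P) ≤ C := by
  refine ⟨E (P.1 * P.1), fun m => ?_⟩
  rw [rpForm_apply, rpShift_pow]
  refine (h.le hE _).trans_eq ?_
  rw [← map_mul, hE.trans]

theorem State.rp_fl (h : State β E) : RPd E fl {x | 0 ≤ x.1} :=
  ⟨fun x => by simp [fl], h.flip, h.rp1⟩

theorem State.rp_sw (h : State β E) : RPd E sw {x | x.2 ≤ x.1} :=
  ⟨fun x => by simp [sw], h.swap, h.rp2⟩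

theorem State.rp_flc (h : State β E) (c : ℤ) : RPd E (flc c) {x | c ≤ x.1} := by
  refine h.rp_fl.conj (fun x => x + (c, 0)) (fun x => x + (-c, 0)) (h.trans _) (fun x => ?_)
    (fun x => ?_) (fun x hx => ?_) fun x => ?_
  · ext <;> simp
  · ext
    · simp [flc, fl]; ring
    · simp [flc, fl]
  · simp only [Set.mem_ofPred_eq, Prod.fst_add] at hx ⊢; omega
  · ext <;> simp [flc]

theorem State.rp_one (h : State β E) : RPd E (fun x => (x.1, -x.2)) {x | 0 ≤ x.2} :=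
  h.rp_fl.conj sw sw h.swap (fun _ => rfl) (fun _ => rfl) (fun _ hx => hx) fun x => by simp

theorem State.rp_two (h : State β E) : RPd E (fun x => (-x.2, -x.1)) {x | 0 ≤ x.1 + x.2} :=
  h.rp_sw.conj (fun x => (x.1, -x.2)) (fun x => (x.1, -x.2)) h.rp_one.inv h.rp_one.two
    (fun _ => rfl) (fun x hx => by simp only [Set.mem_ofPred_eq] at hx ⊢; omega) fun x => by simp

theorem State.rp_three (h : State β E) : RPd E sw {x | 0 ≤ x.1 - x.2} :=
  ⟨h.rp_sw.two, h.swap, fun P hP => h.rp2 P (loc_mono (fun x hx => by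
    simp only [Set.mem_ofPred_eq] at hx ⊢; omega) hP)⟩

theorem RPd.move (hE : State β E) {lam : Site → ℤ} {e : Site} {θ : Site → Site}
    (h : RPd E θ {x | 0 ≤ lam x}) (he : ∀ (k : ℤ) x, θ (x + k • e) + k • e = θ x)
    (hl : ∀ x, lam (θ x) = -lam x)
    (hle : ∀ k : ℤ, 0 ≤ k → ∀ x, lam x ≤ lam (x + k • e) ∧ lam (x + k • e) ≤ lam x + 2 * k)
    (hs : ∀ c, ∃ s, ∀ x, lam (x + s) = lam x - c)
    (A B : ℕ → Alg) (hh : ℕ → ℕ) (c : ℕ → ℤ) (K : ℝ)
    (hA : ∀ᶠ n in atTop, A n ∈ loc {x | lam x ≤ c n} ∧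
      B n ∈ loc {x | c n + 4 * (hh n : ℤ) ≤ lam x} ∧ E (A n * A n) ≤ K ∧ E (B n * B n) ≤ K)
    (m0 : ℕ) (hm : ∀ m : ℕ, m0 ≤ m →
      Tendsto (fun n => E (A n * tr ((2 * (hh n : ℤ) * m) • e) (B n))) atTop (𝓝 0)) :
    Tendsto (fun n => E (A n * B n)) atTop (𝓝 0) := by
  choose s hs using hs
  have hv : ∀ n, ∃ v : Subalgebra.toSubmodule (loc {x | 0 ≤ lam x}),
      A n ∈ loc {x | lam x ≤ c n} → v.1 = act θ (tr (s (c n)) (A n)) := by
    intro n
    by_cases hn : A n ∈ loc {x | lam x ≤ c n}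
    · refine ⟨⟨_, act_mem_loc (S := {x | lam x ≤ 0}) (rp_tr_mem hn (s (c n))
        fun x hx => ?_) θ fun x hx => ?_⟩, fun _ => rfl⟩
      · simp only [Set.mem_ofPred_eq, hs] at hx ⊢; omega
      · simp only [Set.mem_ofPred_eq, hl] at hx ⊢; omega
    · exact ⟨0, fun h => absurd h hn⟩
  have hw : ∀ n, ∃ w : Subalgebra.toSubmodule (loc {x | 0 ≤ lam x}),
      B n ∈ loc {x | c n + 4 * (hh n : ℤ) ≤ lam x} →
        w.1 = tr (s (c n) - (2 * (hh n : ℤ)) • e) (B n) := by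
    intro n
    by_cases hn : B n ∈ loc {x | c n + 4 * (hh n : ℤ) ≤ lam x}
    · refine ⟨⟨_, rp_tr_mem hn (s (c n) - (2 * (hh n : ℤ)) • e)
        fun x hx => ?_⟩, fun _ => rfl⟩
      have h1 := (hle (2 * (hh n : ℤ)) (by positivity)
        (x + (s (c n) - (2 * (hh n : ℤ)) • e))).2
      rw [add_assoc, sub_add_cancel, hs] at h1
      simp only [Set.mem_ofPred_eq] at hx ⊢
      omega
    · exact ⟨0, fun h => absurd h hn⟩
  choose v hv using hv
  choose w hw using hw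
  have hS : ∀ n, ∀ x ∈ {x | 0 ≤ lam x}, x + (hh n : ℤ) • e ∈ {x | 0 ≤ lam x} :=
    fun n x hx => le_trans hx (hle _ (by positivity) x).1
  have key : ∀ m : ℕ, ∀ᶠ n in atTop, E (A n * tr ((2 * (hh n : ℤ) * m) • e) (B n)) =
      rpForm E θ _ (v n) (((rpShift (hS n) * rpShift (hS n)) ^ (m + 1)) (w n)) := by
    intro m
    filter_upwards [hA] with n hn
    rw [rpForm_apply, ← sq, ← pow_mul, rpShift_pow, hv n hn.1, hw n hn.2.1, rp_act_id h.two,
      ← hE.trans (s (c n)), map_mul, tr_tr, tr_tr]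
    have : (2 * (hh n : ℤ) * m) • e + s (c n) =
        s (c n) - (2 * (hh n : ℤ)) • e + (2 * (m + 1)) • (hh n : ℤ) • e := by
      rw [← natCast_zsmul, smul_smul]
      push_cast
      module
    rw [this]
  have hK : ∀ᶠ n in atTop, rpForm E θ _ (v n) (v n) ≤ K ∧ rpForm E θ _ (w n) (w n) ≤ K := by
    filter_upwards [hA] with n hn
    rw [rpForm_apply, rpForm_apply]
    refine ⟨(h.le hE _).trans ?_, (h.le hE _).trans ?_⟩
    · rw [hv n hn.1, ← map_mul, h.inv, ← map_mul, hE.trans]; exact hn.2.2.1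
    · rw [hw n hn.2.1, ← map_mul, hE.trans]; exact hn.2.2.2
  have := move_abs atTop (rpForm E θ _) (fun P Q => h.symm P.1 Q.1) (fun P => h.pos P.1 P.2)
    (fun n => rpShift (hS n)) (fun n => RPd.shift_symm hE (hS n) (he _))
    (fun n => h.shift_bdd hE (hS n)) v w K hK (m0 + 1) fun m hm' => by
      obtain ⟨m, rfl⟩ : ∃ k, m = k + 1 := ⟨m - 1, by omega⟩
      exact (hm m (by omega)).congr' (key m)
  refine this.congr' ((key 0).mono fun n hn => ?_)
  simp only [Nat.cast_zero, mul_zero, zero_smul, tr_zero, zero_add, pow_one] at hn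
  exact hn.symm

/-! Reflections in vertical lines: `flc c = (· + (c,0)) ∘ fl ∘ (· - (c,0))`. -/

theorem State.flc_inv (h : State β E) (c : ℤ) (P : Alg) : E (act (flc c) P) = E P :=
  (h.rp_flc c).inv P

theorem State.flc_pos (h : State β E) (c : ℤ) {P : Alg} (hP : P ∈ loc {x | c ≤ x.1}) :
    0 ≤ E (act (flc c) P * P) :=
  (h.rp_flc c).pos P hP

theorem State.flc_cs (h : State β E) (c : ℤ) {P Q : Alg} (hP : P ∈ loc {x | c ≤ x.1})
    (hQ : Q ∈ loc {x | c ≤ x.1}) :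
    E (act (flc c) P * Q) ^ 2 ≤ E (act (flc c) P * P) * E (act (flc c) Q * Q) :=
  form_cs (rpForm E (flc c) {x | c ≤ x.1}) (fun P Q => (h.rp_flc c).symm P.1 Q.1)
    (fun P => (h.rp_flc c).pos P.1 P.2) ⟨P, hP⟩ ⟨Q, hQ⟩

theorem State.flc_le (h : State β E) (c : ℤ) (P : Alg) : E (act (flc c) P * P) ≤ E (P * P) :=
  (h.rp_flc c).le h P

/-- `shift_contr` for the translation by ` (n, 0)` on `loc {c ≤ x.1}` -/
theorem State.flc_mono (h : State β E) (c : ℤ) {P : Alg} (hP : P ∈ loc {x | c ≤ x.1}) (n : ℕ) :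
    E (act (flc c) (tr ((n : ℤ), 0) P) * tr ((n : ℤ), 0) P) ≤ E (act (flc c) P * P) := by
  have hs : ∀ x ∈ {x : Site | c ≤ x.1}, x + ((n : ℤ), 0) ∈ {x : Site | c ≤ x.1} := by
    intro x hx
    simp only [Set.mem_ofPred_eq, Prod.fst_add] at hx ⊢; omega
  refine shift_contr (rpForm E (flc c) {x | c ≤ x.1}) (fun P Q => (h.rp_flc c).symm P.1 Q.1)
    (fun P => (h.rp_flc c).pos P.1 P.2) (rpShift hs) (RPd.shift_symm h hs fun x => ?_)
    ((h.rp_flc c).shift_bdd h hs) ⟨P, hP⟩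
  ext
  · simp [flc]; ring
  · simp [flc]

/-- The three moves.  In each case there is an additive involution `θ` preserving `E`, with
`θ e = -e`, `lam (θ x) = - lam x`, and reflection positivity on `lam ≥ 0`:
`θ (x, y) = (x, -y) = sw (fl (sw ·))`, `θ (x, y) = (-y, -x) = fl (sw (fl ·))`, `θ = sw`.
Translate by a site `s n` with `lam (s n) = c n`, and apply `move_abs` to
`b P Q = E (act θ P * Q)` on the submodule `loc {lam ≥ 0}`, `S n = tr (hh n • e)`,
`v n = act θ (tr (- s n) (A n))`, `w n = tr (- s n - 2 hh n • e) (B n)` (replace them by zero when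
the eventual hypothesis fails). -/
theorem State.move (h : State β E) (lam : Site → ℤ) (e : Site)
    (hd : (lam = (fun x => x.2) ∧ e = (0, 1)) ∨ (lam = (fun x => x.1 + x.2) ∧ e = (1, 1)) ∨
      (lam = (fun x => x.1 - x.2) ∧ e = (1, -1)))
    (A B : ℕ → Alg) (hh : ℕ → ℕ) (c : ℕ → ℤ) (K : ℝ)
    (hA : ∀ᶠ n in atTop, A n ∈ loc {x | lam x ≤ c n} ∧
      B n ∈ loc {x | c n + 4 * (hh n : ℤ) ≤ lam x} ∧ E (A n * A n) ≤ K ∧ E (B n * B n) ≤ K)
    (m0 : ℕ) (hm : ∀ m : ℕ, m0 ≤ m →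
      Tendsto (fun n => E (A n * tr ((2 * (hh n : ℤ) * m) • e) (B n))) atTop (𝓝 0)) :
    Tendsto (fun n => E (A n * B n)) atTop (𝓝 0) := by
  rcases hd with ⟨rfl, rfl⟩ | ⟨rfl, rfl⟩ | ⟨rfl, rfl⟩
  · refine RPd.move h h.rp_one (fun k x => ?_) (fun x => rfl) (fun k hk x => ?_)
      (fun c => ⟨(0, -c), fun x => ?_⟩) A B hh c K hA m0 hm
    · ext <;> simp
    · simp; omega
    · simp; omega
  · refine RPd.move h h.rp_two (fun k x => ?_) (fun x => ?_) (fun k hk x => ?_)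
      (fun c => ⟨(-c, 0), fun x => ?_⟩) A B hh c K hA m0 hm
    · ext <;> simp
    · simp
    · simp; omega
    · simp; omega
  · refine RPd.move h h.rp_three (fun k x => ?_) (fun x => ?_) (fun k hk x => ?_)
      (fun c => ⟨(-c, 0), fun x => ?_⟩) A B hh c K hA m0 hm
    · ext <;> simp [sw]
    · simp [sw]
    · simp; omega
    · simp; omega

end Vale.Agent.P163
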