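import Vale.Agent.P163.PosA
import Vale.Agent.P163.PosB

open Filter Topology

namespace Vale.Agent.P163

/-- squared length -/
def smallR (d : Site) : ℝ := (d.1 : ℝ) ^ 2 + (d.2 : ℝ) ^ 2

theorem small_R_nonneg (d : Site) : 0 ≤ smallR d := by
  unfold smallR
  positivity

theorem small_sum4 {a : ℝ} (ha : 0 < a) :
    Summable fun d : Site => smallR d ^ 2 * Real.exp (-a * smallR d) := by
  refine (((summable_gauss2 ha 4 0).add ((summable_gauss2 ha 2 2).mul_left 2)).add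
    (summable_gauss2 ha 0 4)).congr fun d => ?_
  have h1 : |(d.1 : ℝ)| ^ 4 = (d.1 : ℝ) ^ 4 := Even.pow_abs (by decide) _
  have h2 : |(d.2 : ℝ)| ^ 4 = (d.2 : ℝ) ^ 4 := Even.pow_abs (by decide) _
  rw [h1, h2, sq_abs, sq_abs]
  unfold smallR
  ring

theorem small_R_le (d : Site) : smallR d ≤ smallR d ^ 2 := by
  have h : d.1 ^ 2 + d.2 ^ 2 ≤ (d.1 ^ 2 + d.2 ^ 2) ^ 2 := Int.le_self_sq _
  unfold smallR
  exact_mod_cast h

theorem small_summable {N : Site → ℝ} {C : ℝ} (hb : ∀ d, |N d| ≤ C) {a : ℝ} (ha : 0 < a)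
    {w : Site → ℝ} {K : ℝ} (hw : ∀ d, |w d| ≤ K * smallR d ^ 2) :
    Summable fun d : Site => N d * (w d * Real.exp (-a * smallR d)) := by
  refine Summable.of_norm_bounded ((small_sum4 ha).mul_left (C * K)) fun d => ?_
  have h0 : 0 ≤ C := (abs_nonneg _).trans (hb d)
  have h1 := hb d
  have h2 := hw d
  rw [Real.norm_eq_abs, abs_mul, abs_mul, Real.abs_exp]
  calc |N d| * (|w d| * Real.exp (-a * smallR d))
      ≤ C * (K * smallR d ^ 2 * Real.exp (-a * smallR d)) := by gcongr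
    _ = _ := by ring

/-- second moment -/
noncomputable def smallM (N : Site → ℝ) (a : ℝ) : ℝ :=
  ∑' d : Site, N d * (smallR d * Real.exp (-a * smallR d))

/-- fourth moment -/
noncomputable def smallP (N : Site → ℝ) (a : ℝ) : ℝ :=
  ∑' d : Site, N d * (smallR d ^ 2 * Real.exp (-a * smallR d))

theorem small_deriv {N : Site → ℝ} {C : ℝ} (hb : ∀ d, |N d| ≤ C) {a : ℝ} (ha : 0 < a) :
    HasDerivAt (smallM N) (-smallP N a) a := by
  have h0 : 0 ≤ C := (abs_nonneg _).trans (hb 0)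
  have ha2 : 0 < a / 2 := by positivity
  have hm : a ∈ Set.Ioi (a / 2) := by
    rw [Set.mem_Ioi]
    linarith
  have h := hasDerivAt_tsum_of_isPreconnected
    (g := fun (d : Site) (z : ℝ) => N d * (smallR d * Real.exp (-z * smallR d)))
    (g' := fun (d : Site) (z : ℝ) => -(N d * (smallR d ^ 2 * Real.exp (-z * smallR d))))
    ((small_sum4 ha2).mul_left C) isOpen_Ioi isPreconnected_Ioi (fun d y _ => ?_)
    (fun d y hy => ?_) hm ?_ hm
  · rw [tsum_neg] at h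
    exact h
  · have h1 : HasDerivAt (fun z : ℝ => -z * smallR d) (-1 * smallR d) y :=
      (hasDerivAt_neg y).mul_const _
    refine ((h1.exp.const_mul (smallR d)).const_mul (N d)).congr_deriv ?_
    ring
  · have h1 := hb d
    have h2 : Real.exp (-y * smallR d) ≤ Real.exp (-(a / 2) * smallR d) := by
      refine Real.exp_le_exp.2 (mul_le_mul_of_nonneg_right ?_ (small_R_nonneg d))
      have := Set.mem_Ioi.1 hy
      linarith
    rw [norm_neg, Real.norm_eq_abs, abs_mul, abs_mul, Real.abs_exp,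
      abs_of_nonneg (sq_nonneg (smallR d))]
    gcongr
  · refine small_summable hb ha (K := 1) fun d => ?_
    rw [abs_of_nonneg (small_R_nonneg d), one_mul]
    exact small_R_le d

theorem small_ws (N : Site → ℝ) (i j : ℕ) (a : ℝ) : ws N 1 1 i j a =
    ∑' d : Site, N d * ((d.1 : ℝ) ^ i * (d.2 : ℝ) ^ j * Real.exp (-a * smallR d)) := by
  unfold ws smallR
  simp only [one_zpow, one_mul]

theorem small_M_eq {N : Site → ℝ} {C : ℝ} (hb : ∀ d, |N d| ≤ C) {a : ℝ} (ha : 0 < a) :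
    smallM N a = ws N 1 1 2 0 a + ws N 1 1 0 2 a := by
  rw [small_ws, small_ws, ← Summable.tsum_add]
  · refine tsum_congr fun d => ?_
    have : smallR d = (d.1 : ℝ) ^ 2 + (d.2 : ℝ) ^ 2 := rfl
    linear_combination (N d * Real.exp (-a * smallR d)) * this
  · refine small_summable hb ha (K := 1) fun d => ?_
    rw [pow_zero, mul_one, one_mul, abs_of_nonneg (sq_nonneg _)]
    refine le_trans ?_ (small_R_le d)
    exact le_add_of_nonneg_right (sq_nonneg _)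
  · refine small_summable hb ha (K := 1) fun d => ?_
    rw [pow_zero, one_mul, one_mul, abs_of_nonneg (sq_nonneg _)]
    refine le_trans ?_ (small_R_le d)
    exact le_add_of_nonneg_left (sq_nonneg _)

/-- the diagonal reflection as an equivalence -/
def smallSw : Site ≃ Site := Function.Involutive.toPerm sw fun _ => rfl

/-- the vertical reflection as an equivalence -/
def smallFl : Site ≃ Site := Function.Involutive.toPerm fl fun x => by simp [fl]

theorem small_P_eq {N : Site → ℝ} {C : ℝ} (h : NS N C kap 1 3) {a : ℝ} (ha : 0 < a) :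
    3 / 2 * smallP N a = 2 * ws N 1 1 4 0 a + 1 / 2 * ∑' d : Site, N d * (((d.1 : ℝ) - d.2) ^ 4 *
      Real.exp (-a * ((d.1 : ℝ) ^ 2 + (d.2 : ℝ) ^ 2))) := by
  have s1 : Summable fun d : Site => N d * ((d.1 : ℝ) ^ 4 * Real.exp (-a * smallR d)) := by
    refine small_summable h.bdd ha (K := 1) fun d => ?_
    rw [abs_of_nonneg (by positivity)]
    unfold smallR
    nlinarith [sq_nonneg ((d.1 : ℝ) * d.2), sq_nonneg ((d.2 : ℝ) ^ 2)]
  have s2 : Summable fun d : Site => N d * ((d.2 : ℝ) ^ 4 * Real.exp (-a * smallR d)) := by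
    refine small_summable h.bdd ha (K := 1) fun d => ?_
    rw [abs_of_nonneg (by positivity)]
    unfold smallR
    nlinarith [sq_nonneg ((d.1 : ℝ) * d.2), sq_nonneg ((d.1 : ℝ) ^ 2)]
  have s3 : Summable fun d : Site =>
      N d * (((d.1 : ℝ) - d.2) ^ 4 * Real.exp (-a * smallR d)) := by
    refine small_summable h.bdd ha (K := 4) fun d => ?_
    rw [abs_of_nonneg (by positivity)]
    have h1 : ((d.1 : ℝ) - d.2) ^ 2 ≤ 2 * smallR d := by
      unfold smallR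
      nlinarith [sq_nonneg ((d.1 : ℝ) + d.2)]
    calc ((d.1 : ℝ) - d.2) ^ 4 = (((d.1 : ℝ) - d.2) ^ 2) ^ 2 := by ring
      _ ≤ (2 * smallR d) ^ 2 := by gcongr
      _ = _ := by ring
  have s4 : Summable fun d : Site =>
      N d * (((d.1 : ℝ) + d.2) ^ 4 * Real.exp (-a * smallR d)) := by
    refine small_summable h.bdd ha (K := 4) fun d => ?_
    rw [abs_of_nonneg (by positivity)]
    have h1 : ((d.1 : ℝ) + d.2) ^ 2 ≤ 2 * smallR d := by
      unfold smallR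
      nlinarith [sq_nonneg ((d.1 : ℝ) - d.2)]
    calc ((d.1 : ℝ) + d.2) ^ 4 = (((d.1 : ℝ) + d.2) ^ 2) ^ 2 := by ring
      _ ≤ (2 * smallR d) ^ 2 := by gcongr
      _ = _ := by ring
  have e1 : ws N 1 1 4 0 a = ∑' d : Site, N d * ((d.1 : ℝ) ^ 4 * Real.exp (-a * smallR d)) := by
    rw [small_ws]
    simp only [pow_zero, mul_one]
  have e2 : ∑' d : Site, N d * ((d.2 : ℝ) ^ 4 * Real.exp (-a * smallR d)) =
      ∑' d : Site, N d * ((d.1 : ℝ) ^ 4 * Real.exp (-a * smallR d)) := by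
    rw [← smallSw.tsum_eq]
    refine tsum_congr fun d => ?_
    have h1 : smallR (smallSw d) = smallR d := add_comm _ _
    have h2 : N (smallSw d) = N d := h.swap d
    rw [h1, h2]
    rfl
  have e3 : ∑' d : Site, N d * (((d.1 : ℝ) + d.2) ^ 4 * Real.exp (-a * smallR d)) =
      ∑' d : Site, N d * (((d.1 : ℝ) - d.2) ^ 4 * Real.exp (-a * smallR d)) := by
    rw [← smallFl.tsum_eq]
    refine tsum_congr fun d => ?_
    have h0 : (((smallFl d).1 : ℤ) : ℝ) = -(d.1 : ℝ) := Int.cast_neg _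
    have h0' : (smallFl d).2 = d.2 := rfl
    have h1 : smallR (smallFl d) = smallR d := by
      unfold smallR
      rw [h0, h0', neg_sq]
    have h2 : N (smallFl d) = N d := h.flip d
    rw [h1, h2, h0, h0']
    ring
  have e4 : 3 / 2 * smallP N a =
      (∑' d : Site, N d * ((d.1 : ℝ) ^ 4 * Real.exp (-a * smallR d)) +
        ∑' d : Site, N d * ((d.2 : ℝ) ^ 4 * Real.exp (-a * smallR d))) +
      1 / 4 * (∑' d : Site, N d * (((d.1 : ℝ) + d.2) ^ 4 * Real.exp (-a * smallR d)) +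
        ∑' d : Site, N d * (((d.1 : ℝ) - d.2) ^ 4 * Real.exp (-a * smallR d))) := by
    rw [← s1.tsum_add s2, ← s4.tsum_add s3, ← tsum_mul_left,
      ← (s1.add s2).tsum_add ((s4.add s3).mul_left _), smallP, ← tsum_mul_left]
    refine tsum_congr fun d => ?_
    have : smallR d ^ 2 = ((d.1 : ℝ) ^ 2 + (d.2 : ℝ) ^ 2) ^ 2 := rfl
    linear_combination (3 / 2 * N d * Real.exp (-a * smallR d)) * this
  rw [e4, e1, e2, e3]
  unfold smallR
  ring

theorem small_p1_le {N : Site → ℝ} {C : ℝ} (h : NS N C kap 1 3) : ∃ C' : ℝ, 0 ≤ C' ∧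
    ∀ s : ℝ, 0 < s → s ≤ 1 → p1 N (s ^ 2) ≤ 3 / 16 * smallP N (s ^ 2) + C' / s := by
  obtain ⟨C1, h1⟩ := col_bound h
  obtain ⟨C2, h2⟩ := diag_bound h
  refine ⟨|C1| + |C2|, by positivity, fun s hs hs1 => ?_⟩
  have e := small_P_eq h (pow_pos hs 2)
  have a1 := h1 s hs hs1
  have a2 := h2 s hs hs1
  have b1 : C1 / s ≤ |C1| / s := div_le_div_of_nonneg_right (le_abs_self _) hs.le
  have b2 : C2 / s ≤ |C2| / s := div_le_div_of_nonneg_right (le_abs_self _) hs.le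
  have b3 : 0 ≤ |C1| / s := by positivity
  have b4 : 0 ≤ |C2| / s := by positivity
  rw [add_div]
  linarith

theorem small_p1_nonneg {N : Site → ℝ} {C : ℝ} (h : NS N C kap 1 3) {a : ℝ} (ha : 0 < a) :
    0 ≤ p1 N a :=
  tsum_nonneg fun k => mul_nonneg (by positivity) (qq_nonneg h ha _ (Nat.le_add_left 1 k))

theorem small_p1_ge {N : Site → ℝ} {C : ℝ} (h : NS N C kap 1 3) {s : ℝ} (hs : 0 < s) {L k : ℕ}
    (hL : 1 ≤ L) (hsL : s * L ≤ 1) (hk : 2 * L ≤ k) :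
    (L : ℝ) ^ 5 * Real.exp (-25) * qq N k (s ^ 2) ≤ p1 N (s ^ 2) := by
  have ha : 0 < s ^ 2 := pow_pos hs 2
  have hq : 0 ≤ qq N k (s ^ 2) := qq_nonneg h ha k (by omega)
  have hL' : (1 : ℝ) ≤ L := by exact_mod_cast hL
  refine le_trans ?_ ((p1_summable h ha).sum_le_tsum (Finset.Ico L (2 * L)) fun i _ =>
    mul_nonneg (by positivity) (qq_nonneg h ha _ (Nat.le_add_left 1 i)))
  refine le_trans ?_ (Finset.card_nsmul_le_sum _ _
    ((L : ℝ) ^ 4 * Real.exp (-25) * qq N k (s ^ 2)) fun i hi => ?_)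
  · rw [Nat.card_Ico, nsmul_eq_mul, show 2 * L - L = L by omega]
    exact le_of_eq (by ring)
  · obtain ⟨h1, h2⟩ := Finset.mem_Ico.1 hi
    have h3 : (L : ℝ) ≤ i := by exact_mod_cast h1
    have h4 : (i : ℝ) + 1 ≤ 2 * L := by exact_mod_cast h2
    have h5 : qq N k (s ^ 2) ≤ qq N (i + 1) (s ^ 2) :=
      qq_anti h ha (i + 1) k (Nat.le_add_left 1 i) (by omega)
    have h6 : (L : ℝ) ≤ 2 * (i : ℝ) + 3 := by linarith
    have h7 : s * (2 * (i : ℝ) + 3) ≤ 5 := by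
      have : 2 * (i : ℝ) + 3 ≤ 5 * L := by linarith
      nlinarith
    have h8 : (s * (2 * (i : ℝ) + 3)) ^ 2 ≤ 5 ^ 2 := by gcongr
    have h9 : Real.exp (-25) ≤ Real.exp (-s ^ 2 * (2 * (i : ℝ) + 3) ^ 2) :=
      Real.exp_le_exp.2 (by nlinarith)
    gcongr

theorem small_mvt {N : Site → ℝ} {C : ℝ} (hb : ∀ d, |N d| ≤ C) {t : ℝ} (ht : 0 < t) :
    ∃ s : ℝ, t / 2 < s ∧ s < t ∧
      smallM N ((t / 2) ^ 2) - smallM N (t ^ 2) = 3 / 4 * t ^ 2 * smallP N (s ^ 2) := by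
  have h0 : 0 < (t / 2) ^ 2 := by positivity
  have hlt : (t / 2) ^ 2 < t ^ 2 := by nlinarith
  obtain ⟨ξ, ⟨h1, h2⟩, h3⟩ := exists_hasDerivAt_eq_slope (smallM N) (fun a => -smallP N a) hlt
    (fun a ha => (small_deriv hb (h0.trans_le ha.1)).continuousAt.continuousWithinAt)
    (fun a ha => small_deriv hb (h0.trans ha.1))
  refine ⟨Real.sqrt ξ, Real.lt_sqrt_of_sq_lt h1, (Real.sqrt_lt' ht).2 h2, ?_⟩
  rw [Real.sq_sqrt (h0.trans h1).le]
  rw [eq_div_iff (sub_pos.2 hlt).ne'] at h3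
  linear_combination h3

/-- Let `M a = ws 1 1 2 0 a + ws 1 1 0 2 a` (bounded on ` (0, 1]`) and
`P a = ∑' d, N d * |d|^4 * exp (-a |d|^2)`; `M' = -P` (`hasDerivAt_tsum_of_isPreconnected` on
`Ioi a0`).  The identity `t^4 + y^4 + ((t+y)^4 + (t-y)^4)/4 = (3/2) (t^2+y^2)^2`, `swap`, `flip`,
`col_bound`, `diag_bound` give `p1 a ≤ P a + C' / sqrt a`.  The mean value theorem on
`[4^-(j+1), 4^-j]` gives `ξ j` with `M (4^-(j+1)) - M (4^-j) = (3/4) 4^-j P (ξ j)`; hence the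
nonnegative numbers `4^-j p1 (ξ j)` have bounded finite sums and tend to zero.  Then, for
`L = 2^j`, the terms `L ≤ k + 1 ≤ 2 L` of `p1` give `p1 (ξ j) ≥ exp (-25) L^5 qq (2 L)` by
`qq_anti`. -/
theorem col_small {N : Site → ℝ} {C : ℝ} (h : NS N C kap 1 3) :
    ∃ s ε : ℕ → ℝ, (∀ j, 1 / 2 ≤ s j * 2 ^ j ∧ s j * 2 ^ j ≤ 1) ∧ Tendsto ε atTop (𝓝 0) ∧
      ∀ j k : ℕ, 2 * 2 ^ j ≤ k → (2 ^ j : ℝ) ^ 3 * qq N k (s j ^ 2) ≤ ε j := by
  obtain ⟨C1, hC1, h1⟩ := small_p1_le h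
  obtain ⟨C2, h2⟩ := ws_bound h
  have ht : ∀ j : ℕ, (0 : ℝ) < (1 / 2) ^ j := fun j => by positivity
  have ht1 : ∀ j : ℕ, ((1 / 2) ^ j : ℝ) ≤ 1 := fun j => pow_le_one₀ (by norm_num) (by norm_num)
  have ht2 : ∀ j : ℕ, ((1 / 2) ^ j : ℝ) * 2 ^ j = 1 := fun j => by
    rw [← mul_pow]
    norm_num
  choose s hs1 hs2 hs3 using fun j : ℕ => small_mvt h.bdd (ht j)
  have hs0 : ∀ j, 0 < s j := fun j => (half_pos (ht j)).trans (hs1 j)
  have hM : ∀ j : ℕ, |smallM N (((1 / 2) ^ j) ^ 2)| ≤ 2 * C2 := fun j => by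
    rw [small_M_eq h.bdd (pow_pos (ht j) 2)]
    have a1 := (h2 _ (ht j) (ht1 j) 2 0).1 rfl
    have a2 := (h2 _ (ht j) (ht1 j) 0 2).1 rfl
    exact (abs_add_le _ _).trans (by linarith)
  set u : ℕ → ℝ := fun j => ((1 / 2) ^ j) ^ 2 * p1 N (s j ^ 2) with hu
  have hu0 : ∀ j, 0 ≤ u j := fun j =>
    mul_nonneg (sq_nonneg _) (small_p1_nonneg h (pow_pos (hs0 j) 2))
  have hu1 : ∀ j, u j ≤ 1 / 4 * (smallM N (((1 / 2) ^ (j + 1)) ^ 2) - smallM N (((1 / 2) ^ j) ^ 2))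
      + 4 * C1 * ((1 / 2) ^ j - (1 / 2) ^ (j + 1)) := fun j => by
    have e : ((1 / 2) ^ (j + 1) : ℝ) = (1 / 2) ^ j / 2 := by ring
    rw [e, hs3 j]
    have a1 := mul_le_mul_of_nonneg_left (h1 (s j) (hs0 j) ((hs2 j).le.trans (ht1 j)))
      (sq_nonneg ((1 / 2 : ℝ) ^ j))
    have a2 : ((1 / 2 : ℝ) ^ j) ^ 2 * (C1 / s j) ≤ 2 * C1 * (1 / 2) ^ j := by
      rw [← mul_div_assoc, div_le_iff₀ (hs0 j)]
      have a3 := mul_le_mul_of_nonneg_left (hs1 j).le
        (mul_nonneg (mul_nonneg zero_le_two hC1) (ht j).le)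
      linarith
    simp only [hu]
    linarith
  have hu2 : ∀ n, ∑ j ∈ Finset.range n, u j ≤ C2 + 4 * C1 := fun n => by
    refine (Finset.sum_le_sum fun j _ => hu1 j).trans ?_
    rw [Finset.sum_add_distrib, ← Finset.mul_sum, ← Finset.mul_sum,
      Finset.sum_range_sub (fun j => smallM N (((1 / 2) ^ j) ^ 2)),
      Finset.sum_range_sub' (fun j => ((1 / 2) ^ j : ℝ))]
    have a1 := abs_le.1 (hM n)
    have a2 := abs_le.1 (hM 0)
    have a3 := mul_nonneg hC1 (ht n).le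
    rw [pow_zero] at a2 ⊢
    generalize smallM N (((1 / 2) ^ n) ^ 2) = A at a1 ⊢
    generalize smallM N (1 ^ 2) = B at a2 ⊢
    generalize ((1 / 2) ^ n : ℝ) = t at a3 ⊢
    linarith [a1.2, a2.1]
  have hu3 : Tendsto u atTop (𝓝 0) := (summable_of_sum_range_le hu0 hu2).tendsto_atTop_zero
  have hle : ∀ j, s j * 2 ^ j ≤ 1 := fun j => by
    rw [← ht2 j]
    exact mul_le_mul_of_nonneg_right (hs2 j).le (by positivity)
  refine ⟨s, fun j => Real.exp 25 * u j, fun j => ⟨?_, hle j⟩, ?_, fun j k hk => ?_⟩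
  · have a1 := mul_le_mul_of_nonneg_right (hs1 j).le (show (0 : ℝ) ≤ 2 ^ j by positivity)
    have a2 := ht2 j
    linarith
  · simpa using hu3.const_mul (Real.exp 25)
  · have a1 := small_p1_ge h (hs0 j) (L := 2 ^ j) Nat.one_le_two_pow (by exact_mod_cast hle j) hk
    have a2 := mul_le_mul_of_nonneg_left a1
      (show 0 ≤ Real.exp 25 * ((1 / 2 : ℝ) ^ j) ^ 2 by positivity)
    have a3 : Real.exp 25 * Real.exp (-25) = 1 := by rw [← Real.exp_add]; simp
    have a4 := ht2 j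
    push_cast at a2
    refine le_trans (le_of_eq ?_) (a2.trans (le_of_eq (mul_assoc _ _ _)))
    calc ((2 : ℝ) ^ j) ^ 3 * qq N k (s j ^ 2)
        = (Real.exp 25 * Real.exp (-25)) * ((1 / 2 : ℝ) ^ j * 2 ^ j) ^ 2 *
          (((2 : ℝ) ^ j) ^ 3 * qq N k (s j ^ 2)) := by rw [a3, a4]; ring
      _ = _ := by ring

end Vale.Agent.P163
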