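import Mathlib

open MeasureTheory Filter Topology

namespace Vale.Agent.P163

/-- Sites of the square lattice. -/
abbrev Site := ℤ × ℤ

/-- The unit sphere in Euclidean `n`-space. -/
abbrev Spin (n : ℕ) := Metric.sphere (0 : EuclideanSpace ℝ (Fin n)) 1

/-- The normalized uniform measure on the sphere. -/
noncomputable def unif (n : ℕ) : Measure (Spin n) :=
  ((volume : Measure (EuclideanSpace ℝ (Fin n))).toSphere Set.univ)⁻¹ •
    (volume : Measure (EuclideanSpace ℝ (Fin n))).toSphere

/-- The box with lower left corner `a` and upper right corner `b`. -/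
noncomputable def box (a b : Site) : Finset Site := Finset.Icc a.1 b.1 ×ˢ Finset.Icc a.2 b.2

/-- The sum of the inner products over the nearest neighbour bonds of the box, each bond once;
`per = false` is the free boundary condition, `per = true` adds the bonds of the torus. -/
noncomputable def energy (n : ℕ) (a b : Site) (per : Bool) (σ : Site → Spin n) : ℝ :=
  ∑ x ∈ box a b,
    ((if x.1 < b.1 then inner ℝ (σ x).1 (σ (x.1 + 1, x.2)).1
      else if per = true then inner ℝ (σ x).1 (σ (a.1, x.2)).1 else 0) +
     (if x.2 < b.2 then inner ℝ (σ x).1 (σ (x.1, x.2 + 1)).1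
      else if per = true then inner ℝ (σ x).1 (σ (x.1, a.2)).1 else 0))

/-- The finite volume Gibbs measure (the spins outside the box stay independent and uniform). -/
noncomputable def gibbs (n : ℕ) (β : ℝ) (a b : Site) (per : Bool) : Measure (Site → Spin n) :=
  (Measure.infinitePi fun _ : Site => unif n).tilted fun σ => β * energy n a b per σ

/-- Infinite volume states: local weak limits of free or periodic Gibbs measures along a sequence
of boxes that exhausts the lattice. -/
def IsState (n : ℕ) (β : ℝ) (μ : Measure (Site → Spin n)) : Prop :=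
  IsProbabilityMeasure μ ∧ ∃ (a b : ℕ → Site) (per : ℕ → Bool),
    (∀ x : Site, ∀ᶠ k in atTop, x ∈ box (a k) (b k)) ∧
    ∀ (S : Finset Site) (g : (S → Spin n) → ℝ), Continuous g →
      Tendsto (fun k => ∫ σ, g (S.restrict σ) ∂gibbs n β (a k) (b k) (per k)) atTop
        (𝓝 (∫ σ, g (S.restrict σ) ∂μ))

end Vale.Agent.P163
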